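import Vale.Agent.P167.H871.Tr

/-!
# P167, block D1: gluing of the arms (`S_glue`)
-/

namespace Vale.Agent.P167.H871

open MeasureTheory Finset Vale.Agent.P145.FB Vale.Agent.P153 Vale.Agent.P153.Topo Vale.Agent.P167
open Relation

/-! ### The fully open box -/

/-- In a fully open box all even sites are joined. -/
theorem full_conn {ω : Cfg} {M : ℤ} (h : ∀ v : Pt, nm v ≤ M → ω v = true) (n : ℕ) :
    ∀ u : Pt, Even (u.1 + u.2) → nm u ≤ n → (n : ℤ) ≤ M → PConn (op ω) {w | nm w ≤ M} 0 u := by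
  induction n with
  | zero =>
    intro u _ hu hM
    have : u = 0 := by
      simp only [nm, max_le_iff, abs_le] at hu
      refine Prod.ext ?_ ?_ <;> simp only [Prod.fst_zero, Prod.snd_zero] <;> omega
    rw [this]
    refine PConn.refl ?_
    simp only [Set.mem_ofPred_eq, nm, Prod.fst_zero, Prod.snd_zero, abs_zero, max_self]
    simpa using hM
  | succ n ih =>
    intro u hue hu hM
    by_cases hle : nm u ≤ n
    · exact ih u hue hle (by push_cast at hM; omega)
    · obtain ⟨a, b⟩ := u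
      have hd : (nm (a, b) ≤ n + 1) := by push_cast at hu; exact hu
      clear hu
      rw [Int.even_iff] at hue
      dsimp only at hue
      simp only [nm, max_le_iff, abs_le, not_and_or, not_le] at hle hd
      set a' : ℤ := if 0 < a then a - 1 else a + 1 with ha'
      set b' : ℤ := if 0 < b then b - 1 else b + 1 with hb'
      have ha : (0 < a ∧ a' = a - 1) ∨ (a ≤ 0 ∧ a' = a + 1) := by
        rw [ha']; split_ifs <;> omega
      have hb : (0 < b ∧ b' = b - 1) ∨ (b ≤ 0 ∧ b' = b + 1) := by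
        rw [hb']; split_ifs <;> omega
      clear_value a' b'
      have h1 := ih (a', b') (by rw [Int.even_iff]; dsimp only; omega)
        (by simp only [nm, max_le_iff, abs_le]; omega) (by push_cast at hM; omega)
      refine h1.tail (v := (a', b')) (w := (a, b)) ⟨by dsimp only; omega, by dsimp only; omega, ?_⟩ ?_
      · refine h _ ?_
        simp only [nm, max_le_iff, abs_le]
        push_cast at hM
        omega
      · simp only [Set.mem_ofPred_eq, nm, max_le_iff, abs_le]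
        push_cast at hM
        omega

/-- The squares of the box. -/
noncomputable def bq (M : ℤ) : Finset Pt := Finset.Icc (-M, -M) (M, M)

theorem mem_bq {M : ℤ} {v : Pt} : v ∈ bq M ↔ nm v ≤ M := by
  simp only [bq, Finset.mem_Icc, Prod.le_def, nm, max_le_iff, abs_le]
  omega

/-- The box is fully open. -/
def full (M : ℤ) : Set Mk := {o | ∀ w ∈ bq M, o w = true}

theorem dep_full (M : ℤ) : Dep (bq M) (full M) := fun o o' ho h w hw => by rw [← ho w hw]; exact h w hw

theorem inc_full (M : ℤ) : IncS (full M) := fun _ _ ho h w hw => ho w (h w hw)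

theorem full_pos (M : ℤ) : μ.real (full M) = (1 / 2) ^ (bq M).card := fair_mu.cyl (bq M) (fun _ => true)

theorem full_arm {ω : Cfg} {M R : ℤ} (h : ω ∈ full M) (hR : 0 ≤ R) (hRM : R ≤ M) : ArmP 0 R ω := by
  have h1 : ∀ v : Pt, nm v ≤ R → ω v = true := fun v hv => h v (mem_bq.2 (hv.trans hRM))
  refine ⟨0, (R, R), by simp, by simp [nm], by simp [nm, le_abs], ?_⟩
  refine full_conn h1 R.toNat (R, R) (by dsimp only; exact Even.add_self R) ?_ (by omega)
  simp only [nm, max_le_iff, abs_le]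
  omega

theorem full_glue {ω : Cfg} {M r R : ℤ} (h : ω ∈ full M) (hA : ArmP r R ω) (hr : r ≤ M)
    (hMR : M ≤ R) (hM : 0 ≤ M) : ArmP 0 R ω := by
  obtain ⟨u, v, hu, hur, hv, huv⟩ := hA
  have h1 : ∀ v : Pt, nm v ≤ M → ω v = true := fun v hv => h v (mem_bq.2 hv)
  have h2 := full_conn h1 M.toNat u hu (by omega) (by omega)
  refine ⟨0, v, by simp, by simp [nm], hv, (h2.mono subset_rfl ?_).trans huv⟩
  intro w hw
  exact le_trans hw hMR

theorem armP_mono_left {ω : Cfg} {q q' R : ℤ} (h : ArmP q R ω) (hq : q ≤ q') : ArmP q' R ω := by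
  obtain ⟨u, v, hu, hur, hv, huv⟩ := h
  exact ⟨u, v, hu, hur.trans hq, hv, huv⟩

/-! ### Locality and monotonicity -/

theorem pconn_congr {ω ω' : Cfg} {M : ℤ} (h : ∀ v : Pt, nm v ≤ M → (ω v = true → ω' v = true))
    {u v : Pt} (huv : PConn (op ω) {w | nm w ≤ M} u v) : PConn (op ω') {w | nm w ≤ M} u v := by
  obtain ⟨h0, h1⟩ := huv
  induction h1 with
  | refl => exact PConn.refl h0
  | @tail x y hx hxy ih =>
    have hxM : x ∈ {w | nm w ≤ M} := (show PConn (op ω) {w | nm w ≤ M} u x from ⟨h0, hx⟩).right_mem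
    refine ih.tail ⟨hxy.1.1, hxy.1.2.1, ?_⟩ hxy.2
    have h3 := hxy.2
    simp only [Set.mem_ofPred_eq, nm, max_le_iff, abs_le] at hxM h3
    refine h _ ?_ hxy.1.2.2
    simp only [nm, max_le_iff, abs_le]
    omega

theorem dep_armP (q R : ℤ) : Dep (bq R) {ω : Mk | ArmP q R ω} := by
  rintro o o' ho ⟨u, v, hu, hur, hv, huv⟩
  exact ⟨u, v, hu, hur, hv, pconn_congr (fun w hw h => by rw [← ho w (mem_bq.2 hw)]; exact h) huv⟩

theorem inc_armP (q R : ℤ) : IncS {ω : Mk | ArmP q R ω} := by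
  rintro o o' ho ⟨u, v, hu, hur, hv, huv⟩
  exact ⟨u, v, hu, hur, hv, pconn_congr (fun w _ h => ho w h) huv⟩

/-- Increasing and local. -/
def IL' (A : Set Mk) : Prop := IncS A ∧ ∃ F, Dep F A

theorem IL'.inter {A B : Set Mk} (hA : IL' A) (hB : IL' B) : IL' (A ∩ B) := by
  obtain ⟨hA, F, hF⟩ := hA
  obtain ⟨hB, G, hG⟩ := hB
  exact ⟨fun o o' ho h => ⟨hA o o' ho h.1, hB o o' ho h.2⟩, _, hF.inter' hG⟩

theorem IL'.fkg {A B : Set Mk} (hA : IL' A) (hB : IL' B) :
    μ.real A * μ.real B ≤ μ.real (A ∩ B) := by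
  obtain ⟨hA, F, hF⟩ := hA
  obtain ⟨hB, G, hG⟩ := hB
  exact fair_mu.fkg (hF.mono subset_union_left) (hG.mono subset_union_right) hA hB

theorem il_armP (q R : ℤ) : IL' {ω : Mk | ArmP q R ω} := ⟨inc_armP q R, _, dep_armP q R⟩

theorem il_full (M : ℤ) : IL' (full M) := ⟨inc_full M, _, dep_full M⟩

theorem il_of_IL {Q : Set (ℤ × ℤ) → Prop} (hQ : IL Q) : IL' {o : Mk | Q (SB o)} := by
  obtain ⟨N, hN⟩ := dep_of_loc hQ.2
  exact ⟨inc_of_inc hQ.1, _, hN⟩

/-! ### Gluing -/

theorem annR_sub_Tg {t R : ℤ} (h : 4 * t ≤ R) : annR (-1) 0 t ⊆ Tg {w | nm w ≤ R} := by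
  rintro z hz s rfl
  have h1 := hz.1
  rw [mem_rc] at h1
  simp only [fi] at h1
  simp only [Set.mem_ofPred_eq, nm, max_le_iff, abs_le]
  omega

theorem rc_sub_Tg {h t R : ℤ} (hh : h ≤ t) (hR : 4 * t + 2 ≤ R) :
    rc (-1) (2 * t) (-h) h ⊆ Tg {w | nm w ≤ R} := by
  rintro z hz s rfl
  rw [mem_rc] at hz
  simp only [fi] at hz
  simp only [Set.mem_ofPred_eq, nm, max_le_iff, abs_le]
  omega

theorem Tg_mono {A B : Set Pt} (h : A ⊆ B) : Tg A ⊆ Tg B := fun _ hz s hs => h (hz s hs)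

/-- The crossing event between two circuits. -/
def conE (h t1 t2 : ℤ) : Set Mk :=
  ({o | Ann (-1) 0 t1 (SB o)} ∩ {o | Ann (-1) 0 t2 (SB o)}) ∩ {o | LRc (-1) (2 * t2) (-h) h (SB o)}

theorem glue_det {ω : Cfg} {h t1 t2 q r R : ℤ} (_hh : 0 ≤ h) (ht1 : 0 < t1) (hht : h ≤ t1)
    (ht12 : t1 ≤ t2) (hR : 4 * t2 + 2 ≤ R) (hrt : r ≤ t2) (hrR : r ≤ R)
    (hE : ω ∈ conE h t1 t2) (hout : ArmP r R ω)
    (hin : (ArmP q r ω ∧ q ≤ t1 ∧ 4 * t1 ≤ r) ∨ 4 * t1 + 1 ≤ q) : ArmP q R ω := by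
  obtain ⟨⟨hA1, hA2⟩, hL⟩ := hE
  have hA1 : Ann (-1) 0 t1 (SB ω) := hA1
  have hA2 : Ann (-1) 0 t2 (SB ω) := hA2
  obtain ⟨x, y, hxy, hx, hy⟩ := hL
  obtain ⟨o1, ho1, H1⟩ := Ann.cluster ht1 hA1
  obtain ⟨o2, ho2, H2⟩ := Ann.cluster (by omega) hA2
  obtain ⟨T, hT⟩ : ∃ T, T = SB ω ∩ Tg {w | nm w ≤ R} := ⟨_, rfl⟩
  have sT1 : SB ω ∩ annR (-1) 0 t1 ⊆ T := by
    rw [hT]; exact Set.inter_subset_inter_right _ (annR_sub_Tg (by omega))
  have sT2 : SB ω ∩ annR (-1) 0 t2 ⊆ T := by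
    rw [hT]; exact Set.inter_subset_inter_right _ (annR_sub_Tg (by omega))
  have sT3 : SB ω ∩ rc (-1) (2 * t2) (-h) h ⊆ T := by
    rw [hT]; exact Set.inter_subset_inter_right _ (rc_sub_Tg (by omega) hR)
  have hxr : x ∈ rc (-1) (2 * t2) (-h) h := hxy.left_mem.2
  rw [mem_rc] at hxr
  -- the crossing meets both circuits
  have c12 : NC T o1 o2 := by
    obtain ⟨w1, hw1, hw1'⟩ := H1 _ x y hxy.cluster.conn (by rw [mem_rc]; omega) (by omega)
    obtain ⟨w2, hw2, hw2'⟩ := H2 _ x y hxy.cluster.conn (by rw [mem_rc]; omega) (by omega)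
    exact ((hw1'.mono sT1).trans ((NC.symm hw1).mono sT3)).trans
      ((NC.mono sT3 hw2).trans (hw2'.mono sT2).symm)
  -- the outer arm
  obtain ⟨u, v, hu, hur, hv, huv⟩ := hout
  have hnc := nc_of_pconn hu huv
  rw [← hT] at hnc
  have c2v : NC T o2 (fi v) := by
    simp only [nm, max_le_iff, abs_le] at hur
    simp only [nm, le_max_iff, le_abs] at hv
    obtain ⟨w3, hw3, hw3'⟩ := H2 _ _ _ hnc.cluster.conn (by rw [mem_rc]; simp only [fi]; omega)
      (by simp only [fi]; omega)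
    exact (hw3'.mono sT2).trans ((NC.symm hw3).trans hnc)
  have c1v := c12.trans c2v
  rcases hin with ⟨hin, hq1, h4⟩ | hq
  · obtain ⟨u', v', hu', hur', hv', huv'⟩ := hin
    have hnc' := nc_of_pconn hu' huv'
    have hsub : SB ω ∩ Tg {w | nm w ≤ r} ⊆ T := by
      rw [hT]
      exact Set.inter_subset_inter_right _ (Tg_mono fun w hw => le_trans hw hrR)
    simp only [nm, max_le_iff, abs_le] at hur'
    simp only [nm, le_max_iff, le_abs] at hv'
    obtain ⟨w4, hw4, hw4'⟩ := H1 _ _ _ hnc'.cluster.conn (by rw [mem_rc]; simp only [fi]; omega)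
      (by simp only [fi]; omega)
    have c : NC T (fi u') (fi v) := (NC.mono hsub hw4).trans ((hw4'.mono sT1).symm.trans c1v)
    rw [hT] at c
    refine ⟨u', v, hu', ?_, hv, pconn_of_nc hu' c⟩
    simp only [nm, max_le_iff, abs_le]
    omega
  · -- a site of the inner circuit
    have key : ∃ k0 : Pt, Even (k0.1 + k0.2) ∧ nm k0 ≤ q ∧ NC T o1 (fi k0) := by
      have ho := ho1.2.1
      rw [mem_rc] at ho
      have hoT : o1 ∈ T := sT1 ho1
      have fin : ∀ z : Pt, z ∈ SB ω → Even z.1 ∧ Even z.2 → -(4 * t1 + 1) ≤ z.1 + 2 → z.1 + 2 ≤ 4 * t1 + 1 →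
          -(4 * t1 + 1) ≤ z.2 → z.2 ≤ 4 * t1 + 1 → NC T o1 z →
          ∃ k0 : Pt, Even (k0.1 + k0.2) ∧ nm k0 ≤ q ∧ NC T o1 (fi k0) := by
        intro z hz hze a b c d hn
        have e : fi (uf z) = z := fi_uf (hze.1.add hze.2)
        refine ⟨uf z, ?_, ?_, by rw [e]; exact hn⟩
        · rw [← even_fi1, e]; exact hze
        · simp only [nm, max_le_iff, abs_le, uf]
          omega
      rcases ho1.1 with hev | ⟨hodd, hop⟩
      · exact fin o1 ho1.1 hev (by omega) (by omega) (by omega) (by omega) (NC.refl hoT)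
      · have memT : ∀ z : Pt, z ∈ SB ω → -(4 * t1 + 1) ≤ z.1 + 2 → z.1 + 2 ≤ 4 * t1 + 1 →
            -(4 * t1 + 1) ≤ z.2 → z.2 ≤ 4 * t1 + 1 → z ∈ T := by
          intro z hz a b c d
          rw [hT]
          refine ⟨hz, ?_⟩
          rintro s rfl
          simp only [fi] at a b c d
          simp only [Set.mem_ofPred_eq, nm, max_le_iff, abs_le]
          omega
        rcases Int.even_or_odd o1.1 with h | h
        · have he : Even (o1.2 + 1) := by simp only [Int.odd_iff, Int.even_iff] at *; omega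
          have hz : (o1.1, o1.2 + 1) ∈ SB ω := Or.inl ⟨h, he⟩
          exact fin (o1.1, o1.2 + 1) hz ⟨h, he⟩ (by dsimp only; omega) (by dsimp only; omega)
            (by dsimp only; omega) (by dsimp only; omega)
            (NC.of_nn hoT (memT _ hz (by dsimp only; omega) (by dsimp only; omega)
              (by dsimp only; omega) (by dsimp only; omega)) (by unfold NN; dsimp only; omega))
        · have he : Even (o1.1 + 1) := by simp only [Int.odd_iff, Int.even_iff] at *; omega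
          have he' : Even o1.2 := by simp only [Int.odd_iff, Int.even_iff] at *; omega
          rcases le_or_gt (o1.1 + 2) (4 * t1) with hlt | hlt
          · have hz : (o1.1 + 1, o1.2) ∈ SB ω := Or.inl ⟨he, he'⟩
            exact fin (o1.1 + 1, o1.2) hz ⟨he, he'⟩ (by dsimp only; omega) (by dsimp only; omega)
              (by dsimp only; omega) (by dsimp only; omega)
              (NC.of_nn hoT (memT _ hz (by dsimp only; omega) (by dsimp only; omega)
                (by dsimp only; omega) (by dsimp only; omega)) (by unfold NN; dsimp only; omega))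
          · omega
    obtain ⟨k0, hk1, hk2, hk3⟩ := key
    have c : NC T (fi k0) (fi v) := hk3.symm.trans c1v
    rw [hT] at c
    exact ⟨k0, v, hk1, hk2, hv, pconn_of_nc hk1 c⟩

/-- The connection event has probability bounded below. -/
theorem conE_ge : ∃ c : ℝ, 0 < c ∧ ∃ r0 : ℤ, 0 < r0 ∧ ∀ h t1 t2 : ℤ, r0 ≤ h → h ≤ t1 → t1 ≤ t2 →
    2 * t2 + 1 ≤ 62 * h → c ≤ μ.real (conE h t1 t2) := by
  obtain ⟨c1, hc1, r1, hr1⟩ := rsw_L fair_mu
  obtain ⟨c2, hc2, r2, hr2, h2⟩ := ann_ge fair_mu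
  have hsq : ∀ n : ℤ, 0 ≤ n → (1 / 2 : ℝ) ≤ (pp μ fair_mu).L n n := fun n hn => sq_half fair_mu hn
  refine ⟨c2 * c2 * (c1 * (1 / 2 * c1) ^ 9), by positivity, max r1 r2, lt_of_lt_of_le hr2
    (le_max_right _ _), fun h t1 t2 hh h1 h12 h3 => ?_⟩
  have hr1' : r1 ≤ h := le_trans (le_max_left _ _) hh
  have hr2' : r2 ≤ h := le_trans (le_max_right _ _) hh
  have e1 := (h2 t1 (by omega) (-1) 0).1
  have e2 := (h2 t2 (by omega) (-1) 0).1
  have e3 : c1 * (1 / 2 * c1) ^ 9 ≤ μ.real {o : Mk | LRc (-1) (2 * t2) (-h) h (SB o)} := by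
    have f1 := (pp μ fair_mu).L_iter geo (c0 := 1 / 2) (by norm_num) (h := 2 * h) (k := 3 * (2 * h))
      (by omega) (by omega) (hsq _ (by omega)) hc1.le
      (by have := hr1 (2 * h) (by omega); have e : 2 * h + 3 * (2 * h) = 4 * (2 * h) := by ring
          rw [e]; exact this) 9
    refine f1.trans ?_
    have f2 := (pp μ fair_mu).L_eq' (-1) (2 * t2) (-h) h
    rw [pp_p] at f2
    rw [f2]
    refine PP.L_mono (pp μ fair_mu) geo (by omega) ?_ (by omega)
    push_cast
    omega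
  have i1 := il_of_IL (IL_Ann (-1) 0 t1)
  have i2 := il_of_IL (IL_Ann (-1) 0 t2)
  have i3 := il_of_IL (IL_LRc (-1) (2 * t2) (-h) h)
  calc c2 * c2 * (c1 * (1 / 2 * c1) ^ 9) ≤
      μ.real {o : Mk | Ann (-1) 0 t1 (SB o)} * μ.real {o : Mk | Ann (-1) 0 t2 (SB o)} *
        μ.real {o : Mk | LRc (-1) (2 * t2) (-h) h (SB o)} := by gcongr
    _ ≤ μ.real ({o : Mk | Ann (-1) 0 t1 (SB o)} ∩ {o : Mk | Ann (-1) 0 t2 (SB o)}) *
        μ.real {o : Mk | LRc (-1) (2 * t2) (-h) h (SB o)} := by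
        gcongr
        exact i1.fkg i2
    _ ≤ _ := (i1.inter i2).fkg i3

/-- **D1 (S_glue).** -/
theorem s_glue : S_glue := by
  obtain ⟨c, hc, r0, hr0, hE⟩ := conE_ge
  obtain ⟨M, hM⟩ : ∃ M : ℤ, M = 16 * r0 + 128 := ⟨_, rfl⟩
  have hfull := full_pos M
  set d : ℝ := (1 / 2) ^ (bq M).card with hd
  have hdp : 0 < d := by positivity
  refine ⟨min c d, lt_min hc hdp, fun q r R hq hqr hr hrR => ?_⟩
  have n1 : 0 ≤ μ.real {ω | ArmP q r ω} := measureReal_nonneg
  have n2 : 0 ≤ μ.real {ω | ArmP r R ω} := measureReal_nonneg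
  have l1 : μ.real {ω | ArmP q r ω} ≤ 1 := measureReal_le_one
  have l2 : μ.real {ω | ArmP r R ω} ≤ 1 := measureReal_le_one
  rcases lt_or_ge r M with hrM | hrM
  · -- small scales
    have step : d * μ.real {ω | ArmP r R ω} ≤ μ.real {ω | ArmP q R ω} := by
      rcases le_or_gt R M with hRM | hRM
      · calc d * μ.real {ω | ArmP r R ω} ≤ d * 1 := by gcongr
          _ = μ.real (full M) := by rw [mul_one, hfull]
          _ ≤ _ := measureReal_mono fun ω hω => armP_mono_left (full_arm hω (by omega) hRM) hq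
      · calc d * μ.real {ω | ArmP r R ω} = μ.real (full M) * μ.real {ω | ArmP r R ω} := by rw [hfull]
          _ ≤ μ.real (full M ∩ {ω | ArmP r R ω}) := (il_full M).fkg (il_armP r R)
          _ ≤ _ := measureReal_mono fun ω hω => armP_mono_left (full_glue hω.1 hω.2 hrM.le hRM.le
              (by omega)) hq
    calc min c d * μ.real {ω | ArmP q r ω} * μ.real {ω | ArmP r R ω}
        ≤ d * 1 * μ.real {ω | ArmP r R ω} := by
          gcongr
          exact min_le_right _ _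
      _ ≤ _ := by rw [mul_one]; exact step
  · -- large scales
    obtain ⟨h, hh⟩ : ∃ h : ℤ, h = r / 16 - 1 := ⟨_, rfl⟩
    have hh0 : r0 ≤ h := by omega
    rcases le_or_gt q (r / 4) with hq4 | hq4
    · have e1 := hE h (r / 4) (r + 1) hh0 (by omega) (by omega) (by omega)
      have iE : IL' (conE h (r / 4) (r + 1)) := ((il_of_IL (IL_Ann _ _ _)).inter
        (il_of_IL (IL_Ann _ _ _))).inter (il_of_IL (IL_LRc _ _ _ _))
      calc min c d * μ.real {ω | ArmP q r ω} * μ.real {ω | ArmP r R ω}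
          ≤ μ.real (conE h (r / 4) (r + 1)) * μ.real {ω | ArmP q r ω} * μ.real {ω | ArmP r R ω} := by
            gcongr
            exact (min_le_left _ _).trans e1
        _ ≤ μ.real (conE h (r / 4) (r + 1) ∩ {ω | ArmP q r ω}) * μ.real {ω | ArmP r R ω} := by
            gcongr
            exact iE.fkg (il_armP q r)
        _ ≤ μ.real ((conE h (r / 4) (r + 1) ∩ {ω | ArmP q r ω}) ∩ {ω | ArmP r R ω}) :=
            (iE.inter (il_armP q r)).fkg (il_armP r R)
        _ ≤ _ := measureReal_mono fun ω hω => glue_det (h := h) (t1 := r / 4) (t2 := r + 1)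
            (by omega) (by omega) (by omega) (by omega) (by omega) (by omega) (by omega) hω.1.1 hω.2
            (Or.inl ⟨hω.1.2, hq4, by omega⟩)
    · have e1 := hE h h (r + 1) hh0 le_rfl (by omega) (by omega)
      have iE : IL' (conE h h (r + 1)) := ((il_of_IL (IL_Ann _ _ _)).inter
        (il_of_IL (IL_Ann _ _ _))).inter (il_of_IL (IL_LRc _ _ _ _))
      calc min c d * μ.real {ω | ArmP q r ω} * μ.real {ω | ArmP r R ω}
          ≤ μ.real (conE h h (r + 1)) * 1 * μ.real {ω | ArmP r R ω} := by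
            gcongr
            exact (min_le_left _ _).trans e1
        _ = μ.real (conE h h (r + 1)) * μ.real {ω | ArmP r R ω} := by rw [mul_one]
        _ ≤ μ.real (conE h h (r + 1) ∩ {ω | ArmP r R ω}) := iE.fkg (il_armP r R)
        _ ≤ _ := measureReal_mono fun ω hω => glue_det (h := h) (t1 := h) (t2 := r + 1)
            (by omega) (by omega) le_rfl (by omega) (by omega) (by omega) (by omega) hω.1 hω.2
            (Or.inr (by omega))

end Vale.Agent.P167.H871
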