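import Vale.Agent.P167.H871.Fair
import Vale.Agent.P145.FB.Tassion3
import Vale.Agent.P145.FB.Geo
import Vale.Agent.P145.FB.SqDet

/-!
# P167, block D: the percolation of the fine lattice

Faces of the six-vertex lattice: `(a, b)`, fine point `(a + b, a - b)`. Vertex `(i, j)` of the
six-vertex lattice (between the faces `(i, j)`, `(i - 1, j)`, `(i, j - 1)`, `(i - 1, j - 1)`): fine
point `(i + j - 1, i - j)`, inverse `vx`. The even faces are the fine points with two even
coordinates, the odd faces the fine points with two odd coordinates. `SB o` : the even faces and the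
bonds `w` with `o w = true`. The complement of `SB o` : the odd faces and the dual bonds (the `w` with
`o w = false`).
-/

namespace Vale.Agent.P167.H871

open MeasureTheory Finset Vale.Agent.P145.FB

/-- The vertex of the six-vertex lattice at a fine point with odd coordinate sum. -/
def vx (p : Pt) : Pt := ((p.1 + p.2 + 1) / 2, (p.1 - p.2 + 1) / 2)

/-- The fine point of a vertex of the six-vertex lattice. -/
def px (w : Pt) : Pt := (w.1 + w.2 - 1, w.1 - w.2)

theorem vx_px (w : Pt) : vx (px w) = w := by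
  obtain ⟨i, j⟩ := w
  simp only [vx, px, Prod.mk.injEq]
  constructor <;> omega

theorem px_vx {p : Pt} (hp : Odd (p.1 + p.2)) : px (vx p) = p := by
  obtain ⟨a, b⟩ := p
  rw [Int.odd_iff] at hp
  simp only at hp
  simp only [vx, px, Prod.mk.injEq]
  constructor <;> omega

theorem px_odd (w : Pt) : Odd ((px w).1 + (px w).2) := by
  rw [Int.odd_iff]
  simp only [px]
  omega

/-- The even faces and the open bonds. -/
def SB (o : Mk) : Set Pt := {p | (Even p.1 ∧ Even p.2) ∨ (Odd (p.1 + p.2) ∧ o (vx p) = true)}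

theorem bond_SB (o : Mk) : Bond (SB o) := by
  refine ⟨fun x y => Or.inl ⟨by simp, by simp⟩, fun x y => ?_⟩
  rintro (⟨h, -⟩ | ⟨h, -⟩)
  · simp only at h
    rw [Int.even_iff] at h
    omega
  · simp only at h
    rw [Int.odd_iff] at h
    omega

theorem SB_mono {o o' : Mk} (h : ∀ w, o w = true → o' w = true) : SB o ⊆ SB o' := by
  rintro p (hp | ⟨hp, h1⟩)
  · exact Or.inl hp
  · exact Or.inr ⟨hp, h _ h1⟩

/-- The vertices which code the points of the box `[-N, N]^2` of the fine lattice. -/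
noncomputable def bx (N : ℤ) : Finset Pt := ((Finset.Icc (-N) N) ×ˢ (Finset.Icc (-N) N)).image vx

theorem mem_bx {N : ℤ} {z : Pt} (h1 : |z.1| ≤ N) (h2 : |z.2| ≤ N) : vx z ∈ bx N := by
  rw [abs_le] at h1 h2
  exact Finset.mem_image_of_mem _ (by simp only [Finset.mem_product, Finset.mem_Icc]; exact ⟨h1, h2⟩)

theorem SB_congr {o o' : Mk} {z : Pt} (h : o (vx z) = o' (vx z)) : z ∈ SB o ↔ z ∈ SB o' := by
  simp only [SB, Set.mem_ofPred_eq, h]

theorem dep_of_loc {Q : Set (ℤ × ℤ) → Prop} (hQ : Loc Q) : ∃ N : ℤ, Dep (bx N) {o : Mk | Q (SB o)} := by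
  obtain ⟨N, hN⟩ := hQ
  exact ⟨N, fun o o' ho h => hN _ _ (fun z h1 h2 => SB_congr (ho _ (mem_bx h1 h2))) h⟩

theorem inc_of_inc {Q : Set (ℤ × ℤ) → Prop} (hQ : Inc Q) : IncS {o : Mk | Q (SB o)} :=
  fun _ _ ho h => hQ _ _ (SB_mono ho) h

/-- Transport of a symmetry of the fine lattice to the vertices. -/
theorem real_comp {mu : Measure Mk} (hm : Fair mu) {Q : Set (ℤ × ℤ) → Prop} (hQ : Loc Q)
    (g : Pt → Pt) (e : Pt ≃ Pt) (hg : ∀ p : Pt, Odd (p.1 + p.2) → vx (g p) = e (vx p))
    (ho : ∀ z : Pt, Odd ((g z).1 + (g z).2) ↔ Odd (z.1 + z.2))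
    (he : ∀ z : Pt, (Even (g z).1 ∧ Even (g z).2) ↔ (Even z.1 ∧ Even z.2)) :
    mu.real {o | Q {z | g z ∈ SB o}} = mu.real {o | Q (SB o)} := by
  obtain ⟨N, hN⟩ := dep_of_loc hQ
  rw [← hm.symm hN e (fun _ => false)]
  congr 1
  ext o
  have : {z | g z ∈ SB o} = SB (fun w => xor (o (e w)) false) := by
    ext z
    simp only [SB, Set.mem_ofPred_eq, Bool.xor_false, he z, ho z]
    constructor
    · rintro (h | ⟨h1, h2⟩)
      · exact Or.inl h
      · exact Or.inr ⟨h1, by rw [← hg z h1]; exact h2⟩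
    · rintro (h | ⟨h1, h2⟩)
      · exact Or.inl h
      · exact Or.inr ⟨h1, by rw [hg z h1]; exact h2⟩
  simp only [Set.mem_ofPred_eq]
  rw [this]

/-- The shift of the vertices. -/
def eSh (a b : ℤ) : Pt ≃ Pt where
  toFun w := (w.1 + (a + b), w.2 + (a - b))
  invFun w := (w.1 - (a + b), w.2 - (a - b))
  left_inv w := by simp
  right_inv w := by simp

def eRx : Pt ≃ Pt where
  toFun w := (1 - w.2, 1 - w.1)
  invFun w := (1 - w.2, 1 - w.1)
  left_inv w := by simp
  right_inv w := by simp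

def eRy : Pt ≃ Pt where
  toFun w := (w.2, w.1)
  invFun w := (w.2, w.1)
  left_inv _ := rfl
  right_inv _ := rfl

def eSw : Pt ≃ Pt where
  toFun w := (w.1, 1 - w.2)
  invFun w := (w.1, 1 - w.2)
  left_inv w := by simp
  right_inv w := by simp

/-- The map of the vertices in the duality. -/
def pe : Pt ≃ Pt where
  toFun w := (w.1 + 1, 1 - w.2)
  invFun w := (w.1 - 1, 1 - w.2)
  left_inv w := by simp
  right_inv w := by simp

/-- Bernoulli percolation as a percolation of the fine lattice. -/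
noncomputable def pp (mu : Measure Mk) (hm : Fair mu) : PP :=
  haveI := hm.prob
  { p := fun Q => mu.real {o | Q (SB o)}
    nonneg := fun _ => measureReal_nonneg
    le_one := fun _ => measureReal_le_one
    mono := fun Q R h => measureReal_mono (fun x hx => h _ hx)
    or_le := fun Q R => measureReal_union_le _ _
    fkg := by
      intro Q R hQ hR
      obtain ⟨N, hN⟩ := dep_of_loc hQ.2
      obtain ⟨N', hN'⟩ := dep_of_loc hR.2
      exact hm.fkg (hN.mono subset_union_left) (hN'.mono subset_union_right)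
        (inc_of_inc hQ.1) (inc_of_inc hR.1)
    shift := by
      intro a b Q hQ
      refine real_comp hm hQ.2 (fun z => (z.1 + 2 * a, z.2 + 2 * b)) (eSh a b) ?_ ?_ ?_
      · rintro ⟨x, y⟩ h
        rw [Int.odd_iff] at h
        simp only [vx, eSh, Equiv.coe_fn_mk, Prod.mk.injEq] at h ⊢
        constructor <;> omega
      · rintro ⟨x, y⟩; simp only [Int.odd_iff]; omega
      · rintro ⟨x, y⟩; simp only [Int.even_iff]; omega
    reflx := by
      intro Q hQ
      refine real_comp hm hQ.2 (fun z => (-z.1, z.2)) eRx ?_ ?_ ?_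
      · rintro ⟨x, y⟩ h
        rw [Int.odd_iff] at h
        simp only [vx, eRx, Equiv.coe_fn_mk, Prod.mk.injEq] at h ⊢
        constructor <;> omega
      · rintro ⟨x, y⟩; simp only [Int.odd_iff]; omega
      · rintro ⟨x, y⟩; simp only [Int.even_iff]; omega
    refly := by
      intro Q hQ
      refine real_comp hm hQ.2 (fun z => (z.1, -z.2)) eRy ?_ ?_ ?_
      · rintro ⟨x, y⟩ h
        rw [Int.odd_iff] at h
        simp only [vx, eRy, Equiv.coe_fn_mk, Prod.mk.injEq] at h ⊢
        constructor <;> omega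
      · rintro ⟨x, y⟩; simp only [Int.odd_iff]; omega
      · rintro ⟨x, y⟩; simp only [Int.even_iff]; omega
    swap := by
      intro Q hQ
      refine real_comp hm hQ.2 (fun z => (z.2, z.1)) eSw ?_ ?_ ?_
      · rintro ⟨x, y⟩ h
        rw [Int.odd_iff] at h
        simp only [vx, eSw, Equiv.coe_fn_mk, Prod.mk.injEq] at h ⊢
        constructor <;> omega
      · rintro ⟨x, y⟩; simp only [Int.odd_iff]; omega
      · rintro ⟨x, y⟩; simp only [Int.even_iff]; omega }

theorem pp_p (mu : Measure Mk) (hm : Fair mu) (Q : Set (ℤ × ℤ) → Prop) :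
    (pp mu hm).p Q = mu.real {o | Q (SB o)} := rfl

/-! ### Duality -/

theorem vx_mirror {p : Pt} (hp : Odd (p.1 + p.2)) : vx (p.2 + 1, p.1 + 1) = pe (vx p) := by
  rw [Int.odd_iff] at hp
  simp only [vx, pe, Equiv.coe_fn_mk, Prod.mk.injEq]
  constructor <;> omega

theorem dl_SB (o o' : Mk) (h : ∀ w, (!(o (pe w))) = o' w) : dl (SB o) = SB o' := by
  ext p
  simp only [dl, SB, Set.mem_ofPred_eq]
  by_cases hp : Odd (p.1 + p.2)
  · have h1 : Odd (p.2 + 1 + (p.1 + 1)) := by
      rw [Int.odd_iff] at hp ⊢; omega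
    have h2 : ¬ (Even (p.2 + 1) ∧ Even (p.1 + 1)) := by
      rw [Int.odd_iff] at hp
      rw [Int.even_iff, Int.even_iff]; omega
    have h3 : ¬ (Even p.1 ∧ Even p.2) := by
      rw [Int.odd_iff] at hp
      rw [Int.even_iff, Int.even_iff]; omega
    simp only [h1, h2, h3, hp, true_and, false_or, vx_mirror hp, ← h (vx p)]
    simp
  · have h1 : ¬ Odd (p.2 + 1 + (p.1 + 1)) := by
      rw [Int.odd_iff] at hp ⊢; omega
    have h2 : ¬ (Even (p.2 + 1) ∧ Even (p.1 + 1)) ↔ (Even p.1 ∧ Even p.2) := by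
      rw [Int.odd_iff] at hp
      simp only [Int.even_iff]; omega
    simp only [h1, hp, false_and, or_false]
    exact h2

/-- The dual percolation has the same law. -/
theorem real_dl {mu : Measure Mk} (hm : Fair mu) {Q : Set (ℤ × ℤ) → Prop} (hQ : Loc Q) :
    mu.real {o | Q (dl (SB o))} = mu.real {o | Q (SB o)} := by
  obtain ⟨N, hN⟩ := dep_of_loc hQ
  rw [← hm.symm hN pe (fun _ => true)]
  congr 1
  ext o
  have : dl (SB o) = SB (fun w => xor (o (pe w)) true) := dl_SB _ _ fun w => by simp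
  simp only [Set.mem_ofPred_eq]
  rw [this]

/-- Squares are crossed with probability at least `1 / 2`. -/
theorem sq_half {mu : Measure Mk} (hm : Fair mu) {n : ℤ} (hn : 0 ≤ n) :
    1 / 2 ≤ (pp mu hm).L n n := by
  haveI := hm.prob
  have h1 : (1 : ℝ) ≤ mu.real {o | LRc 0 (n + 1) 0 n (SB o)} +
      mu.real {o | LRc (0 - 1) n 0 (n + 1 - 1) (dl (SB o))} := by
    refine le_trans ?_ (measureReal_union_le _ _)
    have : {o | LRc 0 (n + 1) 0 n (SB o)} ∪ {o | LRc (0 - 1) n 0 (n + 1 - 1) (dl (SB o))} =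
        (Set.univ : Set Mk) := by
      ext o
      simp only [Set.mem_union, Set.mem_ofPred_eq, Set.mem_univ, iff_true]
      exact duality (bond_SB o) (by omega) hn
    rw [this]
    simp
  rw [real_dl hm (IL_LRc _ _ _ _).2] at h1
  have h2 : mu.real {o | LRc 0 (n + 1) 0 n (SB o)} = (pp mu hm).L (n + 1) n := rfl
  have h3 : mu.real {o | LRc (0 - 1) n 0 (n + 1 - 1) (SB o)} = (pp mu hm).L (n + 1) n := by
    have := (pp mu hm).L_eq' (0 - 1) n 0 (n + 1 - 1)
    rw [pp_p] at this
    rw [this]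
    congr 1 <;> ring
  rw [h2, h3] at h1
  have h4 : (pp mu hm).L (n + 1) n ≤ (pp mu hm).L n n := by
    refine (pp mu hm).mono _ _ (fun S hS => ?_)
    exact LRc.mono 0 0 (n + 1) n 0 0 n n S le_rfl hn (by omega) le_rfl le_rfl hS
  linarith

end Vale.Agent.P167.H871
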