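import Vale.Agent.P167.H871.Rsw

/-!
# P167, block D: decay of the arms
-/

namespace Vale.Agent.P167.H871

open MeasureTheory Finset Vale.Agent.P145.FB Vale.Agent.P153 Vale.Agent.P153.Topo

/-- A path of `S` from the box of half side `r` around `z` (in the fine lattice) to distance `R`. -/
def ArmS (z : Pt) (r R : ℤ) (S : Set Pt) : Prop :=
  ∃ x y : Pt, NC S x y ∧ |x.1 - z.1| ≤ r ∧ |x.2 - z.2| ≤ r ∧ (R ≤ |y.1 - z.1| ∨ R ≤ |y.2 - z.2|)

theorem scale_le {s : ℤ} (hs : 0 < s) {i j : ℕ} (hij : i < j) :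
    (4 : ℤ) * (4 ^ i * s) ≤ 4 ^ j * s := by
  obtain ⟨k, rfl⟩ : ∃ k, j = i + 1 + k := ⟨j - (i + 1), by omega⟩
  have h2 : (1 : ℤ) ≤ 4 ^ k := one_le_pow₀ (by norm_num)
  have h3 : (0 : ℤ) < 4 ^ i * s := by positivity
  have h4 : (4 : ℤ) ^ (i + 1 + k) * s = 4 ^ k * (4 * (4 ^ i * s)) := by ring
  rw [h4]
  nlinarith

theorem disj_annF {p q s : ℤ} (hs : 0 < s) {i j : ℕ} (hij : i < j) :
    Disjoint (annF p q (4 ^ i * s)) (annF p q (4 ^ j * s)) := by
  have h1 := scale_le hs hij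
  have h0 : (0 : ℤ) < 4 ^ i * s := by positivity
  generalize (4 : ℤ) ^ i * s = u at h0 h1
  generalize (4 : ℤ) ^ j * s = v at h1
  rw [Finset.disjoint_left]
  intro z h2 h2'
  rw [mem_annF, annR, Set.mem_ofPred_eq, mem_rc] at h2 h2'
  omega

theorem no_circ_primal {mu : Measure Mk} (hm : Fair mu) {p q s : ℤ} (hs : 0 < s) {c : ℝ} (m : ℕ)
    (h : ∀ i < m, c ≤ mu.real {o : Mk | Ann p q (4 ^ i * s) (SB o)}) :
    mu.real (⋂ i ∈ Finset.range m, {o : Mk | Ann p q (4 ^ i * s) (SB o)}ᶜ) ≤ (1 - c) ^ m := by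
  haveI := hm.prob
  have h0 : ∀ i, (0 : ℤ) ≤ 4 ^ i * s := fun i => by positivity
  rw [hm.indep_range (fun i => vxs (annF p q (4 ^ i * s))) _
    (fun i => (dep_ann (h0 i)).compl) m (fun i j hij _ => disj_vxs (disj_annF hs hij))]
  calc _ ≤ ∏ _i ∈ Finset.range m, (1 - c) := by
        refine Finset.prod_le_prod (fun i _ => measureReal_nonneg) (fun i hi => ?_)
        rw [probReal_compl_eq_one_sub (dep_ann (h0 i)).meas]
        have := h i (Finset.mem_range.1 hi)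
        linarith
    _ = (1 - c) ^ m := by simp

theorem no_circ_dual {mu : Measure Mk} (hm : Fair mu) {p q s : ℤ} (hs : 0 < s) {c : ℝ} (m : ℕ)
    (h : ∀ i < m, c ≤ mu.real {o : Mk | Ann p q (4 ^ i * s) (dl (SB o))}) :
    mu.real (⋂ i ∈ Finset.range m, {o : Mk | Ann p q (4 ^ i * s) (dl (SB o))}ᶜ) ≤ (1 - c) ^ m := by
  haveI := hm.prob
  have h0 : ∀ i, (0 : ℤ) ≤ 4 ^ i * s := fun i => by positivity
  rw [hm.indep_range (fun i => vxs ((annF p q (4 ^ i * s)).image mir)) _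
    (fun i => (dep_annd (h0 i)).compl) m (fun i j hij _ => disj_vxs
      ((Finset.disjoint_image mir_inj).2 (disj_annF hs hij)))]
  calc _ ≤ ∏ _i ∈ Finset.range m, (1 - c) := by
        refine Finset.prod_le_prod (fun i _ => measureReal_nonneg) (fun i hi => ?_)
        rw [probReal_compl_eq_one_sub (dep_annd (h0 i)).meas]
        have := h i (Finset.mem_range.1 hi)
        linarith
    _ = (1 - c) ^ m := by simp

/-- Decay of the arms, with integer scales: if `4 ^ m * s + 3 ≤ R` then at most `(1 - c) ^ m`. -/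
theorem arm_pow {mu : Measure Mk} (hm : Fair mu) {c : ℝ} {r0 : ℤ} (hr0 : 0 < r0)
    (h : ∀ t : ℤ, r0 ≤ t → ∀ p q : ℤ,
      c ≤ mu.real {o | Ann p q t (SB o)} ∧ c ≤ mu.real {o | Ann p q t (dl (SB o))})
    (z : Pt) {r R s : ℤ} (m : ℕ) (hs : r0 ≤ s) (hrs : r + 2 ≤ 2 * s) (hR : 4 ^ m * s + 3 ≤ R) :
    mu.real {o | ArmS z r R (SB o)} ≤ (1 - c) ^ m ∧
      mu.real {o | ArmS z r R (SB o)ᶜ} ≤ (1 - c) ^ m := by
  haveI := hm.prob
  have hsc : ∀ i < m, s ≤ 4 ^ i * s ∧ 4 * (4 ^ i * s) + 3 ≤ R := by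
    intro i hi
    have h1 : (1 : ℤ) ≤ 4 ^ i := one_le_pow₀ (by norm_num)
    have h2 := scale_le (s := s) (by omega) hi
    exact ⟨by nlinarith, by omega⟩
  constructor
  · refine le_trans (measureReal_mono ?_) (no_circ_dual hm (p := z.2 / 2) (q := z.1 / 2) (s := s)
      (by omega) m (fun i hi => (h _ (hs.trans (hsc i hi).1) _ _).2))
    rintro o ⟨x, y, hxy, h1, h2, h3⟩
    simp only [Set.mem_iInter, Finset.mem_range, Set.mem_compl_iff, Set.mem_ofPred_eq]
    intro i hi hA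
    obtain ⟨h4, h5⟩ := hsc i hi
    rw [abs_le] at h1 h2
    rw [le_abs, le_abs] at h3
    generalize (4 : ℤ) ^ i * s = t at h4 h5 hA
    exact block (by omega) hA hxy (by omega) (by omega) (by omega)
  · refine le_trans (measureReal_mono ?_) (no_circ_primal hm (p := z.1 / 2) (q := z.2 / 2) (s := s)
      (by omega) m (fun i hi => (h _ (hs.trans (hsc i hi).1) _ _).1))
    rintro o ⟨x, y, hxy, h1, h2, h3⟩
    simp only [Set.mem_iInter, Finset.mem_range, Set.mem_compl_iff, Set.mem_ofPred_eq]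
    intro i hi hA
    obtain ⟨h4, h5⟩ := hsc i hi
    rw [abs_le] at h1 h2
    rw [le_abs, le_abs] at h3
    generalize (4 : ℤ) ^ i * s = t at h4 h5 hA
    exact block' (by omega) hA hxy (by omega) (by omega) (by omega)

/-- **Power law decay of the arms.** -/
theorem arm_decay {mu : Measure Mk} (hm : Fair mu) :
    ∃ C α : ℝ, 0 < C ∧ 0 < α ∧ ∀ (z : Pt) (r R : ℤ), 1 ≤ r → r ≤ R →
      mu.real {o | ArmS z r R (SB o)} ≤ C * ((r : ℝ) / R) ^ α ∧
      mu.real {o | ArmS z r R (SB o)ᶜ} ≤ C * ((r : ℝ) / R) ^ α := by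
  haveI := hm.prob
  obtain ⟨c', hc', r0, hr0, h'⟩ := ann_ge hm
  obtain ⟨c, hcd⟩ : ∃ c : ℝ, c = min c' (1 / 2) := ⟨_, rfl⟩
  have hc : 0 < c := by rw [hcd]; positivity
  have hc1 : c ≤ 1 / 2 := by rw [hcd]; exact min_le_right _ _
  have h : ∀ t : ℤ, r0 ≤ t → ∀ p q : ℤ,
      c ≤ mu.real {o | Ann p q t (SB o)} ∧ c ≤ mu.real {o | Ann p q t (dl (SB o))} := by
    intro t ht p q
    have h1 : c ≤ c' := by rw [hcd]; exact min_le_left _ _
    exact ⟨h1.trans (h' t ht p q).1, h1.trans (h' t ht p q).2⟩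
  set α : ℝ := - Real.logb 4 (1 - c) with hα
  have hα0 : 0 < α := by
    rw [hα, neg_pos]
    exact Real.logb_neg (by norm_num) (by linarith) (by linarith)
  have h4 : (4 : ℝ) ^ (-α) = 1 - c := by
    rw [hα, neg_neg, Real.rpow_logb (by norm_num) (by norm_num) (by linarith)]
  set K : ℝ := 32 * ((r0 : ℝ) + 4) with hK
  have hr0' : (0 : ℝ) < r0 := by exact_mod_cast hr0
  have hK1 : 1 ≤ K := by rw [hK]; linarith
  have hK0 : 0 < K := by linarith
  refine ⟨K ^ α, α, by positivity, hα0, fun z r R hr hrR => ?_⟩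
  have hr' : (1 : ℝ) ≤ r := by exact_mod_cast hr
  have hR' : (r : ℝ) ≤ R := by exact_mod_cast hrR
  have hRp : (0 : ℝ) < R := by linarith
  have e : K ^ α * ((r : ℝ) / R) ^ α = (K * r / R) ^ α := by
    rw [← Real.mul_rpow hK0.le (by positivity), mul_div_assoc]
  rw [e]
  by_cases hbig : (R : ℝ) ≤ K * r
  · have h1 : (1 : ℝ) ≤ (K * r / R) ^ α :=
      Real.one_le_rpow ((one_le_div hRp).2 hbig) hα0.le
    exact ⟨measureReal_le_one.trans h1, measureReal_le_one.trans h1⟩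
  · push Not at hbig
    obtain ⟨s, hs⟩ : ∃ s : ℤ, s = r0 + r + 1 := ⟨_, rfl⟩
    have hs1 : (s : ℝ) ≤ (r0 + 2) * r := by
      rw [hs]; push_cast
      nlinarith
    have hs0 : (0 : ℝ) < s := by rw [hs]; push_cast; linarith
    -- the number of scales
    obtain ⟨m, hm1, hm2⟩ : ∃ m : ℕ, 4 ^ m * s + 3 ≤ R ∧ R < 4 ^ (m + 1) * s + 3 := by
      have hex : ∃ m : ℕ, R < 4 ^ m * s + 3 := by
        obtain ⟨m, hm⟩ := pow_unbounded_of_one_lt (R : ℤ) (by norm_num : (1 : ℤ) < 4)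
        refine ⟨m, ?_⟩
        have : (1 : ℤ) ≤ s := by omega
        nlinarith [pow_pos (by norm_num : (0 : ℤ) < 4) m]
      classical
      have h0 : Nat.find hex ≠ 0 := by
        intro h0
        have h1 := Nat.find_spec hex
        rw [h0] at h1
        have h2 : (R : ℝ) < s + 3 := by
          have : R < s + 3 := by simpa using h1
          exact_mod_cast this
        nlinarith
      obtain ⟨k, hk⟩ := Nat.exists_eq_succ_of_ne_zero h0
      refine ⟨k, ?_, ?_⟩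
      · have := Nat.find_min hex (m := k) (by omega)
        omega
      · have := Nat.find_spec hex
        rwa [hk] at this
    have key := arm_pow hm hr0 h z (r := r) (R := R) (s := s) m (by omega) (by omega) hm1
    have hle : (1 - c) ^ m ≤ (K * r / R) ^ α := by
      have h5 : (1 - c) ^ m = ((4 : ℝ) ^ m) ^ (-α) := by
        rw [← h4, ← Real.rpow_natCast, ← Real.rpow_natCast, ← Real.rpow_mul (by norm_num),
          ← Real.rpow_mul (by norm_num), mul_comm]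
      have h6 : (R : ℝ) < 4 ^ (m + 1) * s + 3 := by exact_mod_cast hm2
      have h7 : (1 : ℝ) ≤ 4 ^ m := one_le_pow₀ (by norm_num)
      have h8 : (R : ℝ) / (K * r) ≤ 4 ^ m := by
        rw [div_le_iff₀ (by positivity)]
        have h9 : (4 : ℝ) ^ (m + 1) = 4 * 4 ^ m := by ring
        rw [h9] at h6
        have h10 : (R : ℝ) ≤ 4 ^ m * (4 * s + 3) := by nlinarith
        refine h10.trans (mul_le_mul_of_nonneg_left ?_ (by positivity))
        rw [hK]
        nlinarith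
      rw [h5, Real.rpow_neg (by positivity), ← Real.inv_rpow (by positivity)]
      refine Real.rpow_le_rpow (by positivity) ?_ hα0.le
      rw [inv_le_comm₀ (by positivity) (by positivity), inv_div]
      exact h8
    exact ⟨key.1.trans hle, key.2.trans hle⟩

/-- Almost surely no infinite cluster: every primal and every dual cluster is bounded. -/
theorem ae_bdd {mu : Measure Mk} (hm : Fair mu) :
    ∀ᵐ o ∂mu, ∀ z : Pt, (∃ R : ℤ, ∀ y, NC (SB o) z y → |y.1 - z.1| < R ∧ |y.2 - z.2| < R) ∧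
      (∃ R : ℤ, ∀ y, NC (SB o)ᶜ z y → |y.1 - z.1| < R ∧ |y.2 - z.2| < R) := by
  haveI := hm.prob
  obtain ⟨C, α, hC, hα, h⟩ := arm_decay hm
  rw [ae_all_iff]
  intro z
  have lim : Filter.Tendsto (fun n : ℕ => C * (((1 : ℤ) : ℝ) / ((n : ℤ) : ℝ)) ^ α) Filter.atTop
      (nhds 0) := by
    have h1 : Filter.Tendsto (fun n : ℕ => (((1 : ℤ) : ℝ) / ((n : ℤ) : ℝ))) Filter.atTop (nhds 0) := by
      simpa using tendsto_one_div_atTop_nhds_zero_nat (𝕜 := ℝ)
    have h2 := (h1.rpow_const (p := α) (Or.inr hα.le))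
    rw [Real.zero_rpow hα.ne'] at h2
    simpa using h2.const_mul C
  have key : ∀ T : Mk → Set Pt, (∀ R : ℤ, 1 ≤ R → mu.real {o | ArmS z 1 R (T o)} ≤
      C * (((1 : ℤ) : ℝ) / R) ^ α) →
      ∀ᵐ o ∂mu, ∃ R : ℤ, ∀ y, NC (T o) z y → |y.1 - z.1| < R ∧ |y.2 - z.2| < R := by
    intro T hT
    rw [ae_iff]
    have h0 : ∀ n : ℕ, 1 ≤ n → mu.real {o | ¬ ∃ R : ℤ, ∀ y, NC (T o) z y →
        |y.1 - z.1| < R ∧ |y.2 - z.2| < R} ≤ C * (((1 : ℤ) : ℝ) / ((n : ℤ) : ℝ)) ^ α := by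
      intro n hn
      refine le_trans (measureReal_mono ?_) (hT n (by omega))
      intro o ho
      simp only [Set.mem_ofPred_eq] at ho ⊢
      push Not at ho
      obtain ⟨y, hy1, hy2⟩ := ho n
      refine ⟨z, y, hy1, by simp, by simp, ?_⟩
      by_contra hcon
      push Not at hcon
      exact absurd (hy2 hcon.1) (not_le.2 hcon.2)
    have h1 : mu.real {o | ¬ ∃ R : ℤ, ∀ y, NC (T o) z y →
        |y.1 - z.1| < R ∧ |y.2 - z.2| < R} ≤ 0 :=
      ge_of_tendsto lim (Filter.eventually_atTop.2 ⟨1, h0⟩)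
    have h2 := le_antisymm h1 measureReal_nonneg
    rwa [measureReal_eq_zero_iff] at h2
  filter_upwards [key (fun o => SB o) (fun R hR => (h z 1 R le_rfl hR).1),
    key (fun o => (SB o)ᶜ) (fun R hR => (h z 1 R le_rfl hR).2)] with o h1 h2
  exact ⟨h1, h2⟩

end Vale.Agent.P167.H871
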