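import Vale.Agent.P167.Iface
import Vale.Agent.P167.H871.Arm

/-!
# P167, block D: from the lattice of `Defs.lean` to the fine lattice

Site `s` : fine point `fi s = (s.1 + s.2 - 2, s.1 - s.2)`; square `v` : fine point `px v`.
-/

namespace Vale.Agent.P167.H871

open MeasureTheory Finset Vale.Agent.P145.FB Vale.Agent.P153 Vale.Agent.P153.Topo Vale.Agent.P167
open Relation

/-- `μ` is the law of independent fair coins. -/
theorem fair_mu : Fair μ := by
  have h := fair_perc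
  have e : (perc : Measure Mk) = μ := by
    unfold perc μ
    congr 1
  rwa [e] at h

/-- The fine point of a site. -/
def fi (s : Pt) : Pt := (s.1 + s.2 - 2, s.1 - s.2)

theorem fi_inj {s t : Pt} (h : fi s = fi t) : s = t := by
  obtain ⟨a, b⟩ := s
  obtain ⟨c, d⟩ := t
  simp only [fi, Prod.mk.injEq] at h ⊢
  omega

/-- The site of a fine point. -/
def uf (z : Pt) : Pt := ((z.1 + z.2 + 2) / 2, (z.1 - z.2 + 2) / 2)

theorem uf_fi (s : Pt) : uf (fi s) = s := by
  obtain ⟨a, b⟩ := s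
  simp only [uf, fi, Prod.mk.injEq]
  constructor <;> omega

theorem fi_uf {z : Pt} (h : Even (z.1 + z.2)) : fi (uf z) = z := by
  obtain ⟨a, b⟩ := z
  rw [Int.even_iff] at h
  simp only at h
  simp only [uf, fi, Prod.mk.injEq]
  constructor <;> omega

theorem fi_even (s : Pt) : Even ((fi s).1 + (fi s).2) := by
  rw [Int.even_iff]
  simp only [fi]
  omega

theorem even_fi1 {s : Pt} : (Even (fi s).1 ∧ Even (fi s).2) ↔ Even (s.1 + s.2) := by
  simp only [fi, Int.even_iff]
  omega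

theorem mem_SB_fi {ω : Mk} {s : Pt} : fi s ∈ SB ω ↔ Even (s.1 + s.2) := by
  simp only [SB, Set.mem_ofPred_eq, even_fi1]
  constructor
  · rintro (h | ⟨h, -⟩)
    · exact h
    · exact absurd (fi_even s) (by rw [Int.not_even_iff_odd]; exact h)
  · exact Or.inl

theorem mem_SB_px {ω : Mk} {v : Pt} : px v ∈ SB ω ↔ ω v = true := by
  simp only [SB, Set.mem_ofPred_eq, vx_px]
  constructor
  · rintro (⟨h1, h2⟩ | ⟨-, h⟩)
    · exact absurd (h1.add h2) (by rw [Int.not_even_iff_odd]; exact px_odd v)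
    · exact h
  · exact fun h => Or.inr ⟨px_odd v, h⟩

/-- The corners of a square are the fine neighbours of its fine point. -/
theorem nn_fi_px {s v : Pt} : NN (fi s) (px v) ↔
    (v.1 = s.1 ∨ v.1 = s.1 - 1) ∧ (v.2 = s.2 ∨ v.2 = s.2 - 1) := by
  simp only [NN, fi, px]
  omega

theorem nn_px_fi {s v : Pt} : NN (px v) (fi s) ↔
    (v.1 = s.1 ∨ v.1 = s.1 - 1) ∧ (v.2 = s.2 ∨ v.2 = s.2 - 1) := by
  simp only [NN, fi, px]
  omega

theorem nn_of_step {F : Set Pt} {u v : Pt} (h : PStep F u v) :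
    NN (fi u) (px (min u.1 v.1, min u.2 v.2)) ∧ NN (px (min u.1 v.1, min u.2 v.2)) (fi v) := by
  obtain ⟨h1, h2, -⟩ := h
  rw [nn_fi_px, nn_px_fi]
  dsimp only
  omega

/-- Fine points which are not a site outside of `R`. -/
def Tg (R : Set Pt) : Set Pt := {z | ∀ s, fi s = z → s ∈ R}

theorem fi_mem_Tg {R : Set Pt} {s : Pt} : fi s ∈ Tg R ↔ s ∈ R :=
  ⟨fun h => h s rfl, fun h _ ht => fi_inj ht ▸ h⟩

theorem px_mem_Tg {R : Set Pt} {v : Pt} : px v ∈ Tg R := by
  intro s hs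
  exfalso
  have h1 := fi_even s
  have h2 := px_odd v
  rw [hs] at h1
  exact (Int.not_even_iff_odd.2 h2) h1

/-- A path of open primal edges gives a path of the fine lattice. -/
theorem nc_of_pconn {ω : Mk} {R : Set Pt} {u v : Pt} (hu : Even (u.1 + u.2))
    (h : PConn (op ω) R u v) : NC (SB ω ∩ Tg R) (fi u) (fi v) := by
  obtain ⟨h0, h⟩ := h
  induction h with
  | refl => exact ⟨⟨mem_SB_fi.2 hu, fi_mem_Tg.2 h0⟩, ReflTransGen.refl⟩
  | @tail x y hx hxy ih =>
    have hp := (PConn.parity (show PConn (op ω) R u y from ⟨h0, hx.tail hxy⟩))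
    have hy : Even (y.1 + y.2) := by rw [Int.even_iff] at hu ⊢; omega
    obtain ⟨h1, h2⟩ := nn_of_step hxy.1
    refine ⟨ih.1, (ih.2.tail ⟨h1, ?_, px_mem_Tg⟩).tail ⟨h2, mem_SB_fi.2 hy, fi_mem_Tg.2 hxy.2⟩⟩
    exact mem_SB_px.2 hxy.1.2.2

/-- A path of open dual edges gives a path of the complement in the fine lattice. -/
theorem ncd_of_pconn {ω : Mk} {R : Set Pt} {u v : Pt} (hu : Odd (u.1 + u.2))
    (h : PConn (op ω)ᶜ R u v) : NC ((SB ω)ᶜ ∩ Tg R) (fi u) (fi v) := by
  obtain ⟨h0, h⟩ := h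
  have key : ∀ s : Pt, Odd (s.1 + s.2) → fi s ∈ (SB ω)ᶜ := fun s hs hs' =>
    (Int.not_even_iff_odd.2 hs) (mem_SB_fi.1 hs')
  induction h with
  | refl => exact ⟨⟨key _ hu, fi_mem_Tg.2 h0⟩, ReflTransGen.refl⟩
  | @tail x y hx hxy ih =>
    have hp := (PConn.parity (show PConn (op ω)ᶜ R u y from ⟨h0, hx.tail hxy⟩))
    have hy : Odd (y.1 + y.2) := by rw [Int.odd_iff] at hu ⊢; omega
    obtain ⟨h1, h2⟩ := nn_of_step hxy.1
    refine ⟨ih.1, (ih.2.tail ⟨h1, ?_, px_mem_Tg⟩).tail ⟨h2, key _ hy, fi_mem_Tg.2 hxy.2⟩⟩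
    exact fun h => hxy.1.2.2 (mem_SB_px.1 h)

/-- Converse of `nc_of_pconn`. -/
theorem pconn_of_nc' {ω : Mk} {R : Set Pt} {u z : Pt} (hu : Even (u.1 + u.2))
    (h : NC (SB ω ∩ Tg R) (fi u) z) :
    (∀ s, fi s = z → PConn (op ω) R u s) ∧
    (∀ v, px v = z → ω v = true ∧ ∃ s, Even (s.1 + s.2) ∧ NN (fi s) z ∧ PConn (op ω) R u s) := by
  obtain ⟨h0, h⟩ := h
  induction h with
  | refl =>
    refine ⟨fun s hs => ?_, fun v hv => ?_⟩
    · rw [fi_inj hs]
      exact PConn.refl (fi_mem_Tg.1 h0.2)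
    · exfalso
      have h1 := fi_even u
      have h2 := px_odd v
      rw [hv] at h2
      exact (Int.not_even_iff_odd.2 h2) h1
  | @tail x y hx hxy ih =>
    obtain ⟨hnn, hySB, hyT⟩ := hxy
    by_cases hxo : Odd (x.1 + x.2)
    · -- `x` is a bond
      have hxe : px (vx x) = x := px_vx hxo
      obtain ⟨hω, s, hs, hsx, hus⟩ := ih.2 _ hxe
      refine ⟨fun t ht => ?_, fun v hv => ?_⟩
      · have hte : Even (t.1 + t.2) := by rw [← ht] at hySB; exact mem_SB_fi.1 hySB
        by_cases hst : s = t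
        · rw [← hst]; exact hus
        · have h1 : NN (px (vx x)) (fi t) := by rw [hxe, ht]; exact hnn
          rw [← hxe] at hsx
          rw [nn_px_fi] at h1
          rw [nn_fi_px] at hsx
          refine hus.tail (step_of_corners (m := (vx x).1) (n := (vx x).2) (e := 0) (by exact hω)
            (by omega) (by omega) (by omega) (by omega) ?_ ?_ hst) ?_
          · rw [Int.even_iff] at hs; exact hs
          · rw [Int.even_iff] at hte; exact hte
          · exact hyT t ht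
      · exfalso
        have h2 := px_odd v
        rw [hv, Int.odd_iff] at h2
        rw [Int.odd_iff] at hxo
        unfold NN at hnn
        omega
    · have hxe : Even (x.1 + x.2) := by rwa [Int.not_odd_iff_even] at hxo
      have hxs := fi_uf hxe
      have hux := ih.1 _ hxs
      have hxSB : x ∈ SB ω := by
        have := (show NC (SB ω ∩ Tg R) (fi u) x from ⟨h0, hx⟩).right_mem
        exact this.1
      refine ⟨fun t ht => ?_, fun v hv => ?_⟩
      · exfalso
        have h2 := fi_even t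
        rw [ht, Int.even_iff] at h2
        rw [Int.even_iff] at hxe
        unfold NN at hnn
        omega
      · rw [← hv] at hySB
        exact ⟨mem_SB_px.1 hySB, uf x, by rw [← hxs] at hxSB; exact mem_SB_fi.1 hxSB,
          by rw [hxs]; exact hnn, hux⟩

theorem pconn_of_nc {ω : Mk} {R : Set Pt} {u v : Pt} (hu : Even (u.1 + u.2))
    (h : NC (SB ω ∩ Tg R) (fi u) (fi v)) : PConn (op ω) R u v :=
  (pconn_of_nc' hu h).1 v rfl

/-! ### S_arm -/

theorem armS_of_P {ω : Mk} {r R : ℤ} (h : ArmP r R ω) : ArmS (-2, 0) (2 * r) R (SB ω) := by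
  obtain ⟨u, v, hu, hur, hv, huv⟩ := h
  refine ⟨fi u, fi v, (nc_of_pconn hu huv).mono Set.inter_subset_left, ?_, ?_, ?_⟩
  · simp only [nm, fi] at hur ⊢
    rw [max_le_iff, abs_le, abs_le] at hur
    rw [abs_le]; omega
  · simp only [nm, fi] at hur ⊢
    rw [max_le_iff, abs_le, abs_le] at hur
    rw [abs_le]; omega
  · simp only [nm, fi] at hv ⊢
    rw [le_max_iff, le_abs, le_abs] at hv
    rw [le_abs, le_abs]; omega

theorem armS_of_D {ω : Mk} {r R : ℤ} (h : ArmD r R ω) : ArmS (-2, 0) (2 * r) R (SB ω)ᶜ := by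
  obtain ⟨u, v, hu, hur, hv, huv⟩ := h
  refine ⟨fi u, fi v, (ncd_of_pconn hu huv).mono Set.inter_subset_left, ?_, ?_, ?_⟩
  · simp only [nm, fi] at hur ⊢
    rw [max_le_iff, abs_le, abs_le] at hur
    rw [abs_le]; omega
  · simp only [nm, fi] at hur ⊢
    rw [max_le_iff, abs_le, abs_le] at hur
    rw [abs_le]; omega
  · simp only [nm, fi] at hv ⊢
    rw [le_max_iff, le_abs, le_abs] at hv
    rw [le_abs, le_abs]; omega

/-- **D1 (S_arm).** -/
theorem s_arm : S_arm := by
  obtain ⟨C, α, hC, hα, h⟩ := arm_decay fair_mu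
  refine ⟨α, (C + 1) * 2 ^ α, hα, fun r R hr hrR => ?_⟩
  have hr' : (1 : ℝ) ≤ r := by exact_mod_cast hr
  have hR' : (r : ℝ) ≤ R := by exact_mod_cast hrR
  have hRp : (0 : ℝ) < R := by linarith
  have e : (2 : ℝ) ^ α * ((r : ℝ) / R) ^ α = (2 * r / R) ^ α := by
    rw [← Real.mul_rpow (by norm_num) (by positivity), mul_div_assoc]
  rw [mul_assoc, e]
  have h0 : 0 ≤ (2 * (r : ℝ) / R) ^ α := by positivity
  by_cases hb : 2 * r ≤ R
  · obtain ⟨h1, h2⟩ := h (-2, 0) (2 * r) R (by omega) hb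
    push_cast at h1 h2
    have e1 : {ω : Mk | ArmP r R ω} ⊆ {o : Mk | ArmS (-2, 0) (2 * r) R (SB o)} :=
      fun ω hω => armS_of_P hω
    have e2 : {ω : Mk | ArmD r R ω} ⊆ {o : Mk | ArmS (-2, 0) (2 * r) R (SB o)ᶜ} :=
      fun ω hω => armS_of_D hω
    constructor
    · refine (measureReal_mono e1).trans (h1.trans ?_)
      nlinarith
    · refine (measureReal_mono e2).trans (h2.trans ?_)
      nlinarith
  · push Not at hb
    have hb' : (R : ℝ) ≤ 2 * r := by exact_mod_cast hb.le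
    have h1 : (1 : ℝ) ≤ (2 * (r : ℝ) / R) ^ α := Real.one_le_rpow ((one_le_div hRp).2 hb') hα.le
    constructor <;> refine measureReal_le_one.trans ?_ <;> nlinarith

end Vale.Agent.P167.H871
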