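import Vale.Agent.P167.H871.Inst

/-!
# P167, block D: circuits at all scales

`ann_ge`: under fair coins, for all `t ≥ r0` and all centres, `c ≤ mu {Ann p q t (SB o)}` and the same
for the dual configuration.
-/

namespace Vale.Agent.P167.H871

open MeasureTheory Finset Vale.Agent.P145.FB Vale.Agent.P153 Vale.Agent.P153.Topo

/-! ### The annulus event -/

/-- The annulus event depends on the points of the annulus only. -/
theorem Ann_congr {p q t : ℤ} (ht : 0 ≤ t) {S T : Set Pt} (h : ∀ z ∈ annR p q t, (z ∈ S ↔ z ∈ T))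
    (hS : Ann p q t S) : Ann p q t T := by
  have key : ∀ (a b c d : ℤ), rc a b c d ⊆ annR p q t → S ∩ rc a b c d = T ∩ rc a b c d := by
    intro a b c d hsub
    ext z
    simp only [Set.mem_inter_iff]
    constructor
    · rintro ⟨h1, h2⟩; exact ⟨(h z (hsub h2)).1 h1, h2⟩
    · rintro ⟨h1, h2⟩; exact ⟨(h z (hsub h2)).2 h1, h2⟩
  have sub1 : rc (p - 2 * t) (p + 2 * t) (q + t) (q + 2 * t) ⊆ annR p q t := by
    intro z hz
    rw [mem_rc] at hz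
    refine ⟨by rw [mem_rc]; omega, ?_⟩
    right; right; right; omega
  have sub2 : rc (p - 2 * t) (p + 2 * t) (q - 2 * t) (q - t) ⊆ annR p q t := by
    intro z hz
    rw [mem_rc] at hz
    refine ⟨by rw [mem_rc]; omega, ?_⟩
    right; right; left; omega
  have sub3 : rc (p - 2 * t) (p - t) (q - 2 * t) (q + 2 * t) ⊆ annR p q t := by
    intro z hz
    rw [mem_rc] at hz
    refine ⟨by rw [mem_rc]; omega, ?_⟩
    left; omega
  have sub4 : rc (p + t) (p + 2 * t) (q - 2 * t) (q + 2 * t) ⊆ annR p q t := by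
    intro z hz
    rw [mem_rc] at hz
    refine ⟨by rw [mem_rc]; omega, ?_⟩
    right; left; omega
  obtain ⟨h1, h2, h3, h4⟩ := hS
  unfold LRc at h1 h2
  unfold BTc at h3 h4
  rw [key _ _ _ _ sub1] at h1
  rw [key _ _ _ _ sub2] at h2
  rw [key _ _ _ _ sub3] at h3
  rw [key _ _ _ _ sub4] at h4
  exact ⟨h1, h2, h3, h4⟩

/-- The points of the annulus. -/
noncomputable def annF (p q t : ℤ) : Finset Pt :=
  ((Finset.Icc (2 * (p - 2 * t)) (2 * (p + 2 * t))) ×ˢ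
    (Finset.Icc (2 * (q - 2 * t)) (2 * (q + 2 * t)))).filter (fun z =>
      z.1 ≤ 2 * (p - t) ∨ 2 * (p + t) ≤ z.1 ∨ z.2 ≤ 2 * (q - t) ∨ 2 * (q + t) ≤ z.2)

theorem mem_annF {p q t : ℤ} {z : Pt} : z ∈ annF p q t ↔ z ∈ annR p q t := by
  simp only [annF, Finset.mem_filter, Finset.mem_product, Finset.mem_Icc, annR, Set.mem_ofPred_eq,
    mem_rc]
  constructor
  · rintro ⟨h1, h2⟩; exact ⟨by omega, h2⟩
  · rintro ⟨h1, h2⟩; exact ⟨by omega, h2⟩

/-- The vertices which code the odd points of a finite set. -/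
noncomputable def vxs (R : Finset Pt) : Finset Pt :=
  (R.filter (fun z => Odd (z.1 + z.2))).image vx

theorem disj_vxs {R R' : Finset Pt} (h : Disjoint R R') : Disjoint (vxs R) (vxs R') := by
  rw [Finset.disjoint_left]
  intro w hw hw'
  simp only [vxs, Finset.mem_image, Finset.mem_filter] at hw hw'
  obtain ⟨z, ⟨h1, h2⟩, rfl⟩ := hw
  obtain ⟨z', ⟨h1', h2'⟩, h3⟩ := hw'
  have : z' = z := by rw [← px_vx h2', ← px_vx h2, h3]
  subst this
  exact Finset.disjoint_left.1 h h1 h1'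

/-- Membership in `SB` of the points of `R` depends on `vxs R`. -/
theorem SB_congr_vxs {R : Finset Pt} {o o' : Mk} (h : ∀ w ∈ vxs R, o w = o' w) {z : Pt}
    (hz : z ∈ R) : z ∈ SB o ↔ z ∈ SB o' := by
  by_cases hodd : Odd (z.1 + z.2)
  · exact SB_congr (h _ (Finset.mem_image_of_mem _ (Finset.mem_filter.2 ⟨hz, hodd⟩)))
  · simp only [SB, Set.mem_ofPred_eq, hodd, false_and, or_false]

/-- The mirror of the duality. -/
def mir (z : Pt) : Pt := (z.2 + 1, z.1 + 1)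

theorem mem_dl {S : Set Pt} {z : Pt} : z ∈ dl S ↔ mir z ∉ S := Iff.rfl

theorem mir_inj : Function.Injective mir := by
  rintro ⟨a, b⟩ ⟨c, d⟩ h
  simp only [mir, Prod.mk.injEq] at h ⊢
  omega

theorem dep_ann {p q t : ℤ} (ht : 0 ≤ t) : Dep (vxs (annF p q t)) {o : Mk | Ann p q t (SB o)} :=
  fun _ _ ho h => Ann_congr ht (fun _ hz => SB_congr_vxs ho (mem_annF.2 hz)) h

theorem dep_annd {p q t : ℤ} (ht : 0 ≤ t) :
    Dep (vxs ((annF p q t).image mir)) {o : Mk | Ann p q t (dl (SB o))} := by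
  intro o o' ho h
  refine Ann_congr ht (fun z hz => ?_) h
  rw [mem_dl, mem_dl, SB_congr_vxs ho (Finset.mem_image_of_mem mir (mem_annF.2 hz))]

/-- A dual circuit blocks the primal paths. -/
theorem block {S : Set Pt} {p q t : ℤ} (ht : 0 < t) (hA : Ann p q t (dl S)) {x y : Pt}
    (h : NC S x y) (hx1 : 2 * (q - t) + 1 ≤ x.1 ∧ x.1 ≤ 2 * (q + t) + 1)
    (hx2 : 2 * (p - t) + 1 ≤ x.2 ∧ x.2 ≤ 2 * (p + t) + 1)
    (hy : y.1 ≤ 2 * (q - 2 * t) + 1 ∨ 2 * (q + 2 * t) + 1 ≤ y.1 ∨ y.2 ≤ 2 * (p - 2 * t) + 1 ∨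
      2 * (p + 2 * t) + 1 ≤ y.2) : False := by
  obtain ⟨o, _, H⟩ := Ann.cluster ht hA
  have h1 : NC {z | mir z ∈ S} (x.2 - 1, x.1 - 1) (y.2 - 1, y.1 - 1) := by
    refine NC.map (f := fun z : Pt => (z.2 - 1, z.1 - 1)) ?_ ?_ h
    · intro u v huv
      unfold NN at huv ⊢
      dsimp only
      omega
    · intro z hz
      simpa [mir] using hz
  obtain ⟨w, hw1, hw2⟩ := H _ _ _ h1.conn (by rw [mem_rc]; dsimp only; omega)
    (by dsimp only; omega)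
  exact hw2.right_mem.1 hw1

/-- A primal circuit blocks the paths of the complement. -/
theorem block' {S : Set Pt} {p q t : ℤ} (ht : 0 < t) (hA : Ann p q t S) {x y : Pt}
    (h : NC Sᶜ x y) (hx1 : 2 * (p - t) ≤ x.1 ∧ x.1 ≤ 2 * (p + t))
    (hx2 : 2 * (q - t) ≤ x.2 ∧ x.2 ≤ 2 * (q + t))
    (hy : y.1 ≤ 2 * (p - 2 * t) ∨ 2 * (p + 2 * t) ≤ y.1 ∨ y.2 ≤ 2 * (q - 2 * t) ∨
      2 * (q + 2 * t) ≤ y.2) : False := by
  obtain ⟨o, _, H⟩ := Ann.cluster ht hA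
  obtain ⟨w, hw1, hw2⟩ := H _ _ _ h.conn (by rw [mem_rc]; omega) (by omega)
  exact hw1 hw2.right_mem.1

/-! ### The conclusion of Tassion's argument with `next` as a hypothesis -/

theorem rswN (P : PP) (G : Geo) {c0 : ℝ} (h0 : 0 < c0) (N : ℕ)
    (hsq : ∀ n : ℤ, (N : ℤ) ≤ n → c0 ≤ P.L n n)
    (hedge : 0 < P.p (fun S => (0, 0) ∈ S ∧ (0, 1) ∈ S ∧ (0, 2) ∈ S))
    (hK' : ∃ K n0 : ℕ, ∀ n : ℕ, n0 ≤ n → P.Good c0 n → ∃ n', n < n' ∧ n' ≤ K * n ∧ P.Good c0 n') :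
    ∃ c : ℝ, 0 < c ∧ ∃ r0 : ℤ, ∀ r : ℤ, r0 ≤ r → c ≤ P.L (4 * r) r := by
  have hc : c0 ≤ 1 := (hsq N le_rfl).trans (P.le_one _)
  have hc1 := PP.c1_pos h0
  obtain ⟨K, n0, hK⟩ := hK'
  obtain ⟨n1, hn1⟩ : ∃ n1 : ℕ, n1 = max (max n0 N) 8 := ⟨_, rfl⟩
  have a1 : n0 ≤ n1 := by rw [hn1]; exact le_trans (le_max_left _ _) (le_max_left _ _)
  have a2 : N ≤ n1 := by rw [hn1]; exact le_trans (le_max_right _ _) (le_max_left _ _)
  have a3 : 8 ≤ n1 := by rw [hn1]; exact le_max_right _ _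
  by_cases hex : ∃ n, n1 ≤ n ∧ P.Good c0 n
  · obtain ⟨n2, hn2, hg2⟩ := hex
    refine ⟨PP.c1 c0 * (c0 * PP.c1 c0) ^ (16 * K), by positivity, 2 * n2, fun r hr => ?_⟩
    obtain ⟨r', rfl⟩ : ∃ r' : ℕ, r = r' := ⟨r.toNat, by omega⟩
    classical
    set n := Nat.findGreatest (fun n => n2 ≤ n ∧ P.Good c0 n) (r' / 2) with hn
    have hspec : n2 ≤ n ∧ P.Good c0 n :=
      Nat.findGreatest_spec (P := fun n => n2 ≤ n ∧ P.Good c0 n) (m := n2) (by omega)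
        ⟨le_rfl, hg2⟩
    have hnr : n ≤ r' / 2 := Nat.findGreatest_le _
    obtain ⟨n', g1, g2, g3⟩ := hK n (by omega) hspec.2
    have hn' : ¬ n' ≤ r' / 2 := fun h =>
      Nat.findGreatest_is_greatest (P := fun n => n2 ≤ n ∧ P.Good c0 n) g1 h
        ⟨by omega, g3⟩
    have h1 : (r' : ℤ) ≤ 2 * (K * n) := by
      have : r' ≤ 2 * (K * n) := by omega
      exact_mod_cast this
    have h2 := PP.ann_of_good G h0 hsq (n := n) (by omega) (by omega) hspec.2 (16 * K) (4 * r')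
      (by omega) (by push_cast; nlinarith)
    exact h2.trans (P.L_mono G (by omega) le_rfl (by omega))
  · push Not at hex
    have hal : ∀ t, n1 ≤ t → P.al c0 t = 0 := by
      intro t ht
      by_contra hne
      obtain ⟨J, hJ⟩ := PP.next2 (P := P) G h0 hc hsq t
      obtain ⟨n, g1, _, g3⟩ := hJ t (by omega) (by omega) (by omega)
        (Nat.le_mul_of_pos_right _ (by omega))
      exact hex n (by omega) g3
    set b := P.p (fun S => (0, 0) ∈ S ∧ (0, 1) ∈ S ∧ (0, 2) ∈ S) with hb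
    set a : ℝ := (c0 / 4) * (c0 / 4) * b with ha
    have hap : 0 < a := by positivity
    set A4 : ℝ := a * c0 * a * c0 * a with hA4
    have hA4p : 0 < A4 := by positivity
    refine ⟨A4 * c0 * A4, by positivity, 2 * n1 + 2, fun r hr => ?_⟩
    obtain ⟨r', rfl⟩ : ∃ r' : ℕ, r = r' := ⟨r.toNat, by omega⟩
    obtain ⟨t, ht⟩ : ∃ t : ℕ, t = r' / 2 := ⟨_, rfl⟩
    have h1 := PP.long_of_edge (c0 := c0) G h0 (t := t) (by omega) (hal t (by omega)) hedge.le le_rfl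
    have h2 := PP.ratio4 G h0 hsq (t := t) (by omega) hap.le h1
    have h3 := P.L_chain G h0.le (w := 8 * t) (w' := 8 * t) (h := 2 * t) (by omega)
      (hsq _ (by omega)) (by omega) (by omega) hA4p.le hA4p.le h2 h2
    exact h3.trans (P.L_mono G (by omega) (by omega) (by omega))

/-! ### The next good scale -/

theorem disj_scales {s : ℤ} (hs : 0 < s) {i j : ℕ} (hij : i < j) :
    Disjoint ((annF 0 0 (4 ^ i * s)).image mir) ((annF 0 0 (4 ^ j * s)).image mir) := by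
  have h1 : (4 : ℤ) * (4 ^ i * s) ≤ 4 ^ j * s := by
    obtain ⟨k, rfl⟩ : ∃ k, j = i + 1 + k := ⟨j - (i + 1), by omega⟩
    have h2 : (1 : ℤ) ≤ 4 ^ k := one_le_pow₀ (by norm_num)
    have h3 : (0 : ℤ) < 4 ^ i * s := by positivity
    have h4 : (4 : ℤ) ^ (i + 1 + k) * s = 4 ^ k * (4 * (4 ^ i * s)) := by ring
    rw [h4]
    nlinarith
  have h0 : (0 : ℤ) < 4 ^ i * s := by positivity
  generalize (4 : ℤ) ^ i * s = u at h0 h1
  generalize (4 : ℤ) ^ j * s = v at h1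
  rw [Finset.disjoint_left]
  intro w hw hw'
  simp only [Finset.mem_image] at hw hw'
  obtain ⟨z, h2, rfl⟩ := hw
  obtain ⟨z', h2', h3⟩ := hw'
  have := mir_inj h3
  subst this
  rw [mem_annF, annR, Set.mem_ofPred_eq, mem_rc] at h2 h2'
  omega

/-- Independent dual circuits at the scales `4 ^ i * s`. -/
theorem no_circ {mu : Measure Mk} (hm : Fair mu) {s : ℤ} (hs : 0 < s) {c : ℝ} (_hc : 0 ≤ c)
    (m : ℕ) (h : ∀ i < m, c ≤ (pp mu hm).p (Ann 0 0 (4 ^ i * s))) :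
    mu.real (⋂ i ∈ Finset.range m, {o : Mk | Ann 0 0 (4 ^ i * s) (dl (SB o))}ᶜ) ≤ (1 - c) ^ m := by
  haveI := hm.prob
  have h0 : ∀ i, (0 : ℤ) ≤ 4 ^ i * s := fun i => by positivity
  rw [hm.indep_range (fun i => vxs ((annF 0 0 (4 ^ i * s)).image mir)) _
    (fun i => (dep_annd (h0 i)).compl) m (fun i j hij _ => disj_vxs (disj_scales hs hij))]
  calc _ ≤ ∏ _i ∈ Finset.range m, (1 - c) := by
        refine Finset.prod_le_prod (fun i _ => measureReal_nonneg) (fun i hi => ?_)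
        rw [probReal_compl_eq_one_sub (dep_annd (h0 i)).meas]
        have := h i (Finset.mem_range.1 hi)
        rw [pp_p, ← real_dl hm (IL_Ann _ _ _).2] at this
        linarith
    _ = (1 - c) ^ m := by simp

theorem next1' {mu : Measure Mk} (hm : Fair mu) {c0 : ℝ} {N : ℕ} (G : Geo) (h0 : 0 < c0)
    (hc0 : c0 ≤ 1) (hsq : (pp mu hm).Sq c0 N) :
    ∃ M : ℕ, 2 ≤ M ∧ ∃ n0 : ℕ, ∀ n : ℕ, n0 ≤ n → (pp mu hm).Good c0 n →
      ∃ t : ℕ, 4 * n ≤ t ∧ t ≤ 4 * (2 * n * M) ∧ 2 * n ≤ (pp mu hm).al c0 t := by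
  haveI := hm.prob
  set P := pp mu hm with hP
  have hc1 : 0 < PP.c1 c0 := PP.c1_pos h0
  set c2 : ℝ := (PP.c1 c0 * (c0 * PP.c1 c0) ^ 15) ^ 4 with hc2
  have hc2p : 0 < c2 := by positivity
  set a : ℝ := (c0 / 4) * (c0 / 4) * c2 with ha
  have hap : 0 < a := by positivity
  set A4 : ℝ := a * c0 * a * c0 * a with hA4
  have hA4p : 0 < A4 := by positivity
  set cA : ℝ := min (A4 ^ 4) (1 / 2) with hcA
  have hcAp : 0 < cA := by positivity
  have hcA1 : 1 - cA < 1 := by linarith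
  have hcA0 : 0 ≤ 1 - cA := by
    have : cA ≤ 1 / 2 := min_le_right _ _
    linarith
  obtain ⟨m, hmm⟩ := exists_pow_lt_of_lt_one (show (0 : ℝ) < c0 / 4 by positivity) hcA1
  refine ⟨2 * 4 ^ m, by have : 1 ≤ 4 ^ m := Nat.one_le_pow _ _ (by norm_num); omega,
    max N 8, fun n hn hg => ?_⟩
  have hnN : N ≤ n := le_trans (le_max_left _ _) hn
  have hn8 : 8 ≤ n := le_trans (le_max_right _ _) hn
  by_contra hcon
  push Not at hcon
  obtain ⟨s, hs⟩ : ∃ s : ℕ, s = 2 * n := ⟨_, rfl⟩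
  obtain ⟨Q, hQ⟩ : ∃ Q : ℕ, Q = s * 4 ^ m := ⟨_, rfl⟩
  have hal : ∀ t : ℕ, 2 * s ≤ t → t ≤ 8 * Q → P.al c0 t < s := fun t h1 h2 => by
    rw [hs]
    refine hcon t (by omega) ?_
    rw [hQ, hs] at h2
    calc t ≤ 8 * (2 * n * 4 ^ m) := h2
      _ = 4 * (2 * n * (2 * 4 ^ m)) := by ring
  -- the small circuit
  have e1 : c2 ≤ P.p (Ann 0 0 s) := by
    have h1 := PP.ann_of_good G h0 hsq hnN hn8 hg 15 (4 * s) (by omega) (by push_cast; omega)
    have h2 : (2 * n : ℤ) = s := by omega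
    rw [h2] at h1
    exact P.Ann_ge 0 0 (by positivity) h1
  -- circuits at all intermediate scales
  have hann : ∀ t : ℕ, 2 * s ≤ t → t ≤ 8 * Q → cA ≤ P.p (Ann 0 0 (2 * t)) := by
    intro t h1 h2
    have f1 := PP.long_of_ann G h0 (s := s) (t := t) (by omega) h1 (hal t h1 h2) hc2p.le e1
    have f2 := PP.ratio4 G h0 hsq (t := t) (by omega) hap.le f1
    refine (min_le_left _ _).trans (P.Ann_ge _ _ hA4p.le ?_)
    have e : (4 : ℤ) * (2 * t) = 8 * t := by ring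
    rw [e]
    exact f2
  have hsp : (0 : ℤ) < s := by omega
  have hnc := no_circ hm (s := 4 * s) (by omega) hcAp.le m (fun i hi => by
    have h1 : 4 ^ i * s ≤ Q := by
      rw [hQ, mul_comm s]
      exact Nat.mul_le_mul_right _ (Nat.pow_le_pow_right (by norm_num) hi.le)
    have h2 := hann (4 ^ i * (2 * s)) (Nat.le_mul_of_pos_left _ (by positivity)) (by
      calc 4 ^ i * (2 * s) = 2 * (4 ^ i * s) := by ring
        _ ≤ 8 * Q := by omega)
    have e : (2 * ((4 ^ i * (2 * s) : ℕ) : ℤ)) = 4 ^ i * (4 * s) := by push_cast; ring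
    rwa [e] at h2)
  -- the arm
  have k1 : c0 / 4 ≤ P.p (Hc (-(2 * (8 * Q : ℕ))) 0 (-(8 * Q : ℕ)) (8 * Q : ℕ) 0 s) := by
    have hQs : s ≤ Q := by rw [hQ]; exact Nat.le_mul_of_pos_right _ (by positivity)
    have h1 := P.H_gt (c0 := c0) (n := 8 * Q) (a := (s : ℤ))
      (by have := hal (8 * Q) (by omega) le_rfl; omega)
      (by have := hal (8 * Q) (by omega) le_rfl; omega)
    have h2 := P.H_nonneg (8 * Q : ℕ) (s : ℤ) (8 * Q : ℕ)
    have h3 := P.p_Hc_shift (-(8 * Q : ℕ)) (8 * Q : ℕ) (-(8 * Q : ℕ)) (8 * Q : ℕ) 0 s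
      (-((8 * Q : ℕ) : ℤ)) 0
    have h4 : c0 / 4 ≤ P.H (8 * Q : ℕ) 0 s := by linarith
    rw [PP.H, ← h3] at h4
    convert h4 using 3 <;> ring
  have k2 : P.p (Hc (-(2 * (8 * Q : ℕ))) 0 (-(8 * Q : ℕ)) (8 * Q : ℕ) 0 s) ≤
      mu.real (⋂ i ∈ Finset.range m, {o : Mk | Ann 0 0 (4 ^ i * (4 * s)) (dl (SB o))}ᶜ) := by
    rw [hP, pp_p]
    refine measureReal_mono ?_
    intro o ho
    simp only [Set.mem_iInter, Finset.mem_range, Set.mem_compl_iff, Set.mem_ofPred_eq]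
    intro i hi hA
    obtain ⟨x, y, hxy, hx, hy1, hy2, hy3⟩ := ho
    have hxy' : NC (SB o) y x := (hxy.mono Set.inter_subset_left).symm
    have h1 : (4 : ℤ) ^ i * (4 * s) ≤ 4 * Q := by
      have h2 : 4 ^ i * (4 * s) ≤ 4 * Q := by
        calc 4 ^ i * (4 * s) = 4 * (s * 4 ^ i) := by ring
          _ ≤ 4 * (s * 4 ^ m) := by
            exact Nat.mul_le_mul_left _ (Nat.mul_le_mul_left _ (Nat.pow_le_pow_right (by norm_num) hi.le))
          _ = 4 * Q := by rw [hQ]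
      exact_mod_cast h2
    have h2 : (4 : ℤ) * s ≤ 4 ^ i * (4 * s) := by
      have : (1 : ℤ) ≤ 4 ^ i := one_le_pow₀ (by norm_num)
      nlinarith
    push_cast at hx
    exact block (by omega) hA hxy' (by omega) (by omega) (by left; omega)
  linarith

theorem next' {mu : Measure Mk} (hm : Fair mu) {c0 : ℝ} {N : ℕ} (G : Geo) (h0 : 0 < c0)
    (hc : c0 ≤ 1) (hsq : (pp mu hm).Sq c0 N) :
    ∃ K n0 : ℕ, ∀ n : ℕ, n0 ≤ n → (pp mu hm).Good c0 n →
      ∃ n', n < n' ∧ n' ≤ K * n ∧ (pp mu hm).Good c0 n' := by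
  obtain ⟨M, hM, n0, hn0⟩ := next1' hm G h0 hc hsq
  obtain ⟨J, hJ⟩ := PP.next2 (P := pp mu hm) G h0 hc hsq (4 * M)
  refine ⟨2 ^ J * (8 * M), max (max n0 N) 1, fun n hn hg => ?_⟩
  have a1 : n0 ≤ n := le_trans (le_trans (le_max_left _ _) (le_max_left _ _)) hn
  have a2 : N ≤ n := le_trans (le_trans (le_max_right _ _) (le_max_left _ _)) hn
  have a3 : 1 ≤ n := le_trans (le_max_right _ _) hn
  obtain ⟨t, h1, h2, h3⟩ := hn0 n a1 hg
  obtain ⟨n', g1, g2, g3⟩ := hJ t (by omega) (by omega) (by omega) (by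
    calc t ≤ 4 * (2 * n * M) := h2
      _ = 4 * M * (2 * n) := by ring
      _ ≤ 4 * M * (pp mu hm).al c0 t := Nat.mul_le_mul_left _ h3)
  refine ⟨n', by omega, ?_, g3⟩
  calc n' ≤ 2 ^ J * t := g2
    _ ≤ 2 ^ J * (4 * (2 * n * M)) := Nat.mul_le_mul_left _ h2
    _ = 2 ^ J * (8 * M) * n := by ring

theorem edge_pos {mu : Measure Mk} (hm : Fair mu) :
    0 < (pp mu hm).p (fun S => (0, 0) ∈ S ∧ (0, 1) ∈ S ∧ (0, 2) ∈ S) := by
  haveI := hm.prob
  rw [pp_p]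
  have h1 : {o : Mk | ∀ w ∈ ({vx (0, 1)} : Finset Pt), o w = true} ⊆
      {o : Mk | (0, 0) ∈ SB o ∧ (0, 1) ∈ SB o ∧ (0, 2) ∈ SB o} := by
    intro o ho
    refine ⟨Or.inl ⟨by simp, by simp⟩, Or.inr ⟨by simp, ho _ (by simp)⟩, Or.inl ⟨by simp, by decide⟩⟩
  have h2 := hm.cyl ({vx (0, 1)} : Finset Pt) (fun _ => true)
  have h3 := measureReal_mono (μ := mu) h1
  rw [h2] at h3
  refine lt_of_lt_of_le ?_ h3
  positivity

/-- **Long rectangles are crossed with probability bounded below.** -/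
theorem rsw_L {mu : Measure Mk} (hm : Fair mu) :
    ∃ c : ℝ, 0 < c ∧ ∃ r0 : ℤ, ∀ r : ℤ, r0 ≤ r → c ≤ (pp mu hm).L (4 * r) r := by
  have hsq : ∀ n : ℤ, ((0 : ℕ) : ℤ) ≤ n → (1 / 2 : ℝ) ≤ (pp mu hm).L n n :=
    fun n hn => sq_half hm (by simpa using hn)
  exact rswN (pp mu hm) geo (by norm_num) 0 hsq (edge_pos hm)
    (next' hm geo (by norm_num) (by norm_num) hsq)

/-- **Circuits.** -/
theorem ann_ge {mu : Measure Mk} (hm : Fair mu) :
    ∃ c : ℝ, 0 < c ∧ ∃ r0 : ℤ, 0 < r0 ∧ ∀ t : ℤ, r0 ≤ t → ∀ p q : ℤ,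
      c ≤ mu.real {o | Ann p q t (SB o)} ∧ c ≤ mu.real {o | Ann p q t (dl (SB o))} := by
  obtain ⟨c, hc, r0, h⟩ := rsw_L hm
  refine ⟨c ^ 4, by positivity, max r0 1, lt_of_lt_of_le one_pos (le_max_right _ _), ?_⟩
  intro t ht p q
  have h1 := (pp mu hm).Ann_ge p q hc.le (h t (le_trans (le_max_left _ _) ht))
  rw [real_dl hm (IL_Ann _ _ _).2]
  exact ⟨h1, h1⟩

end Vale.Agent.P167.H871
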