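import Vale.Agent.P167.H871.TabK
import Vale.Agent.P167.H662.StartDefs

/-!
**[TAB]**: the strands near a hole, for the polygon with holes and the closed polygon.
-/

namespace Vale.Agent.P167.H871

open Finset Filter
open Vale.Agent.P167.E6 (IsPolygon Encloses dir face)
open Vale.Agent.P167.H825 (Marks enl FlowIn)
open Vale.Agent.P167.Enl (tB tB_lt theta_mono)

theorem pos_lb {ι : Type*} (s : Finset ι) (f : ι → ℝ) (hf : ∀ i ∈ s, 0 < f i) :
    ∃ γ : ℝ, 0 < γ ∧ ∀ i ∈ s, γ ≤ f i := by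
  classical
  induction s using Finset.induction_on with
  | empty => exact ⟨1, one_pos, by simp⟩
  | insert a s ha ih =>
    obtain ⟨γ, h1, h2⟩ := ih fun i hi => hf i (mem_insert_of_mem hi)
    refine ⟨min γ (f a), lt_min h1 (hf a (mem_insert_self _ _)), ?_⟩
    intro i hi
    rcases mem_insert.1 hi with rfl | hi
    · exact min_le_right _ _
    · exact (min_le_left _ _).trans (h2 i hi)

/-- The marks are separated. -/
theorem exists_gam {Q : Marks} (hQ : Q.Ok) (l : ℕ) {κ : ℝ} (hκ : 0 < κ) :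
    ∃ γ : ℝ, 0 < γ ∧ γ ≤ κ / 2 ∧
      (∀ i < l, ∀ j ≤ Q.m, 4 * γ ≤ Q.θ i (j + 1) - Q.θ i j) ∧
      ∀ j ≤ Q.m + 1, 4 * γ ≤ |Q.θ 0 j - Q.tp| := by
  obtain ⟨γ1, h1, h1'⟩ := pos_lb (range l ×ˢ range (Q.m + 1))
    (fun x => Q.θ x.1 (x.2 + 1) - Q.θ x.1 x.2) (fun x hx => by
      rw [mem_product, mem_range, mem_range] at hx
      have := hQ.lt x.1 x.2 (by omega)
      linarith)
  obtain ⟨γ2, h2, h2'⟩ := pos_lb (range (Q.m + 2)) (fun j => |Q.θ 0 j - Q.tp|) (fun j _ =>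
    abs_pos.2 (sub_ne_zero.2 (hQ.tpne j)))
  refine ⟨min (min (γ1 / 4) (γ2 / 4)) (κ / 2), by positivity, min_le_right _ _, ?_, ?_⟩
  · intro i hi j hj
    have h3 := h1' (i, j) (by rw [mem_product, mem_range, mem_range]; simp only; omega)
    simp only at h3
    have h4 : min (min (γ1 / 4) (γ2 / 4)) (κ / 2) ≤ γ1 / 4 :=
      (min_le_left _ _).trans (min_le_left _ _)
    linarith
  · intro j hj
    have h3 := h2' j (by rw [mem_range]; omega)
    have h4 : min (min (γ1 / 4) (γ2 / 4)) (κ / 2) ≤ γ2 / 4 :=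
      (min_le_left _ _).trans (min_le_right _ _)
    linarith

/-- The integer data for large `n`. -/
theorem mi_of {Q : Marks} (hQ : Q.Ok) {l n : ℕ} {γ δ : ℝ}
    (h1 : ∀ i < l, ∀ j ≤ Q.m, 4 * γ ≤ Q.θ i (j + 1) - Q.θ i j)
    (h2 : ∀ j ≤ Q.m + 1, 4 * γ ≤ |Q.θ 0 j - Q.tp|) (hδ : 0 < δ) (hδγ : δ ≤ γ)
    (hn1 : 8 ≤ γ * n) (hn2 : 1 ≤ δ * n) : MI l n ⌊δ * n⌋₊ (⌊γ * n⌋₊ + 3) Q := by
  have hn : (0 : ℝ) ≤ n := by positivity
  have hγ : 0 < γ := by linarith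
  have hn0 : 0 < n := by
    rcases Nat.eq_zero_or_pos n with h0 | h0
    · subst h0; simp at hn2; linarith
    · exact h0
  have hθ0 : ∀ i j, j ≤ Q.m + 1 → 0 ≤ Q.θ i j := by
    intro i j hj
    rw [← hQ.zero i]
    exact theta_mono hQ i (Nat.zero_le j) hj
  have fle : ∀ x : ℝ, 0 ≤ x → ((⌊x⌋₊ : ℕ) : ℝ) ≤ x := fun x hx => Nat.floor_le hx
  have flt : ∀ x : ℝ, x < ((⌊x⌋₊ : ℕ) : ℝ) + 1 := fun x => Nat.lt_floor_add_one x
  have f1 := fle (γ * n) (by positivity)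
  have f2 := fle (δ * n) (by positivity)
  have hδn : δ * n ≤ γ * n := mul_le_mul_of_nonneg_right hδγ hn
  refine ⟨?_, ?_, ?_, ?_, ?_, by omega, tB_lt hQ hn0⟩
  · intro i
    unfold st
    rw [hQ.zero, zero_mul, Nat.floor_zero]
  · intro i
    unfold st
    rw [hQ.one, one_mul, Nat.floor_natCast]
  · intro i hi j hj
    unfold st
    have g1 := fle (Q.θ i j * n) (mul_nonneg (hθ0 i j (by omega)) hn)
    have g2 := flt (Q.θ i (j + 1) * n)
    have g3 := mul_le_mul_of_nonneg_right (h1 i hi j hj) hn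
    have g4 : ((⌊Q.θ i j * n⌋₊ + (⌊γ * n⌋₊ + 3) + ⌊δ * n⌋₊ + 3 : ℕ) : ℝ) <
        ((⌊Q.θ i (j + 1) * n⌋₊ + 1 : ℕ) : ℝ) := by
      push_cast
      linarith
    have := Nat.cast_lt.1 g4
    omega
  · intro j hj
    unfold st tB
    have t1 := fle (Q.tp * n) (mul_nonneg hQ.tp0.le hn)
    have t2 := flt (Q.tp * n)
    have g1 := fle (Q.θ 0 j * n) (mul_nonneg (hθ0 0 j hj) hn)
    have g2 := flt (Q.θ 0 j * n)
    have g3 := mul_le_mul_of_nonneg_right (h2 j hj) hn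
    rcases le_total (Q.θ 0 j) Q.tp with h3 | h3
    · left
      rw [abs_of_nonpos (by linarith)] at g3
      have g4 : ((⌊Q.θ 0 j * n⌋₊ + (⌊γ * n⌋₊ + 3) + 1 : ℕ) : ℝ) <
          ((⌊Q.tp * n⌋₊ + 1 : ℕ) : ℝ) := by
        push_cast
        linarith
      have := Nat.cast_lt.1 g4
      omega
    · right
      rw [abs_of_nonneg (by linarith)] at g3
      have g4 : ((⌊Q.tp * n⌋₊ + (⌊γ * n⌋₊ + 3) + 1 : ℕ) : ℝ) <
          ((⌊Q.θ 0 j * n⌋₊ + 1 : ℕ) : ℝ) := by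
        push_cast
        linarith
      have := Nat.cast_lt.1 g4
      omega
  · exact Nat.one_le_floor_iff _ |>.2 hn2

/-- **[TAB]** -/
theorem tab : H662.TAB := by
  intro l _ p S₀ hp hD Q hQ κ B hκ
  obtain ⟨γ, hγ, hγκ, h1, h2⟩ := exists_gam hQ l hκ
  refine ⟨γ, hγ, γ, hγ, ?_⟩
  intro δ hδ hδγ
  filter_upwards [eventually_ge_atTop (⌈8 / γ⌉₊ + ⌈1 / δ⌉₊)] with n hn
  intro c hc x ω e k hk hnear
  have hn1 : 8 ≤ γ * n := by
    have h3 : (8 / γ : ℝ) ≤ n := (Nat.le_ceil _).trans (by exact_mod_cast (by omega))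
    rw [div_le_iff₀ hγ] at h3
    linarith
  have hn2 : 1 ≤ δ * n := by
    have h3 : (1 / δ : ℝ) ≤ n := (Nat.le_ceil _).trans (by exact_mod_cast (by omega))
    rw [div_le_iff₀ hδ] at h3
    linarith
  have hMI := mi_of hQ h1 h2 hδ hδγ.le hn1 hn2
  have hnn : (0 : ℝ) ≤ n := by positivity
  have hκn : γ * n ≤ κ / 2 * n := mul_le_mul_of_nonneg_right hγκ hnn
  have hfl := Int.floor_le (γ * (n : ℝ))
  have h3 := tab_int hp hD hQ hMI hc (by linarith) (r := ⌊γ * (n : ℝ)⌋) (by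
      have := Int.floor_toNat (γ * (n : ℝ))
      omega) (by push_cast; linarith) x ω e k hk (fun i hi => by
        rw [Int.le_floor]
        exact hnear i hi)
  exact h3

end Vale.Agent.P167.H871
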