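import Vale.Agent.P167.H871.Tab2

/-!
The table of the local strands at a hole, with the phases.
-/

namespace Vale.Agent.P167.H871

open Finset
open Vale.Agent.P167.Top
open Vale.Agent.P167.H945 (Ln ln_hi ln_lo)
open Vale.Agent.P167.A (plane)
open Vale.Agent.P167.H685 (plane_turn)
open Vale.Agent.P167.H199 (cang ah at' hb strand ret Returns)

/-- The angle of a strand without flow through its interior edges. -/
theorem cang_strand {ω : Cfg} {S : Finset Ed} {e : Ed} {a : Ed → Bool → ℝ} (he : e ∈ S)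
    (hr : Returns (nx ω) S e)
    (hoff : ∀ k, 0 < k → k < ret (nx ω) S e →
      ah plane a ((nx ω)^[k] e) + at' plane a ((nx ω)^[k] e) = 0) :
    cang plane (Real.pi / 3) a ω (strand (nx ω) S e) =
      Real.pi / 12 * ((∑ k ∈ range (ret (nx ω) S e), trn ω ((nx ω)^[k] e) : ℤ) : ℝ) +
        ah plane a e + at' plane a ((nx ω)^[ret (nx ω) S e] e) := by
  obtain ⟨h1, -⟩ := hr.spec
  have key : ∀ m, 1 ≤ m → (∀ k, 0 < k → k < m →
      ah plane a ((nx ω)^[k] e) + at' plane a ((nx ω)^[k] e) = 0) →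
      ∑ k ∈ range m, (Real.pi / 3 / 4 * (plane.turn ω ((nx ω)^[k] e) : ℝ) +
        ah plane a ((nx ω)^[k] e) + at' plane a (plane.nx ω ((nx ω)^[k] e))) =
      Real.pi / 12 * ((∑ k ∈ range m, trn ω ((nx ω)^[k] e) : ℤ) : ℝ) +
        ah plane a e + at' plane a ((nx ω)^[m] e) := by
    intro m
    induction m with
    | zero => intro h; omega
    | succ m ih =>
      intro _ hm
      rw [sum_range_succ, sum_range_succ, plane_turn, A.plane_nx,
        ← Function.iterate_succ_apply' (nx ω)]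
      rcases Nat.eq_zero_or_pos m with rfl | hm0
      · simp only [range_zero, sum_empty, zero_add, Function.iterate_zero, id]
        ring
      · rw [ih hm0 fun k k1 k2 => hm k k1 (by omega)]
        have := hm m hm0 (by omega)
        push_cast
        linarith
  unfold cang
  rw [H199.sum_strand (s_nx ω).injective he]
  exact key _ h1 hoff

/-- Phases on the two faces of a cut edge which crosses a step in the direction `d` (the domain is on
the left): `π/12 d + K` on the inner face, `π/12 d + K - π/6` on the outer one. -/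
def Fc (a : Ed → Bool → ℝ) (g : Ed) (d : ℤ) (K : ℝ) : Prop :=
  (hd4 g % 4 = (d + 1) % 4 → ah plane a g = Real.pi / 12 * d + K ∧
    at' plane a g = -(Real.pi / 12 * d + K - Real.pi / 6)) ∧
  (hd4 g % 4 = (d - 1) % 4 → ah plane a g = Real.pi / 12 * d + K - Real.pi / 6 ∧
    at' plane a g = -(Real.pi / 12 * d + K))

/-- Near the squares of `B` the cut edges are those of a wall which ends at the site `z` (direction
`u`) and of a wall which begins at `z` (direction `u'`). -/
structure LW (S : Finset Ed) (a : Ed → Bool → ℝ) (B : Set (ℤ × ℤ)) (z : ℤ × ℤ) (u u' sA sB : ℤ)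
    (K : ℝ) : Prop where
  turn : |u' - u| ≤ 1
  pA : 0 < sA
  pB : 0 < sB
  mem : ∀ g, (hdv g ∈ B ∨ tlv g ∈ B) → (g ∈ S ↔ (∃ σ, sA ≤ σ ∧ me g = pw z u (-σ)) ∨
    ∃ τ, sB ≤ τ ∧ me g = pw z u' τ)
  off : ∀ g, (hdv g ∈ B ∨ tlv g ∈ B) → g ∉ S → ah plane a g + at' plane a g = 0
  phA : ∀ g, (hdv g ∈ B ∨ tlv g ∈ B) → ∀ σ, sA ≤ σ → me g = pw z u (-σ) → Fc a g u K
  phB : ∀ g, (hdv g ∈ B ∨ tlv g ∈ B) → ∀ τ, sB ≤ τ → me g = pw z u' τ → Fc a g u' K

theorem hd4_line {g : Ed} {z : ℤ × ℤ} {d τ : ℤ} (h : me g = pw z d τ) :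
    hd4 g % 4 = (d + 1) % 4 ∨ hd4 g % 4 = (d - 1) % 4 := by
  obtain ⟨_, _, _, _, _, h1, _, h3⟩ := exists_Ln z d
  obtain ⟨t, rfl, _⟩ := h1 _ _ h
  rcases h3 t with ⟨h4, _⟩ | ⟨h4, _⟩
  · exact Or.inl h4
  · exact Or.inr h4

/-- **Table of the local strands at a hole.** -/
theorem LW.tab {S : Finset Ed} {a : Ed → Bool → ℝ} {B : Set (ℤ × ℤ)} {z : ℤ × ℤ} {u u' sA sB : ℤ}
    {K : ℝ} (h : LW S a B z u u' sA sB K) {ω : Cfg} {e : Ed} (he : e ∈ S)
    (hr : Returns (nx ω) S e) (hB : ∀ k < ret (nx ω) S e, hdv ((nx ω)^[k] e) ∈ B) :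
    |cang plane (Real.pi / 3) a ω (strand (nx ω) S e)| = Real.pi / 6 ∨
    (|cang plane (Real.pi / 3) a ω (strand (nx ω) S e)| = Real.pi / 2 ∧
      hd4 e % 4 = hd4 ((nx ω)^[ret (nx ω) S e] e) % 4 ∧ (∃ τ, sB ≤ τ ∧ me e = pw z u' τ) ∧
      ∃ τ, sB ≤ τ ∧ me ((nx ω)^[ret (nx ω) S e] e) = pw z u' τ) := by
  obtain ⟨hn, hfS⟩ := hr.spec
  have hmin : ∀ k, 0 < k → k < ret (nx ω) S e → (nx ω)^[k] e ∉ S := fun k k1 k2 =>
    H199.ret_min k1 k2
  have hc := cang_strand (a := a) he hr (fun k k1 k2 => h.off _ (Or.inl (hB k k2)) (hmin k k1 k2))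
  rw [hc]
  clear hc
  set n := ret (nx ω) S e with hn0
  set f := (nx ω)^[n] e with hf0
  have he_near : hdv e ∈ B ∨ tlv e ∈ B := Or.inl (hB 0 (by omega))
  have hf_near : hdv f ∈ B ∨ tlv f ∈ B := by
    right
    have h1 := hB (n - 1) (by omega)
    have h2 : f = nx ω ((nx ω)^[n - 1] e) := by
      rw [← Function.iterate_succ_apply' (nx ω), hf0]
      congr 2
      omega
    rw [h2, tlv_nx]
    exact h1
  have hint : ∀ k, 0 < k → k < n → (∀ σ, sA ≤ σ → me ((nx ω)^[k] e) ≠ pw z u (-σ)) ∧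
      ∀ τ, sB ≤ τ → me ((nx ω)^[k] e) ≠ pw z u' τ := by
    intro k k1 k2
    have h1 := mt (h.mem _ (Or.inl (hB k k2))).2 (hmin k k1 k2)
    rw [not_or] at h1
    exact ⟨fun σ h2 h3 => h1.1 ⟨σ, h2, h3⟩, fun τ h2 h3 => h1.2 ⟨τ, h2, h3⟩⟩
  have pA := h.pA
  have pB := h.pB
  -- the four cases
  rcases (h.mem e he_near).1 he with ⟨σ, hσ, heA⟩ | ⟨τ, hτ, heB⟩
  · have pe := h.phA e he_near σ hσ heA
    rcases (h.mem f hf_near).1 hfS with ⟨σ', hσ', hfA⟩ | ⟨τ', hτ', hfB⟩
    · -- both feet on the first wall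
      left
      have pf := h.phA f hf_near σ' hσ' hfA
      have key := line_same (ω := ω) (e := e) (n := n) (κ := 1) hn heA hfA (Or.inl rfl) (by
        intro i i1 i2 τ hτ
        by_contra hcon
        have := (hint i i1 i2).1 (-τ) (by omega)
        rw [neg_neg] at this
        exact this hτ)
      rw [← hf0] at key
      generalize hT : ∑ k ∈ range n, trn ω ((nx ω)^[k] e) = T at key ⊢
      rcases hd4_line heA with q1 | q1 <;> rcases hd4_line hfA with q2 | q2
      · obtain ⟨-, h2⟩ := key.resolve_right (fun h' => h'.1 (q1.trans q2.symm))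
        rw [if_pos q1] at h2
        rw [(pe.1 q1).1, (pf.1 q2).2, h2]
        push_cast
        rw [show Real.pi / 12 * -4 + (Real.pi / 12 * u + K) +
          -(Real.pi / 12 * u + K - Real.pi / 6) = -(Real.pi / 6) by ring, abs_neg,
          abs_of_pos (by positivity)]
      · obtain ⟨-, h2⟩ := key.resolve_left (fun h' => by omega)
        rw [(pe.1 q1).1, (pf.2 q2).2]
        rcases h2 with h2 | h2
        · rw [h2]; push_cast
          rw [show Real.pi / 12 * 2 + (Real.pi / 12 * u + K) + -(Real.pi / 12 * u + K) =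
            Real.pi / 6 by ring, abs_of_pos (by positivity)]
        · rw [h2]; push_cast
          rw [show Real.pi / 12 * -2 + (Real.pi / 12 * u + K) + -(Real.pi / 12 * u + K) =
            -(Real.pi / 6) by ring, abs_neg, abs_of_pos (by positivity)]
      · obtain ⟨-, h2⟩ := key.resolve_left (fun h' => by omega)
        rw [(pe.2 q1).1, (pf.1 q2).2]
        rcases h2 with h2 | h2
        · rw [h2]; push_cast
          rw [show Real.pi / 12 * 2 + (Real.pi / 12 * u + K - Real.pi / 6) +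
            -(Real.pi / 12 * u + K - Real.pi / 6) = Real.pi / 6 by ring,
            abs_of_pos (by positivity)]
        · rw [h2]; push_cast
          rw [show Real.pi / 12 * -2 + (Real.pi / 12 * u + K - Real.pi / 6) +
            -(Real.pi / 12 * u + K - Real.pi / 6) = -(Real.pi / 6) by ring, abs_neg,
            abs_of_pos (by positivity)]
      · obtain ⟨-, h2⟩ := key.resolve_right (fun h' => h'.1 (q1.trans q2.symm))
        rw [if_neg (by omega)] at h2
        rw [(pe.2 q1).1, (pf.2 q2).2, h2]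
        push_cast
        rw [show Real.pi / 12 * 4 + (Real.pi / 12 * u + K - Real.pi / 6) +
          -(Real.pi / 12 * u + K) = Real.pi / 6 by ring, abs_of_pos (by positivity)]
    · -- from the first wall to the second one
      left
      have pf := h.phB f hf_near τ' hτ' hfB
      have key := fun α β hα hβ => hole_AB (ω := ω) (e := e) (n := n) (α := α) (β := β) hn h.turn
        (by omega : 0 < σ) (by omega : 0 < τ') heA hfB
        (fun i i1 i2 σ'' h1 h2 => (hint i i1 i2).1 σ'' (by omega) h2)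
        (fun i i1 i2 τ'' h1 h2 => (hint i i1 i2).2 τ'' (by omega) h2) hα hβ
      rcases hd4_line heA with q1 | q1 <;> rcases hd4_line hfB with q2 | q2
      · rw [(pe.1 q1).1, (pf.1 q2).2, key 0 2 (Or.inl ⟨rfl, q1⟩) (Or.inr ⟨rfl, q2⟩)]
        push_cast
        rw [show Real.pi / 12 * ((u' : ℝ) - u - 2 + 0 + 2) + (Real.pi / 12 * u + K) +
          -(Real.pi / 12 * u' + K - Real.pi / 6) = Real.pi / 6 by ring, abs_of_pos (by positivity)]
      · rw [(pe.1 q1).1, (pf.2 q2).2, key 0 0 (Or.inl ⟨rfl, q1⟩) (Or.inl ⟨rfl, q2⟩)]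
        push_cast
        rw [show Real.pi / 12 * ((u' : ℝ) - u - 2 + 0 + 0) + (Real.pi / 12 * u + K) +
          -(Real.pi / 12 * u' + K) = -(Real.pi / 6) by ring, abs_neg, abs_of_pos (by positivity)]
      · rw [(pe.2 q1).1, (pf.1 q2).2, key 2 2 (Or.inr ⟨rfl, q1⟩) (Or.inr ⟨rfl, q2⟩)]
        push_cast
        rw [show Real.pi / 12 * ((u' : ℝ) - u - 2 + 2 + 2) + (Real.pi / 12 * u + K - Real.pi / 6) +
          -(Real.pi / 12 * u' + K - Real.pi / 6) = Real.pi / 6 by ring, abs_of_pos (by positivity)]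
      · rw [(pe.2 q1).1, (pf.2 q2).2, key 2 0 (Or.inr ⟨rfl, q1⟩) (Or.inl ⟨rfl, q2⟩)]
        push_cast
        rw [show Real.pi / 12 * ((u' : ℝ) - u - 2 + 2 + 0) + (Real.pi / 12 * u + K - Real.pi / 6) +
          -(Real.pi / 12 * u' + K) = -(Real.pi / 6) by ring, abs_neg, abs_of_pos (by positivity)]
  · have pe := h.phB e he_near τ hτ heB
    rcases (h.mem f hf_near).1 hfS with ⟨σ', hσ', hfA⟩ | ⟨τ', hτ', hfB⟩
    · -- from the second wall to the first one
      left
      have pf := h.phA f hf_near σ' hσ' hfA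
      have key := fun α β hα hβ => hole_BA (ω := ω) (e := e) (n := n) (α := α) (β := β) hn h.turn
        (by omega : 0 < σ') (by omega : 0 < τ) heB hfA
        (fun i i1 i2 σ'' h1 h2 => (hint i i1 i2).1 σ'' (by omega) h2)
        (fun i i1 i2 τ'' h1 h2 => (hint i i1 i2).2 τ'' (by omega) h2) hα hβ
      rcases hd4_line heB with q1 | q1 <;> rcases hd4_line hfA with q2 | q2
      · rw [(pe.1 q1).1, (pf.1 q2).2, key 0 2 (Or.inl ⟨rfl, q1⟩) (Or.inr ⟨rfl, q2⟩)]
        push_cast
        rw [show Real.pi / 12 * ((u : ℝ) - u' + 2 - 0 - 2) + (Real.pi / 12 * u' + K) +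
          -(Real.pi / 12 * u + K - Real.pi / 6) = Real.pi / 6 by ring, abs_of_pos (by positivity)]
      · rw [(pe.1 q1).1, (pf.2 q2).2, key 0 0 (Or.inl ⟨rfl, q1⟩) (Or.inl ⟨rfl, q2⟩)]
        push_cast
        rw [show Real.pi / 12 * ((u : ℝ) - u' + 2 - 0 - 0) + (Real.pi / 12 * u' + K) +
          -(Real.pi / 12 * u + K) = Real.pi / 6 by ring, abs_of_pos (by positivity)]
      · rw [(pe.2 q1).1, (pf.1 q2).2, key 2 2 (Or.inr ⟨rfl, q1⟩) (Or.inr ⟨rfl, q2⟩)]
        push_cast
        rw [show Real.pi / 12 * ((u : ℝ) - u' + 2 - 2 - 2) + (Real.pi / 12 * u' + K - Real.pi / 6) +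
          -(Real.pi / 12 * u + K - Real.pi / 6) = -(Real.pi / 6) by ring, abs_neg,
          abs_of_pos (by positivity)]
      · rw [(pe.2 q1).1, (pf.2 q2).2, key 2 0 (Or.inr ⟨rfl, q1⟩) (Or.inl ⟨rfl, q2⟩)]
        push_cast
        rw [show Real.pi / 12 * ((u : ℝ) - u' + 2 - 2 - 0) + (Real.pi / 12 * u' + K - Real.pi / 6) +
          -(Real.pi / 12 * u + K) = -(Real.pi / 6) by ring, abs_neg, abs_of_pos (by positivity)]
    · -- both feet on the second wall
      have pf := h.phB f hf_near τ' hτ' hfB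
      have key := line_same (ω := ω) (e := e) (n := n) (κ := -1) hn heB hfB (Or.inr rfl) (by
        intro i i1 i2 ρ hρ
        by_contra hcon
        exact (hint i i1 i2).2 ρ (by omega) hρ)
      rw [← hf0] at key
      generalize hT : ∑ k ∈ range n, trn ω ((nx ω)^[k] e) = T at key ⊢
      rcases hd4_line heB with q1 | q1 <;> rcases hd4_line hfB with q2 | q2
      · right
        obtain ⟨-, h2⟩ := key.resolve_right (fun h' => h'.1 (q1.trans q2.symm))
        rw [if_pos q1] at h2
        refine ⟨?_, q1.trans q2.symm, ⟨τ, hτ, heB⟩, ⟨τ', hτ', hfB⟩⟩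
        rw [(pe.1 q1).1, (pf.1 q2).2, h2]
        push_cast
        rw [show Real.pi / 12 * 4 + (Real.pi / 12 * u' + K) +
          -(Real.pi / 12 * u' + K - Real.pi / 6) = Real.pi / 2 by ring, abs_of_pos (by positivity)]
      · left
        obtain ⟨-, h2⟩ := key.resolve_left (fun h' => by omega)
        rw [(pe.1 q1).1, (pf.2 q2).2]
        rcases h2 with h2 | h2
        · rw [h2]; push_cast
          rw [show Real.pi / 12 * 2 + (Real.pi / 12 * u' + K) + -(Real.pi / 12 * u' + K) =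
            Real.pi / 6 by ring, abs_of_pos (by positivity)]
        · rw [h2]; push_cast
          rw [show Real.pi / 12 * -2 + (Real.pi / 12 * u' + K) + -(Real.pi / 12 * u' + K) =
            -(Real.pi / 6) by ring, abs_neg, abs_of_pos (by positivity)]
      · left
        obtain ⟨-, h2⟩ := key.resolve_left (fun h' => by omega)
        rw [(pe.2 q1).1, (pf.1 q2).2]
        rcases h2 with h2 | h2
        · rw [h2]; push_cast
          rw [show Real.pi / 12 * 2 + (Real.pi / 12 * u' + K - Real.pi / 6) +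
            -(Real.pi / 12 * u' + K - Real.pi / 6) = Real.pi / 6 by ring,
            abs_of_pos (by positivity)]
        · rw [h2]; push_cast
          rw [show Real.pi / 12 * -2 + (Real.pi / 12 * u' + K - Real.pi / 6) +
            -(Real.pi / 12 * u' + K - Real.pi / 6) = -(Real.pi / 6) by ring, abs_neg,
            abs_of_pos (by positivity)]
      · right
        obtain ⟨-, h2⟩ := key.resolve_right (fun h' => h'.1 (q1.trans q2.symm))
        rw [if_neg (by omega)] at h2
        refine ⟨?_, q1.trans q2.symm, ⟨τ, hτ, heB⟩, ⟨τ', hτ', hfB⟩⟩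
        rw [(pe.2 q1).1, (pf.2 q2).2, h2]
        push_cast
        rw [show Real.pi / 12 * -4 + (Real.pi / 12 * u' + K - Real.pi / 6) +
          -(Real.pi / 12 * u' + K) = -(Real.pi / 2) by ring, abs_neg, abs_of_pos (by positivity)]

end Vale.Agent.P167.H871
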