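import Vale.Agent.P167.H871.OutY
import Vale.Agent.P167.H871.Tab3
import Vale.Agent.P167.XDL.Core
import Vale.Agent.P167.H662.Dir

/-!
The factors of the strands outside the domain of a polygon.
-/

namespace Vale.Agent.P167.H871

open Finset
open Vale.Agent.P167.Top
open Vale.Agent.P145.FB (PStep PConn)
open Vale.Agent.P167.A (plane)
open Vale.Agent.P167.H199 (cang ah at' hb strand ret Returns)
open Vale.Agent.P167.E6 (IsPolygon Encloses dir face)
open Vale.Agent.P167.BR (be be_sides eds)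
open Vale.Agent.P167.XDL (bS mem_bS exists_idx P4_be ah_add_at)
open Vale.Agent.P167.H632 (cs pr an bl crossing)
open Vale.Agent.P167.H662 (col NCc)

variable {n : ℕ} {q : ZMod n → ℤ × ℤ} {D : Finset (ℤ × ℤ)} {u : ℕ → ℤ} {a : Ed → Bool → ℝ}
  {K : ℝ} {ω : Cfg} {e : Ed}

/-- The phases on the outer side of the cuts. -/
structure OutG (q : ZMod n → ℤ × ℤ) (D : Finset (ℤ × ℤ)) (u : ℕ → ℤ) (a : Ed → Bool → ℝ)
    (K : ℝ) : Prop where
  hd : ∀ k < n, hdv (be q (k : ZMod n)) ∉ D → ah plane a (be q (k : ZMod n)) =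
    Real.pi / 12 * u k + K - Real.pi / 6
  tl : ∀ k < n, tlv (be q (k : ZMod n)) ∉ D → at' plane a (be q (k : ZMod n)) =
    -(Real.pi / 12 * u k + K - Real.pi / 6)
  off : ∀ e, hdv e ∉ D → tlv e ∉ D → a e false + a e true = 0

/-- The strand of an edge which leaves `D`. -/
theorem strand_out (h1 : hdv e ∉ D) (hr : Returns (nx ω) (bS D) e) :
    (∀ k < ret (nx ω) (bS D) e, hdv ((nx ω)^[k] e) ∉ D) ∧
      hdv ((nx ω)^[ret (nx ω) (bS D) e] e) ∈ D := by
  obtain ⟨hm, hS⟩ := hr.spec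
  have hk : ∀ k < ret (nx ω) (bS D) e, hdv ((nx ω)^[k] e) ∉ D := by
    intro k
    induction k with
    | zero => intro _; exact h1
    | succ k ih =>
      intro hk h3
      have h4 := ih (by omega)
      apply H199.ret_min (f := nx ω) (S := bS D) (e := e) (k := k + 1) (by omega) hk
      rw [mem_bS]
      left
      refine ⟨h3, ?_⟩
      rw [Function.iterate_succ_apply', tlv_nx]
      exact h4
  refine ⟨hk, ?_⟩
  rw [mem_bS] at hS
  rcases hS with h | h
  · exact h.1
  · exfalso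
    obtain ⟨m, hm'⟩ : ∃ m, ret (nx ω) (bS D) e = m + 1 := ⟨_, (Nat.sub_add_cancel hm).symm⟩
    rw [hm', Function.iterate_succ_apply', tlv_nx] at h
    exact hk m (by omega) h.2

/-- **The factor of a strand outside `D`.** -/
theorem out_factor (hq : IsPolygon q) (hD : Encloses q D)
    (hu : Bd (D : Set (ℤ × ℤ)) n (fun k => q (k : ZMod n)) u 1) (hg : OutG q D u a K)
    (h1 : hdv e ∉ D) (h2 : tlv e ∈ D) (hr : Returns (nx ω) (bS D) e) :
    2 * Real.cos (cang plane (Real.pi / 3) a ω (strand (nx ω) (bS D) e)) = √3 ∨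
    (2 * Real.cos (cang plane (Real.pi / 3) a ω (strand (nx ω) (bS D) e)) = 0 ∧
      ∃ φ, OutPot D q ω e (ret (nx ω) (bS D) e) φ) := by
  have heS : e ∈ bS D := mem_bS.2 (Or.inr ⟨h1, h2⟩)
  obtain ⟨hm, hS⟩ := hr.spec
  obtain ⟨hk, hx⟩ := strand_out h1 hr
  have htl : ∀ k, 1 ≤ k → k ≤ ret (nx ω) (bS D) e → tlv ((nx ω)^[k] e) ∉ D := by
    intro k k1 k2
    obtain ⟨j, rfl⟩ : ∃ j, k = j + 1 := ⟨k - 1, by omega⟩
    rw [Function.iterate_succ_apply', tlv_nx]
    exact hk j (by omega)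
  have hc := cang_strand (a := a) heS hr (fun k k1 k2 => by
    rw [ah_add_at, hg.off _ (hk k k2) (htl k k1 k2.le), zero_mul])
  obtain ⟨i, hi, hei⟩ := exists_idx hq hD hu heS
  obtain ⟨j, hj, hej⟩ := exists_idx hq hD hu hS
  have hw := ext_wind hq hD hu (ω := ω) (e := e) hm hi hj (by rw [hei]; exact P4_be hq hu i)
    (by rw [hej]; exact P4_be hq hu j) hk h2 hx
  have g1 : ah plane a e = Real.pi / 12 * u i + K - Real.pi / 6 := by
    rw [hei]; exact hg.hd i hi (by rw [← hei]; exact h1)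
  have g2 : at' plane a ((nx ω)^[ret (nx ω) (bS D) e] e) =
      -(Real.pi / 12 * u j + K - Real.pi / 6) := by
    rw [hej]; exact hg.tl j hj (by rw [← hej]; exact htl _ hm le_rfl)
  rw [hc, g1, g2]
  have hcos : ∀ x : ℝ, (x = Real.pi / 6 ∨ x = -(Real.pi / 6)) → 2 * Real.cos x = √3 := by
    intro x hx
    rcases hx with rfl | rfl
    · rw [Real.cos_pi_div_six]; ring
    · rw [Real.cos_neg, Real.cos_pi_div_six]; ring
  have hcos' : ∀ x : ℝ, (x = Real.pi / 2 ∨ x = -(Real.pi / 2)) → 2 * Real.cos x = 0 := by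
    intro x hx
    rcases hx with rfl | rfl
    · rw [Real.cos_pi_div_two]; ring
    · rw [Real.cos_neg, Real.cos_pi_div_two]; ring
  obtain ⟨hij, hw⟩ := hw
  rcases hw with hT | ⟨hT, hφ⟩
  · left
    rw [hT]
    apply hcos
    split_ifs
    · left; push_cast; ring
    · right; push_cast; ring
  · right
    refine ⟨?_, hφ⟩
    rw [hT]
    apply hcos'
    split_ifs
    · right; push_cast; ring
    · left; push_cast; ring

/-! ### no crossing of an annulus -/

/-- The side of colour `c` of a medial edge. -/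
def fs (c : Bool) (e : Ed) : ℤ × ℤ := if c then ls e else rs e

theorem fs_path (ω : Cfg) (c : Bool) (e : Ed) (k : ℕ) :
    PConn (cs c ω) Set.univ (fs c e) (fs c ((nx ω)^[k] e)) := by
  induction k with
  | zero => exact PConn.refl (Set.mem_univ _)
  | succ k ih =>
    rw [Function.iterate_succ_apply']
    obtain ⟨h1, h2⟩ := H166.nx_step ω ((nx ω)^[k] e)
    cases c <;> cases hv : ω (hdv ((nx ω)^[k] e))
    · have h3 : PStep {hdv ((nx ω)^[k] e)} (fs false ((nx ω)^[k] e))
        (fs false (nx ω ((nx ω)^[k] e))) := (h2 hv).2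
      refine ih.tail ⟨h3.1, h3.2.1, ?_⟩ (Set.mem_univ _)
      rw [Set.mem_singleton_iff.1 h3.2.2]
      exact hv
    · have h3 := (h1 hv).2
      simp only [fs, Bool.false_eq_true, if_false] at ih ⊢
      rw [h3]; exact ih
    · have h3 := (h2 hv).1
      simp only [fs, if_true] at ih ⊢
      rw [h3]; exact ih
    · have h3 : PStep {hdv ((nx ω)^[k] e)} (fs true ((nx ω)^[k] e))
        (fs true (nx ω ((nx ω)^[k] e))) := (h1 hv).1
      refine ih.tail ⟨h3.1, h3.2.1, ?_⟩ (Set.mem_univ _)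
      rw [Set.mem_singleton_iff.1 h3.2.2]
      exact hv

theorem fs_par (c : Bool) (e : Ed) : ((fs c e).1 + (fs c e).2) % 2 = pr c := by
  obtain ⟨-, -, -, -, h1, h2⟩ := H166.corner e
  cases c
  · simpa [fs, pr] using h2
  · simpa [fs, pr] using h1

/-- On the event without a crossing of colour `!c` an orbit which starts inside stays inside. -/
theorem ncc_orbit {c : Bool} {x : ℤ × ℤ} {R1 R2 : ℤ} (h12 : R1 ≤ R2) (hω : ω ∈ NCc c x R1 R2)
    (he : nm (fs (!c) e - x) ≤ R1) (k : ℕ) : nm (fs (!c) ((nx ω)^[k] e) - x) < R2 := by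
  by_contra hcon
  push Not at hcon
  obtain ⟨z, z', h1, h2, h3, h4, -⟩ := crossing h12 (fs_path ω (!c) e k) he hcon
  refine hω ⟨z, z', ?_, h1, h2, h4.mono subset_rfl fun _ h => h.2⟩
  rw [← fs_par (!c) e]
  exact (h3.parity).symm

theorem near_fs (c : Bool) (e : Ed) : IsC (hdv e) (fs c e) := by
  obtain ⟨h1, h2, h3, h4, -⟩ := H166.corner e
  cases c
  · exact ⟨h3, h4⟩
  · exact ⟨h1, h2⟩

/-- An orbit which stays in a ball returns. -/
theorem returns_of_bdd {S : Finset Ed} (he : e ∈ S) {c : Bool} {x : ℤ × ℤ} {R : ℤ}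
    (h : ∀ k, nm (fs c ((nx ω)^[k] e) - x) < R) : Returns (nx ω) S e := by
  have hfin : {v : ℤ × ℤ | nm (v - x) ≤ R}.Finite := by
    apply (Set.finite_Icc (x.1 - R, x.2 - R) (x.1 + R, x.2 + R)).subset
    intro v hv
    rw [Set.mem_ofPred_eq, H632.nm_le] at hv
    simp only [Prod.fst_sub, Prod.snd_sub] at hv
    rw [Set.mem_Icc, Prod.le_def, Prod.le_def]
    simp only
    omega
  rcases H662.exit_or_return hfin (ω := ω) e with ⟨k, h1, h2⟩ | ⟨k, h1⟩
  · exact ⟨k, h1, by rw [h2]; exact he⟩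
  · exfalso
    apply h1
    have h3 := h k
    have h4 := near_fs c ((nx ω)^[k] e)
    obtain ⟨h5, h6⟩ := h4
    have h7 : nm (fs c ((nx ω)^[k] e) - x) ≤ R - 1 := by omega
    rw [H632.nm_le] at h7
    rw [Set.mem_ofPred_eq, H632.nm_le]
    simp only [Prod.fst_sub, Prod.snd_sub] at h7 ⊢
    omega

/-- The base point is joined to the outside of a ball by a path of its colour outside `D`, and there
is no crossing of the other colour. -/
def OutEv (D : Finset (ℤ × ℤ)) (b x : ℤ × ℤ) (R1 R2 : ℤ) : Set Mk :=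
  {ω | ∃ t, R2 < nm (t - x) ∧ PConn (cs (col b) ω ∩ {v | v ∉ D}) Set.univ b t} ∩
    NCc (col b) x R1 R2

/-- No factor vanishes on the event `OutEv`. -/
theorem out_ev (hq : IsPolygon q) (hD : Encloses q D)
    (hu : Bd (D : Set (ℤ × ℤ)) n (fun k => q (k : ZMod n)) u 1) (hg : OutG q D u a K)
    {x : ℤ × ℤ} {R1 R2 : ℤ} (h12 : R1 ≤ R2) (hR : ∀ k, nm (q k - x) ≤ R1)
    (hω : ω ∈ OutEv D (q 0) x R1 R2) (h1 : hdv e ∉ D) (h2 : tlv e ∈ D) :
    2 * Real.cos (cang plane (Real.pi / 3) a ω (strand (nx ω) (bS D) e)) = √3 := by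
  have heS : e ∈ bS D := mem_bS.2 (Or.inr ⟨h1, h2⟩)
  obtain ⟨⟨t, ht, hpath⟩, hN⟩ := hω
  obtain ⟨i, hi, hei⟩ := exists_idx hq hD hu heS
  have hstart : nm (fs (!(col (q 0))) e - x) ≤ R1 := by
    rw [hei]
    rcases be_sides hq (i : ZMod n) with ⟨h3, h4⟩ | ⟨h3, h4⟩ <;> unfold fs <;> split_ifs
    · rw [h3]; exact hR _
    · rw [h4]; exact hR _
    · rw [h4]; exact hR _
    · rw [h3]; exact hR _
  have horb := ncc_orbit h12 hN hstart
  have hr := returns_of_bdd heS horb
  rcases out_factor hq hD hu hg h1 h2 hr with h | ⟨-, φ, hφ⟩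
  · exact h
  · exfalso
    apply hφ.base
    have key : ∀ s, PConn (cs (col (q 0)) ω ∩ {v | v ∉ D}) Set.univ (q 0) s → φ s = φ (q 0) := by
      intro s hs
      obtain ⟨hs0, hs⟩ := hs
      induction hs with
      | refl => rfl
      | @tail y z hy hyz ih =>
        have hpar := (show PConn (cs (col (q 0)) ω ∩ {v | v ∉ D}) Set.univ (q 0) y from
          ⟨hs0, hy⟩).parity
        rw [← ih]
        obtain ⟨⟨g1, g2, g3, g4⟩, -⟩ := hyz
        refine (hφ.cross _ g4 y z ⟨g1, g2, rfl⟩ ?_).symm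
        rw [show ω (min y.1 z.1, min y.2 z.2) = col (q 0) from g3]
        unfold H662.col
        apply decide_eq_decide.2
        rw [Int.even_iff, Int.even_iff]
        omega
    rw [← key t hpath]
    apply hφ.far (x.1 - R2) (x.1 + R2) (x.2 - R2) (x.2 + R2)
    · intro k
      have := hR k
      rw [H632.nm_le] at this
      simp only [Prod.fst_sub, Prod.snd_sub] at this
      omega
    · intro k _
      have h5 := horb k
      obtain ⟨h6, h7⟩ := near_fs (!(col (q 0))) ((nx ω)^[k] e)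
      have h8 : nm (fs (!(col (q 0))) ((nx ω)^[k] e) - x) ≤ R2 - 1 := by omega
      rw [H632.nm_le] at h8
      simp only [Prod.fst_sub, Prod.snd_sub] at h8
      omega
    · by_contra hcon
      push Not at hcon
      have : nm (t - x) ≤ R2 := by
        rw [H632.nm_le]
        simp only [Prod.fst_sub, Prod.snd_sub]
        omega
      omega

/-- The sites of the polygon are corners of squares of `D`. -/
theorem bd_near (hu : Bd (D : Set (ℤ × ℤ)) n (fun k => q (k : ZMod n)) u 1) [NeZero n]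
    {x : ℤ × ℤ} {R1 : ℤ} (h : ∀ v ∈ D, nm (v - x) < R1) (k : ZMod n) : nm (q k - x) ≤ R1 := by
  have h1 := h _ (hu.left k.val)
  have h2 := isC_sqL (q ((k.val : ℕ) : ZMod n)) (u k.val)
  rw [ZMod.natCast_zmod_val] at h1 h2
  obtain ⟨h3, h4⟩ := h2
  have h5 : nm (sqL (q k) (u k.val) - x) ≤ R1 - 1 := by omega
  rw [H632.nm_le] at h5 ⊢
  simp only [Prod.fst_sub, Prod.snd_sub] at h5 ⊢
  omega

end Vale.Agent.P167.H871
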