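import Mathlib

/-!
# P167, block D: fair coins indexed by `ℤ × ℤ`

`Fair mu`: under `mu` the coordinates are independent fair coins. Local events: counting formula,
positive association, independence, symmetries.
-/

namespace Vale.Agent.P167.H871

open MeasureTheory Finset

abbrev Pt : Type := ℤ × ℤ

/-- Percolation configurations, indexed by the vertices of the six-vertex lattice. -/
abbrev Mk : Type := ℤ × ℤ → Bool

/-- Independent fair coins. -/
structure Fair (mu : Measure Mk) : Prop where
  prob : IsProbabilityMeasure mu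
  cyl : ∀ (F : Finset Pt) (η : Mk), mu.real {o | ∀ w ∈ F, o w = η w} = (1 / 2) ^ F.card

/-- The set depends on the coordinates in `F` only. -/
def Dep (F : Finset Pt) (A : Set Mk) : Prop :=
  ∀ o o' : Mk, (∀ w ∈ F, o w = o' w) → o ∈ A → o' ∈ A

theorem Dep.iff {F : Finset Pt} {A : Set Mk} (h : Dep F A) {o o' : Mk}
    (ho : ∀ w ∈ F, o w = o' w) : o ∈ A ↔ o' ∈ A :=
  ⟨h o o' ho, h o' o fun w hw => (ho w hw).symm⟩

theorem Dep.mono {F G : Finset Pt} {A : Set Mk} (h : Dep F A) (hFG : F ⊆ G) : Dep G A :=
  fun o o' ho => h o o' fun w hw => ho w (hFG hw)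

theorem Dep.compl {F : Finset Pt} {A : Set Mk} (h : Dep F A) : Dep F Aᶜ :=
  fun _ _ ho hA hB => hA ((h.iff ho).2 hB)

theorem Dep.inter {F : Finset Pt} {A B : Set Mk} (h : Dep F A) (h' : Dep F B) : Dep F (A ∩ B) :=
  fun o o' ho hA => ⟨h o o' ho hA.1, h' o o' ho hA.2⟩

theorem Dep.inter' {F G : Finset Pt} {A B : Set Mk} (h : Dep F A) (h' : Dep G B) :
    Dep (F ∪ G) (A ∩ B) :=
  (h.mono subset_union_left).inter (h'.mono subset_union_right)

theorem Dep.union {F : Finset Pt} {A B : Set Mk} (h : Dep F A) (h' : Dep F B) : Dep F (A ∪ B) :=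
  fun o o' ho hA => hA.imp (h o o' ho) (h' o o' ho)

/-- Extension of a finite configuration. -/
noncomputable def ext (F : Finset Pt) (η : F → Bool) : Mk :=
  fun w => if h : w ∈ F then η ⟨w, h⟩ else false

theorem ext_apply {F : Finset Pt} (η : F → Bool) {w : Pt} (h : w ∈ F) : ext F η w = η ⟨w, h⟩ := by
  simp [ext, h]

theorem meas_cyl (F : Finset Pt) (η : Mk) : MeasurableSet {o : Mk | ∀ w ∈ F, o w = η w} := by
  have : {o : Mk | ∀ w ∈ F, o w = η w} = ⋂ w ∈ F, (fun o : Mk => o w) ⁻¹' {η w} := by
    ext o; simp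
  rw [this]
  exact Finset.measurableSet_biInter _ fun w _ => (measurable_pi_apply w) (measurableSet_singleton _)

theorem Dep.eq_biUnion {F : Finset Pt} {A : Set Mk} (h : Dep F A) :
    A = ⋃ η ∈ {η : F → Bool | ext F η ∈ A}, {o : Mk | ∀ w ∈ F, o w = ext F η w} := by
  ext o
  simp only [Set.mem_iUnion, Set.mem_ofPred_eq, exists_prop]
  constructor
  · intro ho
    refine ⟨fun w => o w, ?_, fun w hw => (ext_apply (fun w : F => o w) hw).symm⟩
    exact h o _ (fun w hw => (ext_apply (fun w : F => o w) hw).symm) ho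
  · rintro ⟨η, h1, h2⟩
    exact h _ _ (fun w hw => (h2 w hw).symm) h1

theorem Dep.meas {F : Finset Pt} {A : Set Mk} (h : Dep F A) : MeasurableSet A := by
  rw [h.eq_biUnion]
  exact MeasurableSet.biUnion (Set.to_countable _) fun η _ => meas_cyl F _

open Classical in
/-- The counting formula. -/
theorem Fair.real_eq {mu : Measure Mk} (hm : Fair mu) {F : Finset Pt} {A : Set Mk} (h : Dep F A) :
    mu.real A = ((univ : Finset (F → Bool)).filter (fun η => ext F η ∈ A)).card * (1 / 2) ^ F.card := by
  have := hm.prob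
  have e : A = ⋃ η ∈ (univ : Finset (F → Bool)).filter (fun η => ext F η ∈ A),
      {o : Mk | ∀ w ∈ F, o w = ext F η w} := by
    conv_lhs => rw [h.eq_biUnion]
    ext o; simp
  conv_lhs => rw [e]
  rw [measureReal_biUnion_finset]
  · rw [Finset.sum_congr rfl (fun η _ => hm.cyl F (ext F η))]
    simp
  · intro η _ ξ _ hne
    rw [Function.onFun, Set.disjoint_left]
    intro o ho ho'
    apply hne
    funext w
    have h1 := ho w.1 w.2
    have h2 := ho' w.1 w.2
    rw [ext_apply _ w.2] at h1 h2
    exact h1.symm.trans h2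
  · intro η _
    exact meas_cyl F _

open Classical in
/-- Sums over finite configurations. -/
theorem Fair.real_eq_sum {mu : Measure Mk} (hm : Fair mu) {F : Finset Pt} {A : Set Mk}
    (h : Dep F A) :
    mu.real A = (∑ η : F → Bool, if ext F η ∈ A then (1 : ℝ) else 0) * (1 / 2) ^ F.card := by
  rw [hm.real_eq h]
  congr 1
  rw [Finset.sum_ite]
  simp

/-- Increasing sets of configurations. -/
def IncS (A : Set Mk) : Prop := ∀ o o' : Mk, (∀ w, o w = true → o' w = true) → o ∈ A → o' ∈ A

/-- Positive association of independent coins. -/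
theorem Fair.fkg {mu : Measure Mk} (hm : Fair mu) {F : Finset Pt} {A B : Set Mk}
    (hA : Dep F A) (hB : Dep F B) (iA : IncS A) (iB : IncS B) :
    mu.real A * mu.real B ≤ mu.real (A ∩ B) := by
  classical
  rw [hm.real_eq_sum hA, hm.real_eq_sum hB, hm.real_eq_sum (hA.inter hB)]
  have mono : ∀ C : Set Mk, IncS C → Monotone (fun η : F → Bool => if ext F η ∈ C then (1 : ℝ) else 0) := by
    intro C iC η ξ hle
    by_cases h1 : ext F η ∈ C
    · have h2 : ext F ξ ∈ C := by
        refine iC _ _ (fun w hw => ?_) h1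
        unfold ext at hw ⊢
        by_cases hF : w ∈ F
        · simp only [hF, dif_pos] at hw ⊢
          have := hle ⟨w, hF⟩
          rw [hw] at this
          exact Bool.eq_true_of_true_le this
        · simp [hF] at hw
      simp [h1, h2]
    · simp only [h1, if_false]
      split_ifs <;> norm_num
  have key := _root_.fkg (α := F → Bool) (β := ℝ) (fun η => if ext F η ∈ A then (1 : ℝ) else 0)
    (fun η => if ext F η ∈ B then (1 : ℝ) else 0) (fun _ => (1 : ℝ)) (fun _ => by norm_num)
    (fun η => by dsimp only; split_ifs <;> norm_num) (fun η => by dsimp only; split_ifs <;> norm_num)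
    (mono A iA) (mono B iB) (fun a b => le_rfl)
  simp only [one_mul, sum_const, card_univ, nsmul_eq_mul, mul_one, Fintype.card_fun,
    Fintype.card_bool, Fintype.card_coe] at key
  have e : ∀ η : F → Bool, (if ext F η ∈ A then (1 : ℝ) else 0) * (if ext F η ∈ B then (1 : ℝ) else 0)
      = if ext F η ∈ A ∩ B then (1 : ℝ) else 0 := by
    intro η
    by_cases h1 : ext F η ∈ A <;> by_cases h2 : ext F η ∈ B <;> simp [h1, h2]
  rw [Finset.sum_congr rfl (fun η _ => e η)] at key
  push_cast at key
  have h2 : (1 / 2 : ℝ) ^ F.card * 2 ^ F.card = 1 := by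
    rw [← mul_pow]; norm_num
  calc _ = ((∑ η : F → Bool, if ext F η ∈ A then (1 : ℝ) else 0) *
        (∑ η : F → Bool, if ext F η ∈ B then (1 : ℝ) else 0)) * ((1 / 2) ^ F.card * (1 / 2) ^ F.card) := by
        ring
    _ ≤ (2 ^ F.card * ∑ η : F → Bool, if ext F η ∈ A ∩ B then (1 : ℝ) else 0) *
        ((1 / 2) ^ F.card * (1 / 2) ^ F.card) := by
        exact mul_le_mul_of_nonneg_right key (by positivity)
    _ = ((1 / 2 : ℝ) ^ F.card * 2 ^ F.card) *
        ((∑ η : F → Bool, if ext F η ∈ A ∩ B then (1 : ℝ) else 0) * (1 / 2) ^ F.card) := by ring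
    _ = _ := by rw [h2, one_mul]; congr!

/-- Independence of sets which depend on disjoint sets of coordinates. -/
theorem Fair.indep {mu : Measure Mk} (hm : Fair mu) {F G : Finset Pt} (hFG : Disjoint F G)
    {A B : Set Mk} (hA : Dep F A) (hB : Dep G B) :
    mu.real (A ∩ B) = mu.real A * mu.real B := by
  classical
  have := hm.prob
  have e : A ∩ B = ⋃ x ∈ ((univ : Finset (F → Bool)).filter (fun η => ext F η ∈ A)) ×ˢ
      ((univ : Finset (G → Bool)).filter (fun η => ext G η ∈ B)),
      {o : Mk | ∀ w ∈ F ∪ G, o w = if w ∈ F then ext F x.1 w else ext G x.2 w} := by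
    conv_lhs => rw [hA.eq_biUnion, hB.eq_biUnion]
    ext o
    simp only [Set.mem_inter_iff, Set.mem_iUnion, Set.mem_ofPred_eq, exists_prop, mem_product,
      mem_filter, mem_univ, true_and, mem_union, Prod.exists]
    constructor
    · rintro ⟨⟨η, h1, h2⟩, ⟨ξ, h3, h4⟩⟩
      refine ⟨η, ξ, ⟨h1, h3⟩, fun w hw => ?_⟩
      by_cases hwF : w ∈ F
      · rw [if_pos hwF]; exact h2 w hwF
      · rw [if_neg hwF]; exact h4 w (hw.resolve_left hwF)
    · rintro ⟨η, ξ, ⟨h1, h3⟩, h2⟩
      refine ⟨⟨η, h1, fun w hw => ?_⟩, ⟨ξ, h3, fun w hw => ?_⟩⟩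
      · have := h2 w (Or.inl hw)
        rwa [if_pos hw] at this
      · have := h2 w (Or.inr hw)
        rwa [if_neg (Finset.disjoint_right.1 hFG hw)] at this
  rw [e, measureReal_biUnion_finset]
  · rw [Finset.sum_congr rfl (fun x _ => hm.cyl (F ∪ G) (fun w => if w ∈ F then ext F x.1 w else ext G x.2 w)),
      hm.real_eq hA, hm.real_eq hB]
    simp only [sum_const, card_product, nsmul_eq_mul, card_union_of_disjoint hFG, pow_add]
    push_cast
    ring
  · intro x _ y _ hne
    rw [Function.onFun, Set.disjoint_left]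
    intro o ho ho'
    apply hne
    refine Prod.ext (funext fun w => ?_) (funext fun w => ?_)
    · have h1 := ho w.1 (mem_union_left _ w.2)
      have h2 := ho' w.1 (mem_union_left _ w.2)
      rw [if_pos w.2, ext_apply _ w.2] at h1 h2
      exact h1.symm.trans h2
    · have h1 := ho w.1 (mem_union_right _ w.2)
      have h2 := ho' w.1 (mem_union_right _ w.2)
      rw [if_neg (Finset.disjoint_right.1 hFG w.2), ext_apply _ w.2] at h1 h2
      exact h1.symm.trans h2
  · intro x _
    exact meas_cyl _ _

/-- Independence of finitely many sets which depend on disjoint sets of coordinates. -/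
theorem Fair.indep_range {mu : Measure Mk} (hm : Fair mu) (F : ℕ → Finset Pt) (A : ℕ → Set Mk)
    (hA : ∀ i, Dep (F i) (A i)) (m : ℕ) (hd : ∀ i j, i < j → j < m → Disjoint (F i) (F j)) :
    mu.real (⋂ i ∈ Finset.range m, A i) = ∏ i ∈ Finset.range m, mu.real (A i) := by
  classical
  have := hm.prob
  induction m with
  | zero => simp
  | succ m ih =>
    have hD : ∀ m, Dep ((Finset.range m).biUnion F) (⋂ i ∈ Finset.range m, A i) := by
      intro m o o' ho h
      simp only [Set.mem_iInter] at h ⊢
      intro i hi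
      exact hA i o o' (fun w hw => ho w (Finset.mem_biUnion.2 ⟨i, hi, hw⟩)) (h i hi)
    have e : (⋂ i ∈ Finset.range (m + 1), A i) = (⋂ i ∈ Finset.range m, A i) ∩ A m := by
      ext o
      simp only [Set.mem_iInter, Set.mem_inter_iff, Finset.mem_range]
      constructor
      · intro h
        exact ⟨fun i hi => h i (by omega), h m (by omega)⟩
      · rintro ⟨h1, h2⟩ i hi
        rcases Nat.lt_succ_iff_lt_or_eq.1 hi with h3 | rfl
        · exact h1 i h3
        · exact h2
    rw [e, hm.indep (F := (Finset.range m).biUnion F) (G := F m) ?_ (hD m) (hA m),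
      ih (fun i j hij hj => hd i j hij (by omega)), Finset.prod_range_succ]
    rw [Finset.disjoint_biUnion_left]
    intro i hi
    exact hd i m (Finset.mem_range.1 hi) (by omega)

/-- Symmetries: permutation of the coordinates and flips. -/
theorem Fair.symm {mu : Measure Mk} (hm : Fair mu) {F : Finset Pt} {A : Set Mk} (hA : Dep F A)
    (e : Pt ≃ Pt) (b : Pt → Bool) :
    mu.real {o | (fun w => xor (o (e w)) (b w)) ∈ A} = mu.real A := by
  classical
  have := hm.prob
  have e1 : {o : Mk | (fun w => xor (o (e w)) (b w)) ∈ A} =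
      ⋃ η ∈ (univ : Finset (F → Bool)).filter (fun η => ext F η ∈ A),
      {o : Mk | ∀ w ∈ F.map e.toEmbedding, o w = xor (ext F η (e.symm w)) (b (e.symm w))} := by
    ext o
    simp only [Set.mem_ofPred_eq, mem_filter, mem_univ, true_and, Set.mem_iUnion, exists_prop,
      Finset.mem_map, Equiv.coe_toEmbedding]
    constructor
    · intro h
      refine ⟨fun w => xor (o (e w)) (b w), ?_, ?_⟩
      · exact hA _ _ (fun w hw => (ext_apply (fun w : F => xor (o (e w)) (b w)) hw).symm) h
      · rintro w ⟨v, hv, rfl⟩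
        rw [Equiv.symm_apply_apply, ext_apply _ hv]
        simp
    · rintro ⟨η, h1, h2⟩
      refine hA _ _ (fun w hw => ?_) h1
      have := h2 (e w) ⟨w, hw, rfl⟩
      rw [Equiv.symm_apply_apply] at this
      rw [this]
      simp
  rw [e1, measureReal_biUnion_finset, hm.real_eq hA]
  · rw [Finset.sum_congr rfl (fun η _ => hm.cyl (F.map e.toEmbedding)
      (fun w => xor (ext F η (e.symm w)) (b (e.symm w))))]
    simp
  · intro η _ ξ _ hne
    rw [Function.onFun, Set.disjoint_left]
    intro o ho ho'
    apply hne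
    funext w
    have h1 := ho (e w.1) (Finset.mem_map.2 ⟨w.1, w.2, rfl⟩)
    have h2 := ho' (e w.1) (Finset.mem_map.2 ⟨w.1, w.2, rfl⟩)
    rw [Equiv.symm_apply_apply, ext_apply _ w.2] at h1 h2
    have h3 := h1.symm.trans h2
    simpa using h3
  · intro η _
    exact meas_cyl _ _

/-- The product of fair coins. -/
noncomputable def coin : Measure Bool :=
  (2⁻¹ : ENNReal) • Measure.dirac true + (2⁻¹ : ENNReal) • Measure.dirac false

instance : IsProbabilityMeasure coin := by
  constructor
  simp only [coin, Measure.coe_add, Measure.coe_smul, Pi.add_apply, Pi.smul_apply, smul_eq_mul,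
    measure_univ, mul_one]
  exact ENNReal.inv_two_add_inv_two

theorem coin_singleton (b : Bool) : coin {b} = 2⁻¹ := by
  cases b <;> simp [coin]

noncomputable def perc : Measure Mk := Measure.infinitePi fun _ : ℤ × ℤ => coin

instance : IsProbabilityMeasure perc := by unfold perc; infer_instance

theorem fair_perc : Fair perc := by
  refine ⟨inferInstance, fun F η => ?_⟩
  have e : {o : Mk | ∀ w ∈ F, o w = η w} = Set.pi (F : Set Pt) (fun w => {η w}) := by
    ext o; simp [Set.mem_pi]
  rw [e, perc, Measure.real, Measure.infinitePi_pi _ (fun w _ => measurableSet_singleton _)]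
  rw [Finset.prod_congr rfl (fun w _ => coin_singleton (η w))]
  simp

end Vale.Agent.P167.H871
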