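import Vale.Agent.P167.H871.HopfD

/-!
The Umlaufsatz for closed paths of diagonal steps: the sign is given by the direction at the lowest
point.
-/

namespace Vale.Agent.P167.H871

open Finset
open Vale.Agent.P167.Top

/-- **Umlaufsatz** with the sign. -/
theorem DPath.closed_sign {M : ℕ → ℤ × ℤ} {D : ℕ → ℤ} (h : DPath M D) {n : ℕ} (hn : 3 ≤ n)
    (hP : ∀ i, M (i + n) = M i) (h0 : ∀ k, 1 ≤ k → k < n → ∀ i, M (i + k) ≠ M i) {k : ℕ}
    (hlow : ∀ i, (M k).2 < (M i).2 ∨ (M k).2 = (M i).2 ∧ (M k).1 ≤ (M i).1) :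
    D n - D 0 = 4 * (dv (D k)).1 := by
  have hmod : ∀ i, D (i + n) % 4 = D i % 4 := by
    intro i
    apply dv_inj
    have h1 := h.step (i + n)
    have h2 := h.step i
    rw [show i + n + 1 = i + 1 + n by ring, hP, hP, h2] at h1
    exact (add_left_cancel h1).symm
  have hconst : ∀ i, D (i + n) - D i = D n - D 0 := by
    intro i
    induction i with
    | zero => simp
    | succ i ih =>
      have a := hmod i
      have b := hmod (i + 1)
      have c := abs_le.1 (h.turn i)
      have d := abs_le.1 (h.turn (i + n))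
      rw [show i + n + 1 = i + 1 + n by ring] at d
      omega
  have hs := h.shift k
  have hD : ∀ i, Diag (M (i + 1 + k) - M (i + k)) := by
    intro i
    have h5 : M (i + 1 + k) = M (i + k) + dv (D (i + k)) := hs.step i
    rw [h5, add_sub_cancel_left]
    exact diag_dv _
  obtain ⟨hsum, hy1, hyn, hxn⟩ := S_closed (M := fun i => M (i + k)) hD hn
    (fun i => by
      show M (i + n + k) = M (i + k)
      rw [show i + n + k = i + k + n by ring, hP])
    (fun j hj hj' i => by
      show M (i + j + k) ≠ M (i + k)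
      rw [show i + j + k = i + k + j by ring]; exact h0 j hj hj' _)
    (fun i => by simp only [zero_add]; exact hlow (i + k))
  have htel : ∀ m, ∑ i ∈ range m, kd (fun i => M (i + k)) i = D (m + k) / 4 - D k / 4 := by
    intro m
    induction m with
    | zero => simp
    | succ m ih =>
      rw [Finset.sum_range_succ, ih, hs.kd_eq]
      ring
  rw [htel] at hsum
  have h1 := hmod k
  have h2 := hconst k
  rw [show k + n = n + k by ring] at h1 h2
  have h3 := hD 0
  simp only [zero_add] at h3 hsum
  have h5 : M (1 + k) - M k = dv (D k) := by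
    have := hs.step 0
    simp only [zero_add] at this
    rw [this, add_sub_cancel_left]
  have h6 : (M (1 + k) - M k).1 = (dv (D k)).1 := congrArg Prod.fst h5
  have h7 := dv_odd' (D k)
  omega
where
  dv_odd' (d : ℤ) : (dv d).1 = 1 ∨ (dv d).1 = -1 := by
    rcases dv_cases d with ⟨_, h⟩ | ⟨_, h⟩ | ⟨_, h⟩ | ⟨_, h⟩ <;> rw [h] <;> norm_num

/-- **Umlaufsatz, list form**, with the sign. -/
theorem hopf_sign (L : List ((ℤ × ℤ) × ℤ)) (s : ℤ) (hlen : 3 ≤ L.length)
    (hc : ∀ i, ∀ (h : i + 1 < L.length), Rl L[i] L[i + 1])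
    (hcl : (L[0]'(by omega)).1 = (L[L.length - 1]'(by omega)).1 + dv (L[L.length - 1]'(by omega)).2 ∧
      |(L[0]'(by omega)).2 + 4 * s - (L[L.length - 1]'(by omega)).2| ≤ 1)
    (hnd : (L.map Prod.fst).Nodup) {X : ℤ × ℤ} {d : ℤ} (hX : (X, d) ∈ L)
    (hlow : ∀ Y ∈ L.map Prod.fst, X.2 < Y.2 ∨ X.2 = Y.2 ∧ X.1 ≤ Y.1) : s = (dv d).1 := by
  set n := L.length with hn
  have hn0 : 0 < n := by omega
  have hmod : ∀ i : ℕ, i % n < n := fun i => Nat.mod_lt _ hn0
  let M : ℕ → ℤ × ℤ := fun i => (L[i % n]'(hmod i)).1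
  let D : ℕ → ℤ := fun i => (L[i % n]'(hmod i)).2 + 4 * s * ((i / n : ℕ) : ℤ)
  have hstep : DPath M D := by
    have hcase : ∀ i : ℕ, (i % n + 1 < n ∧ (i + 1) % n = i % n + 1 ∧ (i + 1) / n = i / n) ∨
        (i % n = n - 1 ∧ (i + 1) % n = 0 ∧ (i + 1) / n = i / n + 1) := by
      intro i
      rcases Nat.lt_or_ge (i % n + 1) n with h | h
      · left
        refine ⟨h, ?_, ?_⟩
        · rw [Nat.add_mod, Nat.mod_eq_of_lt (show 1 < n by omega), Nat.mod_eq_of_lt h]
        · rw [Nat.add_div hn0, Nat.mod_eq_of_lt (show 1 < n by omega),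
            Nat.div_eq_of_lt (show 1 < n by omega), if_neg (by omega)]
          omega
      · right
        have h' := hmod i
        refine ⟨by omega, ?_, ?_⟩
        · rw [Nat.add_mod, Nat.mod_eq_of_lt (show 1 < n by omega),
            show i % n + 1 = n by omega, Nat.mod_self]
        · rw [Nat.add_div hn0, Nat.mod_eq_of_lt (show 1 < n by omega),
            Nat.div_eq_of_lt (show 1 < n by omega), if_pos (by omega)]
    refine ⟨fun i => ?_, fun i => ?_⟩
    · simp only [M, D]
      have hdv : dv ((L[i % n]'(hmod i)).2 + 4 * s * ((i / n : ℕ) : ℤ)) =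
          dv (L[i % n]'(hmod i)).2 := dv_congr (by
        rw [mul_assoc]; omega)
      rw [hdv]
      rcases hcase i with ⟨h1, h2, _⟩ | ⟨h1, h2, _⟩
      · have := (hc (i % n) h1).1
        simp only [h2]
        exact this
      · simp only [h1, h2]
        exact hcl.1
    · simp only [D]
      rcases hcase i with ⟨h1, h2, h3⟩ | ⟨h1, h2, h3⟩
      · have := (hc (i % n) h1).2
        simp only [h2, h3]
        rw [add_sub_add_right_eq_sub]
        exact this
      · simp only [h1, h2, h3]
        have := hcl.2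
        push_cast
        convert this using 2
        ring
  have h0 : ∀ k, 1 ≤ k → k < n → ∀ i, M (i + k) ≠ M i := by
    intro k hk1 hk2 i h
    simp only [M] at h
    have h1 : (L.map Prod.fst)[(i + k) % n]'(by rw [List.length_map]; exact hmod _) =
        (L.map Prod.fst)[i % n]'(by rw [List.length_map]; exact hmod _) := by
      simp only [List.getElem_map]
      exact h
    have h2 := (List.Nodup.getElem_inj_iff hnd).1 h1
    have h3 : (i + k) % n = (i % n + k) % n := by rw [Nat.mod_add_mod]
    rw [h3] at h2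
    have h4 := hmod i
    rcases Nat.lt_or_ge (i % n + k) n with h5 | h5
    · rw [Nat.mod_eq_of_lt h5] at h2; omega
    · rw [Nat.mod_eq_sub_mod h5, Nat.mod_eq_of_lt (by omega)] at h2; omega
  have hP : ∀ i, M (i + n) = M i := by
    intro i
    simp only [M, Nat.add_mod_right]
  obtain ⟨k, hk, hkX⟩ := List.mem_iff_getElem.1 hX
  have hkn : k % n = k := Nat.mod_eq_of_lt hk
  have hMk : M k = X := by simp only [M, hkn, hkX]
  have hDk : D k = d := by
    have h9 : k / n = 0 := Nat.div_eq_of_lt hk
    simp only [D, hkn, hkX, h9]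
    simp
  have hfin := hstep.closed_sign hlen hP h0 (k := k) (fun i => by
    rw [hMk]
    apply hlow
    exact List.mem_map_of_mem (List.getElem_mem _))
  rw [hDk] at hfin
  simp only [D, Nat.mod_self, Nat.div_self hn0, Nat.zero_mod, Nat.zero_div] at hfin
  push_cast at hfin
  omega

end Vale.Agent.P167.H871
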