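import Vale.Agent.P167.H871.Dom2
import Vale.Agent.P167.H871.HopfS
import Vale.Agent.P167.E6.Defs

/-!
Every set of squares enclosed by a lattice polygon has lifted boundary directions with total turning
`4`.
-/

namespace Vale.Agent.P167.H871

open Finset
open Vale.Agent.P167.Top
open Vale.Agent.P167.E6 (IsPolygon Encloses dir face)

/-- **Umlaufsatz** for a closed segment, with the sign. -/
theorem Seg.hopf_sign {P : ℤ × ℤ} {d d' s : ℤ} {L : List ((ℤ × ℤ) × ℤ)} (h : Seg P d L P d')
    (hs : |d + 4 * s - d'| ≤ 1) (hlen : 3 ≤ L.length) (hnd : (L.map Prod.fst).Nodup)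
    {X : ℤ × ℤ} {δ : ℤ} (hX : (X, δ) ∈ L)
    (hlow : ∀ Y ∈ L.map Prod.fst, X.2 < Y.2 ∨ X.2 = Y.2 ∧ X.1 ≤ Y.1) : s = (dv δ).1 := by
  obtain ⟨X', hX', hP⟩ := h.last
  have h0 : L[0]'(by omega) = (P, d) := by
    have := h.head
    rw [List.head?_eq_getElem?, List.getElem?_eq_getElem (by omega)] at this
    exact Option.some.inj this
  have h1 : L[L.length - 1]'(by omega) = (X', d') := by
    rw [List.getLast?_eq_getElem?, List.getElem?_eq_getElem (by omega)] at hX'
    exact Option.some.inj hX'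
  refine H871.hopf_sign L s hlen (List.isChain_iff_getElem.1 h.chain) ?_ hnd hX hlow
  rw [h0, h1]
  exact ⟨hP, hs⟩

theorem vec_fin (r : Fin 4) : vec ((r.val : ℕ) : ℤ) = dir r := by
  fin_cases r <;> simp [vec, dx, dy, dir]

theorem face_eq (v : ℤ × ℤ) (r : Fin 4) : face v r = sqL v ((r.val : ℕ) : ℤ) := by
  fin_cases r <;> simp [face, sqL] <;> ext <;> simp

theorem face_pred (v : ℤ × ℤ) (r : Fin 4) : face v (r - 1) = sqL v (((r.val : ℕ) : ℤ) - 1) := by
  rw [face_eq]
  apply sqL_congr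
  fin_cases r <;> simp

variable {n : ℕ} {p : ZMod n → ℤ × ℤ} {D : Finset (ℤ × ℤ)}

theorem poly_inj (hp : IsPolygon p) {k l : ℕ} (hkl : k < l) (hl : l < k + n) :
    p (k : ZMod n) ≠ p (l : ZMod n) := by
  intro h
  have h1 := hp.2.1 h
  rw [ZMod.natCast_eq_natCast_iff, Nat.modEq_iff_dvd' hkl.le] at h1
  have := Nat.le_of_dvd (by omega) h1
  omega

theorem blB_length (P : ℕ → ℤ × ℤ) (u : ℕ → ℤ) (k : ℕ) : 2 ≤ (blB P u k).length := by
  unfold blB; split_ifs <;> simp

theorem arB_length (P : ℕ → ℤ × ℤ) (u : ℕ → ℤ) (j N : ℕ) : 2 * N ≤ (arB P u j N).length := by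
  induction N with
  | zero => simp
  | succ N ih =>
    rw [arB, List.length_append]
    have := blB_length P u (j + N)
    omega

theorem mem_arB_iff {P : ℕ → ℤ × ℤ} {u : ℕ → ℤ} {j N : ℕ} {Z : (ℤ × ℤ) × ℤ} :
    Z ∈ arB P u j N ↔ ∃ k, j ≤ k ∧ k < j + N ∧ Z ∈ blB P u k := by
  induction N with
  | zero =>
    simp only [arB, List.not_mem_nil, false_iff, not_exists, not_and]
    intro k h1 h2
    omega
  | succ N ih =>
    rw [arB, List.mem_append, ih]
    constructor
    · rintro (⟨k, h1, h2, h3⟩ | h)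
      · exact ⟨k, h1, by omega, h3⟩
      · exact ⟨j + N, by omega, by omega, h⟩
    · rintro ⟨k, h1, h2, h3⟩
      rcases Nat.lt_or_ge k (j + N) with h4 | h4
      · exact Or.inl ⟨k, h1, h4, h3⟩
      · obtain rfl : k = j + N := by omega
        exact Or.inr h3

/-- The total turning of the boundary is positive. -/
theorem Bd.sign {D : Set (ℤ × ℤ)} {P : ℕ → ℤ × ℤ} {u : ℕ → ℤ} {σ : ℤ} (h : Bd D n P u σ)
    (hn : 2 < n) {y0 : ℤ} (hD : ∀ v ∈ D, y0 ≤ v.2) {k0 : ℕ} (hk0 : k0 < n) (h0 : (P k0).2 = y0)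
    (h0' : u k0 % 4 = 0) : σ = 1 := by
  have hheight : ∀ k, y0 ≤ (P k).2 := by
    intro k
    have := hD _ (h.left k)
    unfold sqL at this
    simp only at this
    split_ifs at this <;> omega
  have hnext : ∀ k, (P (k + 1)).2 = (P k).2 + dy (u k) := by
    intro k; rw [h.step]; rfl
  have hseg := arB_seg h 0 (n - 1)
  rw [show 0 + (n - 1) + 1 = 0 + n by omega, show n - 1 + 1 = n by omega, h.per, h.perP] at hseg
  have hM : M4 (P 0) (u 0 + 4 * σ) = M4 (P 0) (u 0) := by
    rw [M4_eq, M4_eq, dx_congr (show (u 0 + 4 * σ) % 4 = u 0 % 4 by omega),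
      dy_congr (show (u 0 + 4 * σ) % 4 = u 0 % 4 by omega)]
  rw [hM] at hseg
  have hlen := arB_length P u 0 n
  obtain ⟨X, hX, hmin⟩ := Finset.exists_min_image ((arB P u 0 n).map Prod.fst).toFinset
    (fun X => toLex (X.2, X.1)) (by
      rw [List.toFinset_nonempty_iff]
      intro h'
      have := congrArg List.length h'
      rw [List.length_map, List.length_nil] at this
      omega)
  rw [List.mem_toFinset, List.mem_map] at hX
  obtain ⟨⟨X', δ⟩, hX, rfl⟩ := hX
  simp only at hmin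
  have hlow : ∀ Y ∈ (arB P u 0 n).map Prod.fst, X'.2 < Y.2 ∨ X'.2 = Y.2 ∧ X'.1 ≤ Y.1 := by
    intro Y hY
    have := hmin Y (List.mem_toFinset.2 hY)
    rwa [Prod.Lex.toLex_le_toLex] at this
  have hs := hseg.hopf_sign (s := σ) (by rw [abs_le]; constructor <;> linarith) (by omega)
    (arB_nodup h 0 n le_rfl) hX hlow
  rw [hs]
  -- the lowest point
  have hA : X'.2 ≤ 4 * y0 - 3 := by
    have hmem : (S4 (P (k0 + 1)) + dv (u k0 - 2)) ∈ (arB P u 0 n).map Prod.fst := by
      have h1 : ∃ z, (S4 (P (k0 + 1)) + dv (u k0 - 2), z) ∈ blB P u k0 := by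
        unfold blB
        split_ifs
        · exact ⟨u k0 - 1, by simp⟩
        · exact ⟨u k0, by simp⟩
      obtain ⟨z, hz⟩ := h1
      exact List.mem_map.2 ⟨_, mem_arB_iff.2 ⟨k0, by omega, by omega, hz⟩, rfl⟩
    have h1 := hlow _ hmem
    have h2 : (S4 (P (k0 + 1)) + dv (u k0 - 2)).2 = 4 * y0 - 3 := by
      have h3 : dv (u k0 - 2) = (-1, -1) := by
        rw [dv_congr (show (u k0 - 2) % 4 = 2 % 4 by omega)]
        rfl
      have h4 : dy (u k0) = 0 := by
        rw [dy_congr (show u k0 % 4 = 0 % 4 by omega)]; rfl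
      rw [h3]
      unfold S4
      simp only [Prod.snd_add]
      rw [hnext, h4, h0]
      ring
    rw [h2] at h1
    omega
  obtain ⟨k, _, hk, hXk⟩ := mem_arB_iff.1 hX
  have g1 := hheight k
  have g2 := hheight (k + 1)
  have g3 := hheight (k + 2)
  have g4 := hnext k
  have g5 := hnext (k + 1)
  have hcase : (X' = M4 (P k) (u k)) ∨ (X' = S4 (P (k + 1))) ∨
      (X' = S4 (P (k + 1)) + dv (u k - 2) ∧ (δ = u k ∨ δ = u k - 1)) ∨
      (X' = S4 (P (k + 1)) + dv (u (k + 1) - 1) ∧ δ = u (k + 1)) := by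
    unfold blB at hXk
    split_ifs at hXk
    · simp only [List.mem_cons, Prod.mk.injEq, List.not_mem_nil, or_false] at hXk
      tauto
    · simp only [List.mem_cons, Prod.mk.injEq, List.not_mem_nil, or_false] at hXk
      tauto
  have d1 : ∀ z : ℤ, z % 4 = 1 → dy z = 1 := fun z hz => by simp [dy, hz]
  have d3 : ∀ z : ℤ, z % 4 = 3 → dy z = -1 := fun z hz => by simp [dy, hz]
  clear hmin hlow hX hXk hs hseg hM hlen hD
  rcases hcase with h1 | h1 | ⟨h1, h2⟩ | ⟨h1, h2⟩
  · exfalso
    rw [h1, M4_eq] at hA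
    simp only at hA
    omega
  · exfalso
    rw [h1] at hA
    unfold S4 at hA
    simp only at hA
    omega
  · rw [h1] at hA
    unfold S4 at hA
    simp only [Prod.snd_add] at hA
    have h3 : u k % 4 = 0 := by
      rcases dv_cases (u k - 2) with ⟨a, b⟩ | ⟨a, b⟩ | ⟨a, b⟩ | ⟨a, b⟩
      · rw [b] at hA; simp only at hA; omega
      · rw [b] at hA; simp only at hA; omega
      · omega
      · rw [b] at hA; simp only at hA
        have := d1 (u k) (by omega)
        omega
    rcases h2 with rfl | rfl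
    · rw [dv_congr (show u k % 4 = 0 % 4 by omega)]; rfl
    · rw [dv_congr (show (u k - 1) % 4 = 3 % 4 by omega)]; rfl
  · rw [h1] at hA
    unfold S4 at hA
    simp only [Prod.snd_add] at hA
    have h3 : u (k + 1) % 4 = 0 := by
      rcases dv_cases (u (k + 1) - 1) with ⟨a, b⟩ | ⟨a, b⟩ | ⟨a, b⟩ | ⟨a, b⟩
      · rw [b] at hA; simp only at hA; omega
      · rw [b] at hA; simp only at hA; omega
      · have := d3 (u (k + 1)) (by omega)
        rw [show k + 1 + 1 = k + 2 by ring] at g5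
        rw [b] at hA; simp only at hA
        omega
      · omega
    rw [h2, dv_congr (show u (k + 1) % 4 = 0 % 4 by omega)]; rfl

/-- **Lifted directions of the boundary of a domain.** -/
theorem exists_bd (hp : IsPolygon p) (he : Encloses p D) :
    ∃ u : ℕ → ℤ, Bd (D : Set (ℤ × ℤ)) n (fun k => p (k : ZMod n)) u 1 := by
  obtain ⟨hn, hinj, hr⟩ := hp
  choose r hr using hr
  have hn0 : NeZero n := ⟨by omega⟩
  set R : ℕ → ℤ := fun k => (((r (k : ZMod n)).val : ℕ) : ℤ) with hR
  have hR4 : ∀ k, 0 ≤ R k ∧ R k < 4 := fun k => by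
    have := (r (k : ZMod n)).isLt
    simp only [hR]
    omega
  have hRn : ∀ k, R (k + n) = R k := fun k => by simp [hR]
  have hstep : ∀ k : ℕ, p ((k + 1 : ℕ) : ZMod n) = p (k : ZMod n) + vec (R k) := by
    intro k
    rw [Nat.cast_succ, hr, vec_fin]
  have hU : ∀ k, (R (k + 1) - R k) % 4 ≠ 2 := by
    intro k hk
    have h1 := hstep k
    have h2 := hstep (k + 1)
    have h3 : vec (R (k + 1)) = -vec (R k) := by
      have c3 := head_cases (R k)
      have c4 := head_cases (R (k + 1))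
      unfold vec
      ext <;> simp only [Prod.fst_neg, Prod.snd_neg] <;> omega
    rw [h1, h3, add_neg_cancel_right] at h2
    exact poly_inj ⟨hn, hinj, fun i => ⟨r i, hr i⟩⟩ (show k < k + 1 + 1 by omega) (by omega) h2.symm
  let u : ℕ → ℤ := fun k => Nat.rec (R 0) (fun k v => v + ((R (k + 1) - R k + 1) % 4 - 1)) k
  have u0 : u 0 = R 0 := rfl
  have us : ∀ k, u (k + 1) = u k + ((R (k + 1) - R k + 1) % 4 - 1) := fun _ => rfl
  have umod : ∀ k, u k % 4 = R k := by
    intro k
    induction k with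
    | zero => rw [u0]; have := hR4 0; omega
    | succ k ih =>
      rw [us]
      have h1 := hR4 k
      have h2 := hR4 (k + 1)
      omega
  have hvec : ∀ k, vec (u k) = vec (R k) := fun k => vec_congr (by
    have h1 := hR4 k
    have h2 := umod k
    omega)
  have hleft : ∀ k : ℕ, sqL (p (k : ZMod n)) (u k) ∈ D ∧ sqL (p (k : ZMod n)) (u k - 1) ∉ D := by
    intro k
    have h1 := (he (p (k : ZMod n)) (r (k : ZMod n))).1 ⟨(k : ZMod n), rfl, hr _⟩
    rw [face_eq, face_pred] at h1
    have h2 := umod k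
    have h3 := hR4 k
    rw [sqL_congr (show u k % 4 = (((r (k : ZMod n)).val : ℕ) : ℤ) % 4 by
        change _ = R k % 4; omega),
      sqL_congr (show (u k - 1) % 4 = ((((r (k : ZMod n)).val : ℕ) : ℤ) - 1) % 4 by
        change _ = (R k - 1) % 4; omega)]
    exact h1
  have hper : ∀ k, u (k + n) - u k = u n - u 0 := by
    intro k
    induction k with
    | zero => simp
    | succ k ih =>
      rw [show k + 1 + n = k + n + 1 by ring, us, us]
      have h1 := hRn k
      have h2 := hRn (k + 1)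
      rw [show k + 1 + n = k + n + 1 by ring] at h2
      rw [h1, h2]
      omega
  have hB : Bd (D : Set (ℤ × ℤ)) n (fun k => p (k : ZMod n)) u ((u n - u 0) / 4) := by
    refine ⟨fun k => ?_, fun k => ?_, fun k => ?_, fun k => ?_, fun k l hkl hl => ?_,
      fun k => ?_, fun k => ?_⟩
    · rw [hvec]; exact hstep k
    · rw [us, abs_le]
      have := hU k
      omega
    · have h1 := hper k
      have h2 := umod (k + n)
      have h3 := umod k
      rw [hRn] at h2
      omega
    · simp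
    · exact poly_inj ⟨hn, hinj, fun i => ⟨r i, hr i⟩⟩ hkl hl
    · exact (hleft k).1
    · exact (hleft k).2
  -- the lowest square
  obtain ⟨v, hv, hmin⟩ := Finset.exists_min_image D (fun v => v.2) ⟨_, (hleft 0).1⟩
  obtain ⟨i, hi, hi'⟩ := (he v 0).2 ⟨by rw [face_eq]; simpa [sqL] using hv, fun h => by
    rw [face_pred] at h
    have h2 := hmin _ h
    simp [sqL] at h2⟩
  have hk0 : ((ZMod.val i : ℕ) : ZMod n) = i := ZMod.natCast_zmod_val i
  have hsign := hB.sign hn (y0 := v.2) (fun w hw => hmin w hw) (k0 := ZMod.val i)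
    (ZMod.val_lt i) (by simp only [hk0, hi]) (by
      have h1 := hr i
      rw [hi', hi] at h1
      have h2 := umod (ZMod.val i)
      have h3 : R (ZMod.val i) = (((r i).val : ℕ) : ℤ) := by simp only [hR, hk0]
      have h4 := add_left_cancel h1
      rw [h2, h3]
      have h5 : r i = 0 := by
        have : ∀ r : Fin 4, dir 0 = dir r → r = 0 := by decide
        exact this _ h4
      rw [h5]; rfl)
  rw [hsign] at hB
  exact ⟨u, hB⟩

end Vale.Agent.P167.H871
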