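import Vale.Agent.P167.H871.Tr

/-!
# P167, block D2: a loop between a primal and a dual circuit (deterministic part)
-/

namespace Vale.Agent.P167.H871

open MeasureTheory Finset Vale.Agent.P145.FB Vale.Agent.P153 Vale.Agent.P153.Topo Vale.Agent.P167
open Relation

theorem ls_even (e : Ed) : Even ((ls e).1 + (ls e).2) := by
  rcases e with ⟨x, y⟩ | ⟨x, y⟩ <;> by_cases h : Even (x + y) <;> simp only [ls, h, if_true, if_false] <;>
    rw [Int.even_iff] at * <;> omega

theorem rs_odd (e : Ed) : Odd ((rs e).1 + (rs e).2) := by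
  rcases e with ⟨x, y⟩ | ⟨x, y⟩ <;> by_cases h : Even (x + y) <;> simp only [rs, h, if_true, if_false] <;>
    rw [Int.even_iff] at * <;> rw [Int.odd_iff] <;> omega

/-- The two sites of a medial edge are corners of its head. -/
theorem nn_hd (e : Ed) : NN (fi (ls e)) (px (hdv e)) ∧ NN (px (hdv e)) (fi (rs e)) := by
  rw [nn_fi_px, nn_px_fi]
  rcases e with ⟨x, y⟩ | ⟨x, y⟩ <;> by_cases h : Even (x + y) <;>
    simp only [ls, rs, hdv, h, if_true, if_false, true_or, or_true, and_true,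
      add_sub_cancel_right]

theorem edge_right (s : Pt) : ∃ e : Ed, (ls e = s ∧ rs e = (s.1 + 1, s.2)) ∨
    (rs e = s ∧ ls e = (s.1 + 1, s.2)) := by
  obtain ⟨x, y⟩ := s
  refine ⟨Sum.inr (x, y - 1), ?_⟩
  by_cases h : Even (x + (y - 1)) <;> simp [ls, rs, h]

theorem edge_up (s : Pt) : ∃ e : Ed, (ls e = s ∧ rs e = (s.1, s.2 + 1)) ∨
    (rs e = s ∧ ls e = (s.1, s.2 + 1)) := by
  obtain ⟨x, y⟩ := s
  refine ⟨Sum.inl (x - 1, y), ?_⟩
  by_cases h : Even (x - 1 + y) <;> simp [ls, rs, h]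

theorem rs_nx (ω : Cfg) (e : Ed) :
    rs (nx ω e) = rs e ∨ PStep (op ω)ᶜ (rs e) (rs (nx ω e)) := by
  rcases e with ⟨x, y⟩ | ⟨x, y⟩
  · by_cases h : Even (x + y)
    · by_cases hω : ω (x + 1, y) = true
      · left
        simp only [nx, h, hω, if_true, rs]
        rw [if_pos (by rw [Int.even_iff] at *; omega)]
        simp
      · right
        simp only [nx, h, hω, if_true, rs, if_false, Bool.false_eq_true]
        rw [if_neg (by rw [Int.even_iff] at *; omega)]
        refine ⟨by dsimp only; omega, by dsimp only; omega, ?_⟩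
        have e1 : min (x + 1) (x + 1 + 1) = x + 1 := by omega
        have e2 : min y (y + 1) = y := by omega
        dsimp only
        rw [e1, e2]
        exact hω
    · by_cases hω : ω (x, y) = true
      · left
        simp only [nx, h, hω, if_true, rs, if_false]
      · right
        simp only [nx, h, hω, rs, if_false, Bool.false_eq_true]
        rw [if_pos (by rw [Int.even_iff] at *; omega)]
        refine ⟨by dsimp only; omega, by dsimp only; omega, ?_⟩
        have e1 : min (x + 1) x = x := by omega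
        have e2 : min (y + 1) (y - 1 + 1) = y := by omega
        dsimp only
        rw [e1, e2]
        exact hω
  · by_cases h : Even (x + y)
    · by_cases hω : ω (x, y) = true
      · left
        simp only [nx, h, hω, if_true, rs]
        rw [if_neg (by rw [Int.even_iff] at *; omega)]
        simp
      · right
        simp only [nx, h, hω, if_true, rs, if_false, Bool.false_eq_true]
        refine ⟨by dsimp only; omega, by dsimp only; omega, ?_⟩
        have e1 : min x (x + 1) = x := by omega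
        have e2 : min (y + 1) y = y := by omega
        dsimp only
        rw [e1, e2]
        exact hω
    · by_cases hω : ω (x, y + 1) = true
      · left
        simp only [nx, h, hω, if_true, rs, if_false]
        rw [if_pos (by rw [Int.even_iff] at *; omega)]
      · right
        simp only [nx, h, hω, rs, if_false, Bool.false_eq_true]
        rw [if_neg (by rw [Int.even_iff] at *; omega)]
        refine ⟨by dsimp only; omega, by dsimp only; omega, ?_⟩
        have e1 : min (x + 1) (x - 1 + 1) = x := by omega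
        have e2 : min (y + 1) (y + 1 + 1) = y + 1 := by omega
        dsimp only
        rw [e1, e2]
        exact hω

/-- A set of sites closed under the four unit steps is everything. -/
theorem all_of_closed {D : Set Pt} {s0 : Pt} (h0 : s0 ∈ D)
    (h1 : ∀ s ∈ D, (s.1 + 1, s.2) ∈ D) (h2 : ∀ s ∈ D, (s.1 - 1, s.2) ∈ D)
    (h3 : ∀ s ∈ D, (s.1, s.2 + 1) ∈ D) (h4 : ∀ s ∈ D, (s.1, s.2 - 1) ∈ D) (s : Pt) : s ∈ D := by
  have a1 : ∀ x : ℤ, (x, s0.2) ∈ D := by
    intro x
    induction x using Int.inductionOn' (b := s0.1) with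
    | zero => exact h0
    | succ k _ hk => exact h1 _ hk
    | pred k _ hk => exact h2 _ hk
  have a2 : ∀ x y : ℤ, (x, y) ∈ D := by
    intro x y
    induction y using Int.inductionOn' (b := s0.2) with
    | zero => exact a1 x
    | succ k _ hk => exact h3 _ hk
    | pred k _ hk => exact h4 _ hk
  exact a2 s.1 s.2

/-- The sites on the right of a loop are joined, outside of the cluster `𝒦` whose sites are
surrounded, to each site which is not surrounded. -/
theorem right_side (hjump : S_jump) (hstep : S_step) (hsign : S_sign) {ω : Cfg} {ℓ : Finset Ed}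
    (hℓ : IsLoop ω ℓ) {𝒦 : Set Pt} {k0 : Pt} (hk0 : fi k0 ∈ 𝒦) (hK : ∀ s, fi s ∈ 𝒦 → W ℓ s = 1)
    (hb : ∀ v, px v ∈ 𝒦 → ω v = true ∧ ∀ s, Even (s.1 + s.2) → NN (px v) (fi s) → fi s ∈ 𝒦)
    {s0 : Pt} (h0 : W ℓ s0 = 0) : ∀ e ∈ ℓ, NC 𝒦ᶜ (fi s0) (fi (rs e)) ∧ W ℓ (rs e) = 0 := by
  have hval : ∀ s, W ℓ s = 0 ∨ W ℓ s = 1 := by
    rcases (hsign ω ℓ hℓ).1 with h | h
    · exact h
    · rcases h k0 with h1 | h1 <;> rw [hK _ hk0] at h1 <;> omega
  -- connection of two neighbours
  have hnn : ∀ e : Ed, W ℓ (ls e) = 0 → W ℓ (rs e) = 0 → NC 𝒦ᶜ (fi (ls e)) (fi (rs e)) := by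
    intro e h1 h2
    have m1 : fi (ls e) ∈ 𝒦ᶜ := fun h => by rw [hK _ h] at h1; omega
    have m2 : fi (rs e) ∈ 𝒦ᶜ := fun h => by rw [hK _ h] at h2; omega
    obtain ⟨n1, n2⟩ := nn_hd e
    have m3 : px (hdv e) ∈ 𝒦ᶜ := fun h => m1 ((hb _ h).2 _ (ls_even e) (by
      rw [nn_px_fi]; rwa [nn_fi_px] at n1))
    exact (NC.of_nn m1 m3 n1).tail n2 m2
  have hdual : ∀ s t : Pt, Odd (s.1 + s.2) → PStep (op ω)ᶜ s t → W ℓ s = 0 →
      NC 𝒦ᶜ (fi s) (fi t) ∧ W ℓ t = 0 := by
    intro s t hs hst h1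
    have h2 : W ℓ t = 0 := by rw [← hstep ω ℓ hℓ s t (Or.inr ⟨hs, hst⟩)]; exact h1
    have m1 : fi s ∈ 𝒦ᶜ := fun h => by rw [hK _ h] at h1; omega
    have m2 : fi t ∈ 𝒦ᶜ := fun h => by rw [hK _ h] at h2; omega
    obtain ⟨n1, n2⟩ := nn_of_step hst
    have m3 : px (min s.1 t.1, min s.2 t.2) ∈ 𝒦ᶜ := fun h => hst.2.2 (hb _ h).1
    exact ⟨(NC.of_nn m1 m3 n1).tail n2 m2, h2⟩
  set D : Set Pt := {s | NC 𝒦ᶜ (fi s0) (fi s) ∧ W ℓ s = 0} with hD
  have h0D : s0 ∈ D := ⟨NC.refl fun h => by rw [hK _ h] at h0; omega, h0⟩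
  -- some edge has its right site in `D`
  have hex : ∃ e ∈ ℓ, rs e ∈ D := by
    by_contra hno
    push Not at hno
    have key : ∀ (e : Ed) (s t : Pt), s ∈ D → ((ls e = s ∧ rs e = t) ∨ (rs e = s ∧ ls e = t)) →
        t ∈ D := by
      rintro e s t hs (⟨rfl, rfl⟩ | ⟨rfl, rfl⟩)
      · have h1 := hjump ω ℓ hℓ e
        have h2 : e ∉ ℓ := by
          intro he
          rw [if_pos he, hs.2] at h1
          rcases hval (rs e) with h | h <;> omega
        rw [if_neg h2, hs.2] at h1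
        have h3 : W ℓ (rs e) = 0 := by omega
        exact ⟨hs.1.trans (hnn e hs.2 h3), h3⟩
      · have h1 := hjump ω ℓ hℓ e
        rw [if_neg (fun he => hno e he hs), hs.2] at h1
        have h3 : W ℓ (ls e) = 0 := by omega
        exact ⟨hs.1.trans (hnn e h3 hs.2).symm, h3⟩
    have hall : k0 ∈ D := by
      refine all_of_closed h0D ?_ ?_ ?_ ?_ k0
      · intro s hs
        obtain ⟨e, he⟩ := edge_right s
        exact key e s _ hs he
      · intro s hs
        obtain ⟨e, he⟩ := edge_right (s.1 - 1, s.2)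
        refine key e s _ hs ?_
        have h1 : ((s.1 - 1 + 1, s.2) : Pt) = s := by simp
        dsimp only at he
        rw [h1] at he
        rcases he with ⟨h, h'⟩ | ⟨h, h'⟩
        · exact Or.inr ⟨h', h⟩
        · exact Or.inl ⟨h', h⟩
      · intro s hs
        obtain ⟨e, he⟩ := edge_up s
        exact key e s _ hs he
      · intro s hs
        obtain ⟨e, he⟩ := edge_up (s.1, s.2 - 1)
        refine key e s _ hs ?_
        have h1 : ((s.1, s.2 - 1 + 1) : Pt) = s := by simp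
        dsimp only at he
        rw [h1] at he
        rcases he with ⟨h, h'⟩ | ⟨h, h'⟩
        · exact Or.inr ⟨h', h⟩
        · exact Or.inl ⟨h', h⟩
    have := hall.2
    rw [hK _ hk0] at this
    omega
  -- propagation along the loop
  have hprop : ∀ e, (rs e ∈ D ↔ rs (nx ω e) ∈ D) := by
    intro e
    rcases rs_nx ω e with h | h
    · rw [h]
    · constructor
      · intro h1
        obtain ⟨h2, h3⟩ := hdual _ _ (rs_odd e) h h1.2
        exact ⟨h1.1.trans h2, h3⟩
      · intro h1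
        obtain ⟨h2, h3⟩ := hdual _ _ (rs_odd _) h.symm h1.2
        exact ⟨h1.1.trans h2, h3⟩
  obtain ⟨e1, he1, hD1⟩ := hex
  obtain ⟨b, hbℓ⟩ := hℓ
  have hit : ∀ n : ℕ, (rs b ∈ D ↔ rs ((nx ω)^[n] b) ∈ D) := by
    intro n
    induction n with
    | zero => exact Iff.rfl
    | succ n ih => rw [Function.iterate_succ_apply', ← hprop, ih]
  intro e he
  obtain ⟨n, hn⟩ := (hbℓ e).1 he
  obtain ⟨n1, hn1⟩ := (hbℓ e1).1 he1
  rw [← hn1, ← hit n1, hit n, hn] at hD1
  exact hD1

/-- A loop between a primal circuit and a dual circuit. -/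
theorem ring_det (hbdP : S_bdP) (hjump : S_jump) (hstep : S_step) (hsign : S_sign) (hout : S_out)
    {ω : Cfg} {t t' : ℤ} (ht : 0 < t) (htt : 2 * t + 1 ≤ t') (h1 : Ann (-1) 0 t (SB ω))
    (h2 : Ann 0 (-1) t' (dl (SB ω))) :
    ∃ ℓ, IsLoop ω ℓ ∧ (∀ v ∈ vs ℓ, t ≤ nm v ∧ nm v ≤ 4 * t' + 2) ∧ W ℓ 0 ≠ 0 := by
  obtain ⟨o, ho, H⟩ := Ann.cluster ht h1
  set 𝒦 : Set Pt := {z | NC (SB ω) o z} with h𝒦
  -- the cluster is bounded
  have hbd : ∀ z ∈ 𝒦, -(4 * t') - 1 < z.1 ∧ z.1 < 4 * t' - 1 ∧ -(4 * t') + 1 < z.2 ∧ z.2 < 4 * t' + 1 := by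
    intro z hz
    by_contra hcon
    have ho' := ho.2.1
    rw [mem_rc] at ho'
    refine block (t := t') (by omega) h2 hz (by omega) (by omega) ?_
    omega
  -- a site of the cluster
  have h𝒦SB : ∀ z ∈ 𝒦, z ∈ SB ω := fun z hz => NC.right_mem hz
  obtain ⟨k0, hk0⟩ : ∃ k0, fi k0 ∈ 𝒦 := by
    have hw : o ∈ 𝒦 := NC.refl ho.1
    by_cases hev : Even (o.1 + o.2)
    · exact ⟨uf o, by rw [fi_uf hev]; exact hw⟩
    · have hodd : Odd (o.1 + o.2) := Int.not_even_iff_odd.1 hev
      rcases Int.even_or_odd o.1 with h | h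
      · have hz : (o.1, o.2 + 1) ∈ SB ω := Or.inl ⟨h, by
          simp only [Int.odd_iff, Int.even_iff] at *; omega⟩
        refine ⟨uf (o.1, o.2 + 1), ?_⟩
        rw [fi_uf (by simp only [Int.odd_iff, Int.even_iff] at *; omega)]
        exact NC.tail hw (by unfold NN; dsimp only; omega) hz
      · have hz : (o.1 + 1, o.2) ∈ SB ω := Or.inl ⟨by
          simp only [Int.odd_iff, Int.even_iff] at *; omega, by
          simp only [Int.odd_iff, Int.even_iff] at *; omega⟩
        refine ⟨uf (o.1 + 1, o.2), ?_⟩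
        rw [fi_uf (by simp only [Int.odd_iff, Int.even_iff] at *; omega)]
        exact NC.tail hw (by unfold NN; dsimp only; omega) hz
  -- bonds of the cluster
  have hb : ∀ v, px v ∈ 𝒦 → ω v = true ∧ ∀ s, Even (s.1 + s.2) → NN (px v) (fi s) → fi s ∈ 𝒦 := by
    intro v hv
    exact ⟨mem_SB_px.1 (h𝒦SB _ hv), fun s hs hn => NC.tail hv hn (mem_SB_fi.2 hs)⟩
  -- the finite set of sites
  have hfin : {s : Pt | fi s ∈ 𝒦}.Finite := by
    refine Set.Finite.subset (Set.finite_Icc ((-(8 * t') - 8, -(8 * t') - 8) : Pt)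
      (8 * t' + 8, 8 * t' + 8)) ?_
    intro s hs
    have := hbd _ hs
    simp only [fi] at this
    simp only [Set.mem_Icc, Prod.le_def]
    omega
  obtain ⟨ℓ, hℓ, hls, hW⟩ := hbdP ω hfin.toFinset ⟨k0, by simpa using hk0⟩ (by
      intro s hs
      rw [Set.Finite.mem_toFinset] at hs
      exact mem_SB_fi.1 (h𝒦SB _ hs)) (by
      intro s hs t hst
      rw [Set.Finite.mem_toFinset] at hs ⊢
      have hse : Even (s.1 + s.2) := mem_SB_fi.1 (h𝒦SB _ hs)
      obtain ⟨n1, n2⟩ := nn_of_step hst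
      have hte : Even (t.1 + t.2) := by
        obtain ⟨a, b, -⟩ := hst
        rw [Int.even_iff] at *; omega
      exact (NC.tail hs n1 (mem_SB_px.2 hst.2.2)).tail n2 (mem_SB_fi.2 hte)) (by
      intro s hs t ht'
      rw [Set.Finite.mem_toFinset] at hs ht'
      have hse : Even (s.1 + s.2) := mem_SB_fi.1 (h𝒦SB _ hs)
      have hst : NC (SB ω ∩ Tg Set.univ) (fi s) (fi t) := by
        refine NC.mono ?_ (NC.trans (NC.symm hs) ht')
        intro z hz
        exact ⟨hz, fun _ _ => trivial⟩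
      have := (pconn_of_nc hse hst).2
      exact Relation.ReflTransGen.mono (fun a b hab => hab.1) s t this)
  have hW' : ∀ s, fi s ∈ 𝒦 → W ℓ s = 1 := fun s hs => hW s (by simpa using hs)
  have hls' : ∀ e ∈ ℓ, fi (ls e) ∈ 𝒦 := fun e he => by simpa using hls e he
  -- the visited squares are bounded
  have hup : ∀ v ∈ vs ℓ, nm v ≤ 4 * t' + 2 := by
    intro v hv
    obtain ⟨e, he, rfl⟩ := Finset.mem_image.1 hv
    have h3 := hbd _ (hls' e he)
    have h4 := (nn_hd e).1
    rw [nn_fi_px] at h4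
    simp only [fi] at h3
    simp only [nm, max_le_iff, abs_le]
    omega
  -- a far site
  obtain ⟨f, hf⟩ : ∃ f : Pt, f = (8 * t' + 8, 0) := ⟨_, rfl⟩
  have hWf : W ℓ f = 0 := by
    by_contra hne
    have := hout ω ℓ hℓ (-(4 * t' + 2)) (4 * t' + 2) (-(4 * t' + 2)) (4 * t' + 2) (by
      intro v hv
      have := hup v hv
      simp only [nm, max_le_iff, abs_le] at this
      omega) f hne
    rw [hf] at this
    dsimp only at this
    omega
  have hright := right_side hjump hstep hsign hℓ hk0 hW' hb hWf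
  -- no path from the inside to the far site outside of the cluster
  have hsep : ∀ s : Pt, fi s ∈ rc (-1 - t) (-1 + t) (0 - t) (0 + t) → ¬ NC 𝒦ᶜ (fi f) (fi s) := by
    intro s hs hn
    obtain ⟨w, hw1, hw2⟩ := H 𝒦ᶜ (fi s) (fi f) hn.symm.conn hs (by
      rw [hf]; right; left; simp only [fi]; omega)
    exact hw1 (hw2.mono Set.inter_subset_left)
  refine ⟨ℓ, hℓ, fun v hv => ⟨?_, hup v hv⟩, ?_⟩
  · obtain ⟨e, he, rfl⟩ := Finset.mem_image.1 hv
    have h3 := hright e he
    have h4 := (nn_hd e).2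
    rw [nn_px_fi] at h4
    have h5 : ¬ fi (rs e) ∈ rc (-1 - t) (-1 + t) (0 - t) (0 + t) := fun h => hsep _ h h3.1
    rw [mem_rc] at h5
    simp only [fi] at h5
    simp only [nm]
    rw [le_max_iff, le_abs, le_abs]
    omega
  · intro hW0
    have hright0 := right_side hjump hstep hsign hℓ hk0 hW' hb hW0
    obtain ⟨b, hbℓ⟩ := hℓ
    have hbm : b ∈ ℓ := (hbℓ b).2 ⟨0, rfl⟩
    refine hsep 0 ?_ ((hright b hbm).1.trans (hright0 b hbm).1.symm)
    rw [mem_rc]
    simp only [fi, Prod.fst_zero, Prod.snd_zero]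
    omega

end Vale.Agent.P167.H871
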