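import Vale.Agent.P167.H871.HopfD
import Vale.Agent.P167.Top.Turn

/-!
Closing a piece of an interface by a path of diagonal steps. Coordinates: the square `(x, y)` has its
centre at `(4x, 4y)`, the medial edge `e` its midpoint at `P4 e = 2 * me e`, the site `(a, b)` is at
`(4a - 2, 4b - 2)`; the interface passes the corner between two successive medial edges.
-/

namespace Vale.Agent.P167.H871

open Finset
open Vale.Agent.P167.Top

/-- A nonempty chain of diagonal steps from the point `P` (first direction `d`) to the point `Q`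
(last direction `d'`). -/
structure Seg (P : ℤ × ℤ) (d : ℤ) (L : List ((ℤ × ℤ) × ℤ)) (Q : ℤ × ℤ) (d' : ℤ) : Prop where
  chain : L.IsChain Rl
  head : L.head? = some (P, d)
  last : ∃ X, L.getLast? = some (X, d') ∧ Q = X + dv d'

theorem Seg.append {P Q R : ℤ × ℤ} {d d' e e' : ℤ} {L L' : List ((ℤ × ℤ) × ℤ)}
    (h : Seg P d L Q d') (h' : Seg Q e L' R e') (he : |e - d'| ≤ 1) :
    Seg P d (L ++ L') R e' := by
  obtain ⟨X, hX, hQ⟩ := h.last
  obtain ⟨Y, hY, hR⟩ := h'.last
  refine ⟨h.chain.append h'.chain ?_, ?_, Y, ?_, hR⟩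
  · intro x hx y hy
    rw [hX] at hx
    rw [h'.head] at hy
    simp only [Option.mem_def, Option.some.injEq] at hx hy
    subst hx hy
    exact ⟨hQ, he⟩
  · rw [List.head?_append, h.head]; rfl
  · rw [List.getLast?_append, hY]; rfl

theorem Seg.two (P : ℤ × ℤ) (d e : ℤ) (h : |e - d| ≤ 1) :
    Seg P d [(P, d), (P + dv d, e)] (P + dv d + dv e) e :=
  ⟨by rw [List.isChain_pair]; exact ⟨rfl, h⟩, rfl, _, rfl, rfl⟩

theorem Seg.one (P : ℤ × ℤ) (d : ℤ) : Seg P d [(P, d)] (P + dv d) d :=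
  ⟨by simp, rfl, _, rfl, rfl⟩

theorem Seg.ne_nil {P : ℤ × ℤ} {d : ℤ} {L : List ((ℤ × ℤ) × ℤ)} {Q : ℤ × ℤ} {d' : ℤ}
    (h : Seg P d L Q d') : L ≠ [] := by
  rintro rfl
  have := h.head
  simp at this

/-- **Umlaufsatz** for a closed segment. -/
theorem Seg.hopf {P : ℤ × ℤ} {d d' s : ℤ} {L : List ((ℤ × ℤ) × ℤ)} (h : Seg P d L P d')
    (hs : |d + 4 * s - d'| ≤ 1) (hlen : 3 ≤ L.length) (hnd : (L.map Prod.fst).Nodup) :
    s = 1 ∨ s = -1 := by
  obtain ⟨X, hX, hP⟩ := h.last
  have h0 : L[0]'(by omega) = (P, d) := by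
    have := h.head
    rw [List.head?_eq_getElem?, List.getElem?_eq_getElem (by omega)] at this
    exact Option.some.inj this
  have h1 : L[L.length - 1]'(by omega) = (X, d') := by
    rw [List.getLast?_eq_getElem?, List.getElem?_eq_getElem (by omega)] at hX
    exact Option.some.inj hX
  refine hopf_list L s hlen (List.isChain_iff_getElem.1 h.chain) ?_ hnd
  rw [h0, h1]
  exact ⟨hP, hs⟩

/-! ### pieces of the interface -/

/-- Midpoint of a medial edge in the fine coordinates. -/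
def P4 (e : Ed) : ℤ × ℤ := (2 * (me e).1, 2 * (me e).2)

theorem P4_inj {e e' : Ed} (h : P4 e = P4 e') : e = e' := by
  apply me_injective
  simp only [P4, Prod.mk.injEq] at h
  ext <;> omega

theorem P4_par (e : Ed) : (P4 e).1 % 2 = 0 ∧ (P4 e).2 % 2 = 0 ∧ ((P4 e).1 + (P4 e).2) % 4 = 2 := by
  rcases e with ⟨x, y⟩ | ⟨x, y⟩ <;> simp only [P4, me] <;> omega

variable (ω : Cfg) (e : Ed) (c : ℤ)

/-- Direction of the `i`-th diagonal step. -/
def Dg (i : ℕ) : ℤ := min (c + dl ω e i) (c + dl ω e (i + 1))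

theorem dl_succ (i : ℕ) : dl ω e (i + 1) = dl ω e i + trn ω ((nx ω)^[i] e) := by
  unfold dl; rw [Finset.sum_range_succ]; ring

theorem trn_cases (ω : Cfg) (e : Ed) : trn ω e = 1 ∨ trn ω e = -1 := by
  unfold trn; split_ifs <;> simp

theorem Dg_turn (i : ℕ) : |Dg ω e c (i + 1) - Dg ω e c i| ≤ 1 := by
  unfold Dg
  have h1 := dl_succ ω e i
  have h2 := dl_succ ω e (i + 1)
  have t1 := trn_cases ω ((nx ω)^[i] e)
  have t2 := trn_cases ω ((nx ω)^[i + 1] e)
  rw [abs_le]
  omega

theorem P4_step (hc : c % 4 = 0) (i : ℕ) :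
    P4 ((nx ω)^[i + 1] e) = P4 ((nx ω)^[i] e) + dv (Dg ω e c i) + dv (Dg ω e c i) := by
  have h := mid_step (isPath ω e) i
  rw [mid_eq, mid_eq] at h
  have hdv : dv (Dg ω e c i) = (dx (dl ω e i) + dx (dl ω e (i + 1)),
      dy (dl ω e i) + dy (dl ω e (i + 1))) := by
    have h1 := dl_succ ω e i
    unfold Dg
    rcases trn_cases ω ((nx ω)^[i] e) with t | t
    · rw [min_eq_left (by omega)]
      unfold dv
      rw [dx_congr (show (c + dl ω e i) % 4 = dl ω e i % 4 by omega),
        dy_congr (show (c + dl ω e i) % 4 = dl ω e i % 4 by omega),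
        dx_congr (show (c + dl ω e i + 1) % 4 = dl ω e (i + 1) % 4 by omega),
        dy_congr (show (c + dl ω e i + 1) % 4 = dl ω e (i + 1) % 4 by omega)]
    · rw [min_eq_right (by omega)]
      unfold dv
      rw [dx_congr (show (c + dl ω e (i + 1)) % 4 = dl ω e (i + 1) % 4 by omega),
        dy_congr (show (c + dl ω e (i + 1)) % 4 = dl ω e (i + 1) % 4 by omega),
        dx_congr (show (c + dl ω e (i + 1) + 1) % 4 = dl ω e i % 4 by omega),
        dy_congr (show (c + dl ω e (i + 1) + 1) % 4 = dl ω e i % 4 by omega)]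
      ext <;> simp only <;> ring
  rw [← hdv] at h
  have h1 := congrArg Prod.fst h
  have h2 := congrArg Prod.snd h
  simp only [Prod.fst_sub, Prod.snd_sub] at h1 h2
  unfold P4
  ext
  · simp only [Prod.fst_add]; linarith
  · simp only [Prod.snd_add]; linarith

/-- The corner passed between the edges `i` and `i + 1`. -/
def cor (i : ℕ) : ℤ × ℤ := P4 ((nx ω)^[i] e) + dv (Dg ω e c i)

/-- The list of the points and directions of a piece of the interface. -/
def gam : ℕ → List ((ℤ × ℤ) × ℤ)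
  | 0 => []
  | n + 1 => gam n ++ [(P4 ((nx ω)^[n] e), Dg ω e c n), (cor ω e c n, Dg ω e c n)]

theorem gam_seg (hc : c % 4 = 0) (n : ℕ) :
    Seg (P4 e) (Dg ω e c 0) (gam ω e c (n + 1)) (P4 ((nx ω)^[n + 1] e)) (Dg ω e c n) := by
  induction n with
  | zero =>
    have := Seg.two (P4 e) (Dg ω e c 0) (Dg ω e c 0) (by simp)
    have h := P4_step ω e c hc 0
    simp only [zero_add, Function.iterate_zero, id] at h ⊢
    rw [h]
    exact this
  | succ n ih =>
    rw [P4_step ω e c hc (n + 1)]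
    exact ih.append (Seg.two _ _ _ (by simp)) (Dg_turn ω e c n)

theorem gam_length (n : ℕ) : (gam ω e c n).length = 2 * n := by
  induction n with
  | zero => rfl
  | succ n ih => rw [gam, List.length_append, ih]; simp; ring

theorem mem_gam {n : ℕ} {X : ℤ × ℤ} : X ∈ (gam ω e c n).map Prod.fst ↔
    ∃ i < n, X = P4 ((nx ω)^[i] e) ∨ X = cor ω e c i := by
  induction n with
  | zero => simp [gam]
  | succ n ih =>
    rw [gam, List.map_append, List.mem_append, ih]
    simp only [List.map_cons, List.map_nil, List.mem_cons, List.not_mem_nil, or_false]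
    constructor
    · rintro (⟨i, hi, h⟩ | h)
      · exact ⟨i, by omega, h⟩
      · exact ⟨n, by omega, h⟩
    · rintro ⟨i, hi, h⟩
      rcases Nat.lt_or_ge i n with h' | h'
      · exact Or.inl ⟨i, h', h⟩
      · obtain rfl : i = n := by omega
        exact Or.inr h

theorem dv_odd (d : ℤ) : (dv d).1 % 2 = 1 ∧ (dv d).2 % 2 = 1 ∧ ((dv d).1 = 1 ∨ (dv d).1 = -1) ∧
    ((dv d).2 = 1 ∨ (dv d).2 = -1) := by
  rcases dv_cases d with ⟨_, h⟩ | ⟨_, h⟩ | ⟨_, h⟩ | ⟨_, h⟩ <;> rw [h] <;> norm_num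

theorem cor_odd (i : ℕ) : (cor ω e c i).1 % 2 = 1 ∧ (cor ω e c i).2 % 2 = 1 := by
  have h1 := P4_par ((nx ω)^[i] e)
  have h2 := dv_odd (Dg ω e c i)
  unfold cor
  simp only [Prod.fst_add, Prod.snd_add]
  omega

theorem cor_inj (hc : c % 4 = 0) {n : ℕ}
    (hinj : ∀ i j, i ≤ n → j ≤ n → (nx ω)^[i] e = (nx ω)^[j] e → i = j) {i j : ℕ} (hi : i < n)
    (hj : j < n) (h : cor ω e c i = cor ω e c j) : i = j := by
  unfold cor at h
  have h1 := congrArg Prod.fst h
  have h2 := congrArg Prod.snd h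
  simp only [Prod.fst_add, Prod.snd_add] at h1 h2
  have a := dv_odd (Dg ω e c i)
  have b := dv_odd (Dg ω e c j)
  have p := P4_par ((nx ω)^[i] e)
  have q := P4_par ((nx ω)^[j] e)
  have si := P4_step ω e c hc i
  have sj := P4_step ω e c hc j
  have s1 := congrArg Prod.fst si
  have s2 := congrArg Prod.snd si
  have s3 := congrArg Prod.fst sj
  have s4 := congrArg Prod.snd sj
  simp only [Prod.fst_add, Prod.snd_add] at s1 s2 s3 s4
  have hcase : (P4 ((nx ω)^[i] e) = P4 ((nx ω)^[j] e)) ∨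
      (P4 ((nx ω)^[i + 1] e) = P4 ((nx ω)^[j] e) ∧ P4 ((nx ω)^[j + 1] e) = P4 ((nx ω)^[i] e)) := by
    by_cases hx : (dv (Dg ω e c i)).1 = (dv (Dg ω e c j)).1
    · left
      have hy : (dv (Dg ω e c i)).2 = (dv (Dg ω e c j)).2 := by omega
      ext <;> omega
    · right
      have hy : (dv (Dg ω e c i)).2 = -(dv (Dg ω e c j)).2 := by omega
      have hx' : (dv (Dg ω e c i)).1 = -(dv (Dg ω e c j)).1 := by omega
      refine ⟨?_, ?_⟩ <;> ext <;> omega
  rcases hcase with h' | ⟨h', h''⟩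
  · exact hinj i j hi.le hj.le (P4_inj h')
  · have e1 := hinj (i + 1) j hi hj.le (P4_inj h')
    have e2 := hinj (j + 1) i hj hi.le (P4_inj h'')
    omega

theorem gam_nodup (hc : c % 4 = 0) {n : ℕ}
    (hinj : ∀ i j, i ≤ n → j ≤ n → (nx ω)^[i] e = (nx ω)^[j] e → i = j) :
    ∀ m, m ≤ n → ((gam ω e c m).map Prod.fst).Nodup := by
  intro m
  induction m with
  | zero => intro _; simp [gam]
  | succ m ih =>
    intro hm
    rw [gam, List.map_append, List.nodup_append]
    refine ⟨ih (by omega), ?_, ?_⟩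
    · simp only [List.map_cons, List.map_nil, List.nodup_cons, List.mem_cons, List.not_mem_nil,
        or_false, not_false_eq_true, List.nodup_nil, and_true]
      intro h
      have h1 := P4_par ((nx ω)^[m] e)
      have h2 := cor_odd ω e c m
      rw [← h] at h2
      omega
    · intro X hX Y hY hXY
      subst hXY
      rw [mem_gam] at hX
      simp only [List.map_cons, List.map_nil, List.mem_cons, List.not_mem_nil, or_false] at hY
      obtain ⟨i, hi, hX⟩ := hX
      rcases hX with rfl | rfl <;> rcases hY with h | h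
      · have := hinj i m (by omega) (by omega) (P4_inj h)
        omega
      · have h1 := P4_par ((nx ω)^[i] e)
        have h2 := cor_odd ω e c m
        rw [← h] at h2
        omega
      · have h1 := P4_par ((nx ω)^[m] e)
        have h2 := cor_odd ω e c i
        rw [h] at h2
        omega
      · have := cor_inj ω e c hc hinj (i := i) (j := m) (by omega) (by omega) h
        omega

/-- **Closing a piece of the interface.** The piece `e, nx e, ..., nx^[n] e` (distinct edges) is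
closed by the path `C` of diagonal steps. -/
theorem close (hc : c % 4 = 0) {n : ℕ} (hn : 1 ≤ n)
    (hinj : ∀ i j, i ≤ n → j ≤ n → (nx ω)^[i] e = (nx ω)^[j] e → i = j)
    {C : List ((ℤ × ℤ) × ℤ)} {f f' s : ℤ} (hC : Seg (P4 ((nx ω)^[n] e)) f C (P4 e) f')
    (hf : |f - Dg ω e c (n - 1)| ≤ 1) (hs : |Dg ω e c 0 + 4 * s - f'| ≤ 1)
    (hnd : (C.map Prod.fst).Nodup)
    (hd1 : ∀ X ∈ C.map Prod.fst, ∀ i < n, X ≠ P4 ((nx ω)^[i] e))
    (hd2 : ∀ X ∈ C.map Prod.fst, ∀ i < n, X ≠ cor ω e c i) : s = 1 ∨ s = -1 := by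
  obtain ⟨m, rfl⟩ : ∃ m, n = m + 1 := ⟨n - 1, by omega⟩
  have h := (gam_seg ω e c hc m).append hC (by simpa using hf)
  refine h.hopf hs ?_ ?_
  · rw [List.length_append, gam_length]
    have : C.length ≠ 0 := fun h => hC.ne_nil (List.length_eq_zero_iff.1 h)
    omega
  · rw [List.map_append, List.nodup_append]
    refine ⟨gam_nodup ω e c hc hinj _ le_rfl, hnd, ?_⟩
    intro X hX Y hY hXY
    subst hXY
    rw [mem_gam] at hX
    obtain ⟨i, hi, hX⟩ := hX
    rcases hX with h | h
    · exact hd1 X hY i hi h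
    · exact hd2 X hY i hi h

end Vale.Agent.P167.H871
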