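import Mathlib

/-!
Sums over functions which are constant along the segments of a permutation cut at a finite set.
-/

set_option linter.unusedSectionVars false

namespace Vale.Agent.P167.H871

open Finset

/-- First return time to `S` (`0` if there is none). -/
noncomputable def rt {E : Type*} (f : E → E) (S : Set E) (e : E) : ℕ :=
  sInf {n | 1 ≤ n ∧ f^[n] e ∈ S}

section rt

variable {E : Type*} {f : E → E} {S : Set E} {e : E}

theorem rt_spec (h : ∃ n, 1 ≤ n ∧ f^[n] e ∈ S) : 1 ≤ rt f S e ∧ f^[rt f S e] e ∈ S :=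
  Nat.sInf_mem (s := {n | 1 ≤ n ∧ f^[n] e ∈ S}) h

theorem rt_lt {n : ℕ} (h1 : 1 ≤ n) (h2 : n < rt f S e) : f^[n] e ∉ S := fun h =>
  Nat.notMem_of_lt_sInf (s := {n | 1 ≤ n ∧ f^[n] e ∈ S}) h2 ⟨h1, h⟩

theorem rt_le {n : ℕ} (h1 : 1 ≤ n) (h2 : f^[n] e ∈ S) : rt f S e ≤ n :=
  Nat.sInf_le (s := {n | 1 ≤ n ∧ f^[n] e ∈ S}) ⟨h1, h2⟩

theorem rt_eq {n : ℕ} (h1 : 1 ≤ n) (h2 : f^[n] e ∈ S) (h3 : ∀ m, 1 ≤ m → m < n → f^[m] e ∉ S) :
    rt f S e = n := by
  refine le_antisymm (rt_le h1 h2) ?_
  by_contra h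
  push Not at h
  have := rt_spec ⟨n, h1, h2⟩
  exact h3 _ this.1 h this.2

end rt

section idx

variable {E : Type*} [Fintype E] [DecidableEq E]

/-- Sum over the functions of an index. -/
theorem sum_idx {ι : Type*} [Fintype ι] [DecidableEq ι] (idx : E → ι)
    (hs : Function.Surjective idx) (y : E → Bool → ℂ) (p : (E → Bool) → Prop) [DecidablePred p]
    (hp : ∀ s, p s ↔ ∀ x x', idx x = idx x' → s x = s x') :
    ∑ s : E → Bool, (if p s then ∏ e, y e (s e) else 0) =
      ∏ i : ι, ∑ b : Bool, ∏ e with idx e = i, y e b := by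
  classical
  rw [Finset.prod_univ_sum, Fintype.piFinset_univ, ← Finset.sum_filter]
  symm
  refine Finset.sum_bij' (fun (t : ι → Bool) _ => t ∘ idx)
    (fun s _ => fun i => s (hs i).choose) ?_ ?_ ?_ ?_ ?_
  · intro t _
    rw [mem_filter]
    refine ⟨mem_univ _, (hp _).2 fun x x' h => ?_⟩
    simp [h]
  · intro s _; exact mem_univ _
  · intro t _
    funext i
    simp only [Function.comp]
    rw [(hs i).choose_spec]
  · intro s hs'
    rw [mem_filter] at hs'
    funext e
    exact (hp s).1 hs'.2 _ _ (hs (idx e)).choose_spec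
  · intro t _
    rw [← Finset.prod_fiberwise (s := (Finset.univ : Finset E)) (g := idx)]
    refine Finset.prod_congr rfl fun i _ => Finset.prod_congr rfl fun e he => ?_
    rw [mem_filter] at he
    simp only [Function.comp, he.2]

variable (σ : Equiv.Perm E) (S : Finset E)

/-- One step along the permutation which does not enter `S`. -/
def cst (x y : E) : Prop := y = σ x ∧ y ∉ S

open Classical in
/-- The segment of an element. -/
noncomputable def cl (e : E) : Finset E := univ.filter fun x => Relation.EqvGen (cst σ S) e x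

variable {σ S}

theorem mem_cl {e x : E} : x ∈ cl σ S e ↔ Relation.EqvGen (cst σ S) e x := by
  classical
  simp [cl]

theorem self_mem_cl (e : E) : e ∈ cl σ S e := mem_cl.2 (Relation.EqvGen.refl _)

theorem cl_eq_iff {e x : E} : cl σ S e = cl σ S x ↔ Relation.EqvGen (cst σ S) e x := by
  constructor
  · intro h
    rw [← mem_cl, h]
    exact self_mem_cl x
  · intro h
    ext z
    rw [mem_cl, mem_cl]
    exact ⟨fun h' => (h.symm _ _).trans _ _ _ h', fun h' => h.trans _ _ _ h'⟩

theorem cl_le {e : E} {Q : Set E} (he : e ∈ Q) (h1 : ∀ x ∈ Q, σ x ∉ S → σ x ∈ Q)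
    (h2 : ∀ x, σ x ∈ Q → σ x ∉ S → x ∈ Q) : ∀ x ∈ cl σ S e, x ∈ Q := by
  have key : ∀ a b, Relation.EqvGen (cst σ S) a b → (a ∈ Q ↔ b ∈ Q) := by
    intro a b h
    induction h with
    | rel a b h =>
      obtain ⟨rfl, h⟩ := h
      exact ⟨fun ha => h1 a ha h, fun hb => h2 a hb h⟩
    | refl a => exact Iff.rfl
    | symm a b _ ih => exact ih.symm
    | trans a b c _ _ ih1 ih2 => exact ih1.trans ih2
  intro x hx
  exact (key e x (mem_cl.1 hx)).1 he

theorem chain {e : E} {n : ℕ} (h : ∀ m, 1 ≤ m → m ≤ n → σ^[m] e ∉ S) :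
    Relation.EqvGen (cst σ S) e (σ^[n] e) := by
  induction n with
  | zero => exact Relation.EqvGen.refl _
  | succ n ih =>
    refine (ih fun m h1 h2 => h m h1 (by omega)).trans _ _ _ ?_
    refine Relation.EqvGen.rel _ _ ⟨Function.iterate_succ_apply' _ _ _, h _ (by omega) le_rfl⟩

theorem exists_return (e : E) : ∃ n, 1 ≤ n ∧ σ^[n] e = e := by
  refine ⟨orderOf σ, orderOf_pos σ, ?_⟩
  rw [Equiv.Perm.iterate_eq_pow, pow_orderOf_eq_one]
  rfl

theorem exists_rt {e : E} (he : e ∈ S) : ∃ n, 1 ≤ n ∧ σ^[n] e ∈ (S : Set E) := by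
  obtain ⟨n, h1, h2⟩ := exists_return (σ := σ) e
  exact ⟨n, h1, by rw [h2]; exact he⟩

theorem iter_inj {n : ℕ} {x y : E} (h : σ^[n] x = σ^[n] y) : x = y :=
  (Function.Injective.iterate σ.injective n) h

theorem cl_of_mem {e : E} (he : e ∈ S) :
    cl σ S e = (range (rt σ (S : Set E) e)).image fun j => σ^[j] e := by
  have hrt := rt_spec (exists_rt (σ := σ) he)
  ext x
  constructor
  · intro hx
    have := cl_le (σ := σ) (S := S) (e := e)
      (Q := {x | ∃ j < rt σ (S : Set E) e, σ^[j] e = x}) ⟨0, hrt.1, rfl⟩ ?_ ?_ x hx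
    · obtain ⟨j, hj, rfl⟩ := this
      exact mem_image.2 ⟨j, mem_range.2 hj, rfl⟩
    · rintro _ ⟨j, hj, rfl⟩ hn
      refine ⟨j + 1, ?_, Function.iterate_succ_apply' _ _ _⟩
      rcases lt_or_eq_of_le (Nat.succ_le_of_lt hj) with h | h
      · exact h
      · exfalso
        apply hn
        rw [← Function.iterate_succ_apply' σ, show j.succ = rt σ (S : Set E) e from h]
        exact hrt.2
    · rintro x ⟨j, hj, hx'⟩ hn
      rcases Nat.eq_zero_or_pos j with rfl | h0
      · exfalso; apply hn; rw [← hx']; exact he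
      · refine ⟨j - 1, by omega, ?_⟩
        apply σ.injective
        rw [← hx', ← Function.iterate_succ_apply' σ, show (j - 1).succ = j by omega]
  · intro hx
    obtain ⟨j, hj, rfl⟩ := mem_image.1 hx
    rw [mem_range] at hj
    rw [mem_cl]
    exact chain fun m h1 h2 => rt_lt h1 (by omega)

theorem cl_inj_iter {e : E} (he : e ∈ S) {i j : ℕ} (hi : i < rt σ (S : Set E) e)
    (hj : j < rt σ (S : Set E) e) (h : σ^[i] e = σ^[j] e) : i = j := by
  have key : ∀ i j : ℕ, i < j → j < rt σ (S : Set E) e → σ^[i] e = σ^[j] e → False := by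
    intro i j hij hj h
    have h1 : σ^[j] e = σ^[i] (σ^[j - i] e) := by
      rw [← Function.iterate_add_apply, show i + (j - i) = j by omega]
    rw [h1] at h
    have h2 := iter_inj h
    exact rt_lt (f := σ) (S := (S : Set E)) (e := e) (n := j - i) (by omega) (by omega)
      (by rw [← h2]; exact he)
  rcases lt_trichotomy i j with h' | h' | h'
  · exact (key i j h' hj h).elim
  · exact h'
  · exact (key j i h' hi h.symm).elim

theorem cl_inter {e x : E} (he : e ∈ S) (hx : x ∈ cl σ S e) (hxS : x ∈ S) : x = e := by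
  rw [cl_of_mem he] at hx
  obtain ⟨j, hj, rfl⟩ := mem_image.1 hx
  rw [mem_range] at hj
  rcases Nat.eq_zero_or_pos j with rfl | h0
  · rfl
  · exact absurd (by exact hxS) (rt_lt (f := σ) (S := (S : Set E)) (e := e) h0 hj)

theorem cl_injOn : Set.InjOn (cl σ S) (S : Set E) := by
  intro e he e' he' h
  have : e' ∈ cl σ S e := by rw [h]; exact self_mem_cl _
  exact (cl_inter he this he').symm

theorem sum_cl {M : Type*} [AddCommMonoid M] {e : E} (he : e ∈ S) (c : E → M) :
    ∑ x ∈ cl σ S e, c x = ∑ j ∈ range (rt σ (S : Set E) e), c (σ^[j] e) := by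
  rw [cl_of_mem he, sum_image]
  intro i hi j hj h
  exact cl_inj_iter he (mem_range.1 hi) (mem_range.1 hj) h

theorem sameCycle_iter {e x : E} (h : σ.SameCycle e x) : ∃ n, σ^[n] e = x := by
  obtain ⟨n, _, hn⟩ := h.exists_pow_eq'
  exact ⟨n, by rw [Equiv.Perm.iterate_eq_pow]; exact hn⟩

theorem sameCycle_of_iter {e : E} (n : ℕ) : σ.SameCycle e (σ^[n] e) :=
  ⟨n, by rw [Equiv.Perm.iterate_eq_pow]; rfl⟩

/-- The segment of an orbit which misses `S` is the whole orbit. -/
theorem cl_of_miss {e : E} (h : ∀ x, σ.SameCycle e x → x ∉ S) (x : E) :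
    x ∈ cl σ S e ↔ σ.SameCycle e x := by
  constructor
  · intro hx
    refine cl_le (σ := σ) (S := S) (e := e) (Q := {x | σ.SameCycle e x})
      (Equiv.Perm.SameCycle.refl _ _) ?_ ?_ x hx
    · intro y hy _; exact Equiv.Perm.sameCycle_apply_right.2 hy
    · intro y hy _; exact Equiv.Perm.sameCycle_apply_right.1 hy
  · intro hx
    obtain ⟨n, rfl⟩ := sameCycle_iter hx
    rw [mem_cl]
    exact chain fun m _ _ => h _ (sameCycle_of_iter m)

/-- If the orbit of `e` meets `S`, then `e` is in the segment of an element of `S`. -/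
theorem exists_start {e : E} (h : ∃ x, σ.SameCycle e x ∧ x ∈ S) :
    ∃ x ∈ S, cl σ S e = cl σ S x := by
  classical
  have hex : ∃ m, ∃ x ∈ S, σ^[m] x = e := by
    obtain ⟨x, hx, hxS⟩ := h
    obtain ⟨m, hm⟩ := sameCycle_iter hx.symm
    exact ⟨m, x, hxS, hm⟩
  obtain ⟨x, hxS, hx⟩ := Nat.find_spec hex
  refine ⟨x, hxS, ?_⟩
  rw [eq_comm, cl_eq_iff, ← hx]
  refine chain fun m h1 h2 hm => ?_
  refine Nat.find_min hex (m := Nat.find hex - m) (by omega) ⟨σ^[m] x, hm, ?_⟩
  rw [← Function.iterate_add_apply, Nat.sub_add_cancel h2, hx]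

/-- Functions constant along the segments. -/
theorem inv_iff (s : E → Bool) :
    (∀ e, σ e ∉ S → s (σ e) = s e) ↔ ∀ x x', cl σ S x = cl σ S x' → s x = s x' := by
  constructor
  · intro h x x' hx
    rw [cl_eq_iff] at hx
    induction hx with
    | rel a b hab =>
      obtain ⟨rfl, hb⟩ := hab
      exact (h a hb).symm
    | refl a => rfl
    | symm a b _ ih => exact ih.symm
    | trans a b c _ _ ih1 ih2 => exact ih1.trans ih2
  · intro h e he
    refine (h _ _ ?_).symm
    rw [cl_eq_iff]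
    exact Relation.EqvGen.rel _ _ ⟨rfl, he⟩

variable (σ S)

open Classical in
/-- The orbits which miss `S`, as a finset of finsets. -/
noncomputable def miss : Finset (Finset E) :=
  (univ.filter fun e => ∀ x, σ.SameCycle e x → x ∉ S).image (cl σ S)

variable {σ S}

theorem mem_miss {O : Finset E} : O ∈ miss σ S ↔
    ∃ e, (∀ x, σ.SameCycle e x → x ∉ S) ∧ cl σ S e = O := by
  classical
  simp [miss]

/-- **Sum over the functions which are constant along the segments.** -/
theorem sum_cut (y : E → Bool → ℂ) :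
    (∑ s : E → Bool, (if ∀ e, σ e ∉ S → s (σ e) = s e then ∏ e, y e (s e) else 0)) =
      (∏ e ∈ S, ∑ b : Bool, ∏ j ∈ range (rt σ (S : Set E) e), y (σ^[j] e) b) *
        ∏ O ∈ miss σ S, ∑ b : Bool, ∏ e ∈ O, y e b := by
  classical
  set P : Finset (Finset E) := univ.image (cl σ S) with hP
  let idx : E → P := fun e => ⟨cl σ S e, mem_image_of_mem _ (mem_univ _)⟩
  have hidx : Function.Surjective idx := by
    rintro ⟨O, hO⟩
    obtain ⟨e, _, rfl⟩ := mem_image.1 hO
    exact ⟨e, rfl⟩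
  rw [sum_idx idx hidx y (fun s => ∀ e, σ e ∉ S → s (σ e) = s e) (fun s => by
    rw [inv_iff]
    simp only [idx, Subtype.mk.injEq])]
  have h1 : ∀ i : P, (univ.filter fun e => idx e = i) = i.1 := by
    rintro ⟨O, hO⟩
    obtain ⟨e, _, rfl⟩ := mem_image.1 hO
    ext x
    simp only [mem_filter, mem_univ, true_and, idx, Subtype.mk.injEq]
    rw [eq_comm, cl_eq_iff, mem_cl]
  simp only [h1]
  rw [Finset.prod_coe_sort P (fun O => ∑ b : Bool, ∏ e ∈ O, y e b)]
  have h2 : P = S.image (cl σ S) ∪ miss σ S := by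
    ext O
    rw [mem_union, mem_image, mem_image, mem_miss]
    constructor
    · rintro ⟨e, _, rfl⟩
      by_cases h : ∃ x, σ.SameCycle e x ∧ x ∈ S
      · obtain ⟨x, hx, hx'⟩ := exists_start h
        exact Or.inl ⟨x, hx, hx'.symm⟩
      · push Not at h
        exact Or.inr ⟨e, h, rfl⟩
    · rintro (⟨e, _, rfl⟩ | ⟨e, _, rfl⟩)
      · exact ⟨e, mem_univ _, rfl⟩
      · exact ⟨e, mem_univ _, rfl⟩
  have h3 : Disjoint (S.image (cl σ S)) (miss σ S) := by
    rw [Finset.disjoint_left]
    intro O hO hO'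
    obtain ⟨e, he, rfl⟩ := mem_image.1 hO
    obtain ⟨x, hx, hxe⟩ := mem_miss.1 hO'
    have : e ∈ cl σ S x := by rw [hxe]; exact self_mem_cl e
    rw [cl_of_miss hx] at this
    exact hx e this he
  rw [h2, prod_union h3, prod_image cl_injOn]
  congr 1
  refine prod_congr rfl fun e he => sum_congr rfl fun b _ => ?_
  rw [cl_of_mem he, prod_image]
  intro i hi j hj h
  exact cl_inj_iter he (mem_range.1 hi) (mem_range.1 hj) h

end idx

end Vale.Agent.P167.H871
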