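import Vale.Agent.P167.A.Bkw
import Vale.Agent.P167.H871.CutPerm

/-!
Baxter-Kelland-Wu on a finite grid with cut edges: each edge carries an arrow at its left/lower end
(`w e false`) and one at its right/upper end (`w e true`); they agree off the finite set `S`.
-/

set_option linter.unusedSectionVars false

namespace Vale.Agent.P167.H871

open Finset
open Vale.Agent.P152 (Edge Ori vw)
open Vale.Agent.P167.A

variable {V : Type} (g : Grid V)

/-- Position of the head half of an edge: `true` = right/upper end. -/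
def hb (e : Edge V) : Bool := decide (g.sg e = 1)

/-- The arrow of the head half relative to the canonical direction. -/
def sH (w : Edge V → Bool → Bool) (e : Edge V) : Bool := if g.sg e = 1 then w e true else !(w e false)

/-- The arrow of the tail half relative to the canonical direction. -/
def sT (w : Edge V → Bool → Bool) (e : Edge V) : Bool := if g.sg e = 1 then w e false else !(w e true)

/-- Half arrows and pairs of relative arrows. -/
def hEquiv : (Edge V → Bool → Bool) ≃ (Edge V → Bool) × (Edge V → Bool) where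
  toFun w := (sH g w, sT g w)
  invFun s := fun e b => if g.sg e = 1 then (if b then s.1 e else s.2 e)
    else (if b then !(s.2 e) else !(s.1 e))
  left_inv w := by
    funext e b
    by_cases h : g.sg e = 1 <;> cases b <;> simp [sH, sT, h]
  right_inv s := by
    ext e <;> by_cases h : g.sg e = 1 <;> simp [sH, sT, h]

/-- Weight of the vertices. -/
noncomputable def hwt [Fintype V] (c : ℝ) (w : Edge V → Bool → Bool) : ℝ :=
  ∏ v, vw c (w (Sum.inl (g.e1.symm v)) true) (w (Sum.inl v) false)
    (w (Sum.inr (g.e2.symm v)) true) (w (Sum.inr v) false)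

/-- Phase carried by the head half, relative to the canonical direction. -/
noncomputable def aH (a : Edge V → Bool → ℝ) (e : Edge V) : ℝ := a e (hb g e) * g.sg e

/-- Phase carried by the tail half, relative to the canonical direction. -/
noncomputable def aT (a : Edge V → Bool → ℝ) (e : Edge V) : ℝ := a e (!(hb g e)) * g.sg e

theorem hvertex (θ : ℝ) (w : Edge V → Bool → Bool) (v : V) :
    ((vw (2 * Real.cos (θ / 2)) (w (Sum.inl (g.e1.symm v)) true) (w (Sum.inl v) false)
      (w (Sum.inr (g.e2.symm v)) true) (w (Sum.inr v) false) : ℝ) : ℂ) =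
      KK θ (sH g w (in1 g v)) (sH g w (in2 g v)) (sT g w (ou1 g v)) (sT g w (ou2 g v)) := by
  cases h : g.par v
  · have e1 : in1 g v = Sum.inl (g.e1.symm v) := by simp [in1, h]
    have e2 : in2 g v = Sum.inl v := by simp [in2, h]
    have e3 : ou1 g v = Sum.inr v := by simp [ou1, h]
    have e4 : ou2 g v = Sum.inr (g.e2.symm v) := by simp [ou2, h]
    have s1 : g.sg (Sum.inl (g.e1.symm v)) = 1 := by simp [Grid.sg, g.p1', h]
    have s2 : g.sg (Sum.inl v) = -1 := by simp [Grid.sg, h]
    have s3 : g.sg (Sum.inr v) = 1 := by simp [Grid.sg, h]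
    have s4 : g.sg (Sum.inr (g.e2.symm v)) = -1 := by simp [Grid.sg, g.p2', h]
    rw [← KK_odd, e1, e2, e3, e4]
    simp [sH, sT, s1, s2, s3, s4]
  · have e1 : in1 g v = Sum.inr (g.e2.symm v) := by simp [in1, h]
    have e2 : in2 g v = Sum.inr v := by simp [in2, h]
    have e3 : ou1 g v = Sum.inl (g.e1.symm v) := by simp [ou1, h]
    have e4 : ou2 g v = Sum.inl v := by simp [ou2, h]
    have s1 : g.sg (Sum.inr (g.e2.symm v)) = 1 := by simp [Grid.sg, g.p2', h]
    have s2 : g.sg (Sum.inr v) = -1 := by simp [Grid.sg, h]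
    have s3 : g.sg (Sum.inl (g.e1.symm v)) = -1 := by simp [Grid.sg, g.p1', h]
    have s4 : g.sg (Sum.inl v) = 1 := by simp [Grid.sg, h]
    rw [← KK_even, e1, e2, e3, e4]
    simp [sH, sT, s1, s2, s3, s4]

/-- Vertex factor. -/
noncomputable def F2 (θ : ℝ) (p q : Edge V → Bool) (v : V) (r : Bool) : ℂ :=
  if q (if r then ou2 g v else ou1 g v) = p (in1 g v) ∧
    q (if r then ou1 g v else ou2 g v) = p (in2 g v)
  then ph θ r (p (in1 g v)) * ph θ r (p (in2 g v)) else 0

theorem prod_F2 [Fintype V] (θ : ℝ) (p q : Edge V → Bool) (ρ : V → Bool) :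
    ∏ v, F2 g θ p q v (ρ v) =
      if ∀ e, q (g.nxP ρ e) = p e then ∏ e, ph θ (ρ (g.hd e)) (p e) else 0 := by
  classical
  have h1 : ∀ v, F2 g θ p q v (ρ v) =
      if q (g.nx ρ (in1 g v)) = p (in1 g v) ∧ q (g.nx ρ (in2 g v)) = p (in2 g v)
      then ph θ (ρ (g.hd (in1 g v))) (p (in1 g v)) * ph θ (ρ (g.hd (in2 g v))) (p (in2 g v))
      else 0 := by
    intro v
    rw [nx_in1, nx_in2, hd_in1, hd_in2, F2]
  simp only [h1]
  split_ifs with h
  · rw [← forall_in g (fun e => q (g.nxP ρ e) = p e)] at h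
    rw [← prod_in g (fun e => ph θ (ρ (g.hd e)) (p e))]
    refine Finset.prod_congr rfl fun v _ => ?_
    exact if_pos (h v)
  · rw [← forall_in g (fun e => q (g.nxP ρ e) = p e), not_forall] at h
    obtain ⟨v, hv⟩ := h
    exact Finset.prod_eq_zero (Finset.mem_univ v) (if_neg hv)

/-- The angle of an orbit which misses `S`. -/
noncomputable def oang (θ : ℝ) (a : Edge V → Bool → ℝ) (ρ : V → Bool) (O : Finset (Edge V)) : ℝ :=
  ∑ e ∈ O, (θ / 4 * g.turn ρ e + (aH g a e + aT g a e))

/-- The angle of the strand which starts at the edge `e` of `S`. -/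
noncomputable def sang (θ : ℝ) (a : Edge V → Bool → ℝ) (ρ : V → Bool) (S : Set (Edge V))
    (e : Edge V) : ℝ :=
  ∑ j ∈ range (rt (g.nx ρ) S e), (θ / 4 * g.turn ρ ((g.nx ρ)^[j] e) +
    (aH g a ((g.nx ρ)^[j] e) + aT g a ((g.nx ρ)^[j + 1] e)))

section main

variable [Fintype V] [DecidableEq V]

/-- phase of a half arrow -/
noncomputable def hph (t : ℝ) (b : Bool) : ℂ := Complex.exp (Complex.I * ((t * (if b then 1 else -1) : ℝ) : ℂ))

theorem hph_add (t t' : ℝ) (b : Bool) : hph t b * hph t' b = hph (t + t') b := by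
  rw [hph, hph, hph, ← Complex.exp_add]
  congr 1
  push_cast
  ring

theorem hph_sum {ι : Type*} (s : Finset ι) (t : ι → ℝ) (b : Bool) :
    ∏ i ∈ s, hph (t i) b = hph (∑ i ∈ s, t i) b := by
  classical
  simp only [hph]
  rw [← Complex.exp_sum, ← Finset.mul_sum]
  congr 2
  rw [Finset.sum_mul]
  push_cast
  rfl

theorem hph_two (t : ℝ) : ∑ b : Bool, hph t b = ((2 * Real.cos t : ℝ) : ℂ) := by
  rw [Fintype.sum_bool, hph, hph]
  push_cast
  rw [Complex.cos]
  simp
  ring_nf

theorem ph_eq (θ : ℝ) (ρ : V → Bool) (e : Edge V) (b : Bool) :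
    ph θ (ρ (g.hd e)) b = hph (θ / 4 * g.turn ρ e) b := by
  rw [ph, hph, Grid.turn]
  cases ρ (g.hd e) <;> simp

/-- phases in terms of the relative arrows -/
theorem phase_eq (a : Edge V → Bool → ℝ) (w : Edge V → Bool → Bool) :
    Complex.exp (Complex.I * ((∑ e, ∑ b, a e b * (if w e b then 1 else -1) : ℝ) : ℂ)) =
      (∏ e, hph (aH g a e) (sH g w e)) * ∏ e, hph (aT g a e) (sT g w e) := by
  rw [← Finset.prod_mul_distrib, Complex.ofReal_sum, Finset.mul_sum, Complex.exp_sum]
  refine Finset.prod_congr rfl fun e _ => ?_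
  rw [hph, hph, ← Complex.exp_add]
  congr 1
  rw [← mul_add, ← Complex.ofReal_add]
  congr 2
  rw [Fintype.sum_bool]
  rcases sg_cases g e with h | h
  · cases h1 : w e true <;> cases h2 : w e false <;> simp [sH, sT, aH, aT, hb, h, h1, h2]
  · cases h1 : w e true <;> cases h2 : w e false <;> simp [sH, sT, aH, aT, hb, h, h1, h2] <;> ring

open Classical in
/-- **Baxter-Kelland-Wu with cuts.** -/
theorem bkw_cut (θ : ℝ) (S : Finset (Edge V)) (a : Edge V → Bool → ℝ) :
    (∑ w : Edge V → Bool → Bool, if ∀ e ∉ S, w e false = w e true then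
      ((hwt g (2 * Real.cos (θ / 2)) w : ℝ) : ℂ) *
        Complex.exp (Complex.I * ((∑ e, ∑ b, a e b * (if w e b then 1 else -1) : ℝ) : ℂ)) else 0) =
      ((∑ ρ : V → Bool, (∏ e ∈ S, 2 * Real.cos (sang g θ a ρ (S : Set (Edge V)) e)) *
        ∏ O ∈ miss (g.nxP ρ) S, 2 * Real.cos (oang g θ a ρ O) : ℝ) : ℂ) := by
  have key : ∀ w : Edge V → Bool → Bool,
      (if ∀ e ∉ S, w e false = w e true then ((hwt g (2 * Real.cos (θ / 2)) w : ℝ) : ℂ) *
        Complex.exp (Complex.I * ((∑ e, ∑ b, a e b * (if w e b then 1 else -1) : ℝ) : ℂ)) else 0) =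
      (fun s : (Edge V → Bool) × (Edge V → Bool) => ∑ ρ : V → Bool,
        if (∀ e ∉ S, s.2 e = s.1 e) ∧ ∀ e, s.2 (g.nxP ρ e) = s.1 e then
          (∏ e, ph θ (ρ (g.hd e)) (s.1 e)) * ((∏ e, hph (aH g a e) (s.1 e)) *
            ∏ e, hph (aT g a e) (s.2 e)) else 0) (hEquiv g w) := by
    intro w
    have h0 : (∀ e ∉ S, w e false = w e true) ↔ ∀ e ∉ S, sT g w e = sH g w e := by
      refine forall₂_congr fun e _ => ?_
      rcases sg_cases g e with h | h
      · simp [sT, sH, h]
      · simp only [sT, sH, h]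
        cases w e true <;> cases w e false <;> simp
    have h1 : ((hwt g (2 * Real.cos (θ / 2)) w : ℝ) : ℂ) =
        ∑ ρ : V → Bool, ∏ v, F2 g θ (sH g w) (sT g w) v (ρ v) := by
      unfold hwt
      rw [Complex.ofReal_prod]
      have : ∀ v, ((vw (2 * Real.cos (θ / 2)) (w (Sum.inl (g.e1.symm v)) true)
          (w (Sum.inl v) false) (w (Sum.inr (g.e2.symm v)) true) (w (Sum.inr v) false) : ℝ) : ℂ) =
          ∑ r : Bool, F2 g θ (sH g w) (sT g w) v r := by
        intro v
        rw [hvertex, Fintype.sum_bool]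
        simp [F2, KK]
      simp only [this]
      rw [Finset.prod_univ_sum, Fintype.piFinset_univ]
    show _ = ∑ ρ : V → Bool,
        if (∀ e ∉ S, sT g w e = sH g w e) ∧ ∀ e, sT g w (g.nxP ρ e) = sH g w e then
          (∏ e, ph θ (ρ (g.hd e)) (sH g w e)) * ((∏ e, hph (aH g a e) (sH g w e)) *
            ∏ e, hph (aT g a e) (sT g w e)) else 0
    by_cases hS : ∀ e ∉ S, w e false = w e true
    · rw [if_pos hS, h1, phase_eq g, Finset.sum_mul]
      refine Finset.sum_congr rfl fun ρ _ => ?_
      rw [prod_F2]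
      by_cases hq : ∀ e, sT g w (g.nxP ρ e) = sH g w e
      · rw [if_pos hq, if_pos ⟨h0.1 hS, hq⟩]
      · rw [if_neg hq, if_neg (fun h => hq h.2), zero_mul]
    · rw [if_neg hS]
      symm
      refine Finset.sum_eq_zero fun ρ _ => if_neg fun h => hS (h0.2 h.1)
  rw [Finset.sum_congr rfl fun w _ => key w, Equiv.sum_comp (hEquiv g)
    (fun s : (Edge V → Bool) × (Edge V → Bool) => ∑ ρ : V → Bool,
        if (∀ e ∉ S, s.2 e = s.1 e) ∧ ∀ e, s.2 (g.nxP ρ e) = s.1 e then
          (∏ e, ph θ (ρ (g.hd e)) (s.1 e)) * ((∏ e, hph (aH g a e) (s.1 e)) *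
            ∏ e, hph (aT g a e) (s.2 e)) else 0), Finset.sum_comm, Complex.ofReal_sum]
  refine Finset.sum_congr rfl fun ρ _ => ?_
  rw [Fintype.sum_prod_type]
  -- eliminate the tail arrows
  have h2 : ∀ p : Edge V → Bool, (∑ q : Edge V → Bool,
      if (∀ e ∉ S, q e = p e) ∧ ∀ e, q (g.nxP ρ e) = p e then
          (∏ e, ph θ (ρ (g.hd e)) (p e)) * ((∏ e, hph (aH g a e) (p e)) *
            ∏ e, hph (aT g a e) (q e)) else 0) =
      if ∀ e, g.nxP ρ e ∉ S → p (g.nxP ρ e) = p e then
        ∏ e, hph (θ / 4 * g.turn ρ e + (aH g a e + aT g a (g.nxP ρ e))) (p e) else 0 := by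
    intro p
    rw [Finset.sum_eq_single (fun e => p ((g.nxP ρ).symm e))]
    · have h3 : ((∀ e ∉ S, p ((g.nxP ρ).symm e) = p e) ∧
          ∀ e, p ((g.nxP ρ).symm (g.nxP ρ e)) = p e) ↔
          ∀ e, g.nxP ρ e ∉ S → p (g.nxP ρ e) = p e := by
        constructor
        · rintro ⟨h, _⟩ e he
          have := h _ he
          rw [Equiv.symm_apply_apply] at this
          exact this.symm
        · intro h
          refine ⟨fun e he => ?_, fun e => by rw [Equiv.symm_apply_apply]⟩
          have := h ((g.nxP ρ).symm e) (by rw [Equiv.apply_symm_apply]; exact he)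
          rw [Equiv.apply_symm_apply] at this
          exact this.symm
      by_cases hc : ∀ e, g.nxP ρ e ∉ S → p (g.nxP ρ e) = p e
      · rw [if_pos (h3.2 hc), if_pos hc]
        rw [← Equiv.prod_comp (g.nxP ρ) (fun e => hph (aT g a e) (p ((g.nxP ρ).symm e)))]
        rw [← Finset.prod_mul_distrib, ← Finset.prod_mul_distrib]
        refine Finset.prod_congr rfl fun e _ => ?_
        rw [Equiv.symm_apply_apply, ph_eq, hph_add, hph_add]
      · rw [if_neg (fun h => hc (h3.1 h)), if_neg hc]
    · intro q _ hq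
      refine if_neg fun h => hq ?_
      funext e
      have := h.2 ((g.nxP ρ).symm e)
      rw [Equiv.apply_symm_apply] at this
      exact this
    · intro h; exact absurd (mem_univ _) h
  simp only [h2]
  rw [sum_cut (σ := g.nxP ρ) (S := S)
    (fun e b => hph (θ / 4 * g.turn ρ e + (aH g a e + aT g a (g.nxP ρ e))) b)]
  rw [Complex.ofReal_mul, Complex.ofReal_prod, Complex.ofReal_prod]
  congr 1
  · refine Finset.prod_congr rfl fun e _ => ?_
    rw [← hph_two]
    refine Finset.sum_congr rfl fun b _ => ?_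
    rw [hph_sum]
    congr 1
    unfold sang
    refine Finset.sum_congr rfl fun j _ => ?_
    rw [Function.iterate_succ_apply' (g.nx ρ)]
    rfl
  · refine Finset.prod_congr rfl fun O hO => ?_
    rw [← hph_two]
    refine Finset.sum_congr rfl fun b _ => ?_
    rw [hph_sum]
    congr 1
    unfold oang
    obtain ⟨e, he, rfl⟩ := mem_miss.1 hO
    rw [Finset.sum_add_distrib, Finset.sum_add_distrib, Finset.sum_add_distrib,
      Finset.sum_add_distrib]
    congr 2
    refine Finset.sum_nbij (fun x => g.nxP ρ x) ?_ ?_ ?_ ?_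
    · intro x hx
      rw [cl_of_miss he] at hx ⊢
      exact Equiv.Perm.sameCycle_apply_right.2 hx
    · intro x _ y _ h
      exact (g.nxP ρ).injective h
    · intro x hx
      rw [mem_coe, cl_of_miss he] at hx
      refine ⟨(g.nxP ρ).symm x, ?_, Equiv.apply_symm_apply _ _⟩
      rw [mem_coe, cl_of_miss he]
      rw [← Equiv.Perm.sameCycle_apply_right, Equiv.apply_symm_apply]
      exact hx
    · intro x _; rfl

end main

end Vale.Agent.P167.H871
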