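import Vale.Agent.P167.H871.Close

/-!
Turning of the strands of a domain bounded by a closed lattice path: the boundary path and its blocks
of diagonal steps. The squares on the left of the path are in `D`, those on its right are not.
-/

namespace Vale.Agent.P167.H871

open Finset
open Vale.Agent.P167.Top

/-- The site `s` in the fine coordinates. -/
def S4 (s : ℤ × ℤ) : ℤ × ℤ := (4 * s.1 - 2, 4 * s.2 - 2)

/-- The square on the left of the step from the site `s` in the direction `d`. -/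
def sqL (s : ℤ × ℤ) (d : ℤ) : ℤ × ℤ :=
  (s.1 + (if d % 4 = 1 ∨ d % 4 = 2 then -1 else 0), s.2 + (if d % 4 = 2 ∨ d % 4 = 3 then -1 else 0))

theorem sqL_congr {s : ℤ × ℤ} {d d' : ℤ} (h : d % 4 = d' % 4) : sqL s d = sqL s d' := by
  unfold sqL; rw [h]

/-- The midpoint of the step from the site `s` in the direction `d`. -/
def M4 (s : ℤ × ℤ) (d : ℤ) : ℤ × ℤ := S4 s + dv (d - 1) + dv d

/-- A closed lattice path with the squares of `D` on its left. -/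
structure Bd (D : Set (ℤ × ℤ)) (n : ℕ) (P : ℕ → ℤ × ℤ) (u : ℕ → ℤ) (σ : ℤ) : Prop where
  step : ∀ k, P (k + 1) = P k + vec (u k)
  turn : ∀ k, |u (k + 1) - u k| ≤ 1
  per : ∀ k, u (k + n) = u k + 4 * σ
  perP : ∀ k, P (k + n) = P k
  inj : ∀ k l, k < l → l < k + n → P k ≠ P l
  left : ∀ k, sqL (P k) (u k) ∈ D
  right : ∀ k, sqL (P k) (u k - 1) ∉ D

/-- The directions in terms of one of them. -/
theorem vec_rel (d : ℤ) : dv d = (dx d - dy d, dy d + dx d) ∧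
    dv (d - 1) = (dx d + dy d, dy d - dx d) ∧ dv (d - 2) = (dy d - dx d, -dx d - dy d) ∧
    dv (d - 3) = (-dx d - dy d, dx d - dy d) ∧
    ((dx d = 1 ∧ dy d = 0) ∨ (dx d = -1 ∧ dy d = 0) ∨ (dx d = 0 ∧ dy d = 1) ∨
      (dx d = 0 ∧ dy d = -1)) := by
  rcases dx_cases d with ⟨h, a, b, c, e⟩ | ⟨h, a, b, c, e⟩ | ⟨h, a, b, c, e⟩ | ⟨h, a, b, c, e⟩ <;>
    rcases dx_cases (d - 1) with ⟨h', a', b', c', e'⟩ | ⟨h', a', b', c', e'⟩ |
      ⟨h', a', b', c', e'⟩ | ⟨h', a', b', c', e'⟩ <;>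
    rcases dx_cases (d - 2) with ⟨h2, a2, b2, c2, e2⟩ | ⟨h2, a2, b2, c2, e2⟩ |
      ⟨h2, a2, b2, c2, e2⟩ | ⟨h2, a2, b2, c2, e2⟩ <;>
    rcases dx_cases (d - 3) with ⟨h3, a3, b3, c3, e3⟩ | ⟨h3, a3, b3, c3, e3⟩ |
      ⟨h3, a3, b3, c3, e3⟩ | ⟨h3, a3, b3, c3, e3⟩ <;>
    first
    | (exfalso; omega)
    | (unfold dv; rw [a, b, c, e, a', b', c', e', a2, b2, c2, e2, a3, b3, c3, e3]; norm_num)

theorem M4_eq (s : ℤ × ℤ) (d : ℤ) : M4 s d = (4 * s.1 - 2 + 2 * dx d, 4 * s.2 - 2 + 2 * dy d) := by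
  obtain ⟨h1, h2, -⟩ := vec_rel d
  unfold M4 S4
  rw [h1, h2]
  ext <;> simp <;> ring

theorem S4_step (s : ℤ × ℤ) (d : ℤ) : M4 s d + dv (d - 1) + dv d = S4 (s + vec d) := by
  obtain ⟨h1, h2, -⟩ := vec_rel d
  rw [M4_eq]
  unfold S4 vec
  rw [h1, h2]
  ext <;> simp <;> ring

theorem sqL_four (s : ℤ × ℤ) (d : ℤ) :
    (4 * (sqL s d).1, 4 * (sqL s d).2) = S4 s + dv d + dv d := by
  unfold sqL S4
  rcases dv_cases d with ⟨h, a⟩ | ⟨h, a⟩ | ⟨h, a⟩ | ⟨h, a⟩ <;> rw [a, h] <;> ext <;> simp <;> ring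

/-- The square of a corner point. -/
def sqc (X : ℤ × ℤ) : ℤ × ℤ := ((X.1 + 1) / 4, (X.2 + 1) / 4)

/-- The site of a corner point. -/
def stc (X : ℤ × ℤ) : ℤ × ℤ := ((X.1 + 3) / 4, (X.2 + 3) / 4)

theorem sqc_site (s : ℤ × ℤ) (d : ℤ) : sqc (S4 s + dv d) = sqL s d := by
  unfold sqc S4 sqL
  rcases dv_cases d with ⟨h, a⟩ | ⟨h, a⟩ | ⟨h, a⟩ | ⟨h, a⟩ <;> rw [a, h] <;> ext <;>
    simp <;> omega

theorem stc_site (s : ℤ × ℤ) (d : ℤ) : stc (S4 s + dv d) = s := by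
  unfold stc S4
  rcases dv_cases d with ⟨h, a⟩ | ⟨h, a⟩ | ⟨h, a⟩ | ⟨h, a⟩ <;> rw [a] <;> ext <;>
    simp <;> omega

theorem stc_S4 (s : ℤ × ℤ) : stc (S4 s) = s := by
  unfold stc S4
  ext <;> simp <;> omega

/-- The point is the midpoint of a medial edge. -/
def IsMid (X : ℤ × ℤ) : Prop := X.1 % 2 = 0 ∧ X.2 % 2 = 0 ∧ (X.1 + X.2) % 4 = 2

theorem isMid_P4 (e : Ed) : IsMid (P4 e) := P4_par e

theorem isMid_M4 (s : ℤ × ℤ) (d : ℤ) : IsMid (M4 s d) := by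
  rw [M4_eq]
  unfold IsMid
  simp only
  rcases (vec_rel d).2.2.2.2 with ⟨h, h'⟩ | ⟨h, h'⟩ | ⟨h, h'⟩ | ⟨h, h'⟩ <;> rw [h, h'] <;> omega

theorem not_isMid_S4 (s : ℤ × ℤ) : ¬ IsMid (S4 s) := by
  unfold IsMid S4
  simp only
  omega

theorem not_isMid_site (s : ℤ × ℤ) (d : ℤ) : ¬ IsMid (S4 s + dv d) := by
  unfold IsMid S4
  have := dv_odd d
  simp only [Prod.fst_add]
  omega

variable {D : Set (ℤ × ℤ)} {n : ℕ} {P : ℕ → ℤ × ℤ} {u : ℕ → ℤ} {σ : ℤ}

/-- The block of the path from the midpoint of the step `k` to the midpoint of the step `k + 1`,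
with the corner points on the right. -/
def blB (P : ℕ → ℤ × ℤ) (u : ℕ → ℤ) (k : ℕ) : List ((ℤ × ℤ) × ℤ) :=
  if u (k + 1) = u k - 1 then [(M4 (P k) (u k), u k - 1), (S4 (P (k + 1)) + dv (u k - 2), u k - 1)]
  else [(M4 (P k) (u k), u k - 1), (S4 (P (k + 1)) + dv (u k - 2), u k),
    (S4 (P (k + 1)), u (k + 1) - 1), (S4 (P (k + 1)) + dv (u (k + 1) - 1), u (k + 1))]

/-- The reversed block. -/
def blA (P : ℕ → ℤ × ℤ) (u : ℕ → ℤ) (k : ℕ) : List ((ℤ × ℤ) × ℤ) :=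
  if u (k + 1) = u k - 1 then
    [(M4 (P (k + 1)) (u (k + 1)), u (k + 1) - 2), (S4 (P (k + 1)) + dv (u k - 2), u (k + 1) - 2)]
  else [(M4 (P (k + 1)) (u (k + 1)), u (k + 1) - 2),
    (S4 (P (k + 1)) + dv (u (k + 1) - 1), u (k + 1) - 3),
    (S4 (P (k + 1)), u k - 2), (S4 (P (k + 1)) + dv (u k - 2), u k - 3)]

theorem blB_seg (h : Bd D n P u σ) (k : ℕ) :
    Seg (M4 (P k) (u k)) (u k - 1) (blB P u k) (M4 (P (k + 1)) (u (k + 1))) (u (k + 1)) := by
  have hs := S4_step (P k) (u k)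
  rw [← h.step k] at hs
  have ht := abs_le.1 (h.turn k)
  have e2 : dv (u k - 2) = -dv (u k) := by
    rw [← dv_add_two]; apply dv_congr; omega
  have e1 : M4 (P k) (u k) + dv (u k - 1) = S4 (P (k + 1)) + dv (u k - 2) := by
    rw [← hs, e2]; abel
  unfold blB
  split_ifs with hk
  · have := Seg.two (M4 (P k) (u k)) (u k - 1) (u k - 1) (by simp)
    rw [e1] at this
    have e3 : S4 (P (k + 1)) + dv (u k - 2) + dv (u k - 1) = M4 (P (k + 1)) (u (k + 1)) := by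
      unfold M4
      rw [hk]
      rw [show u k - 1 - 1 = u k - 2 by ring]
    rw [e3, ← hk] at this
    rw [← hk]
    exact this
  · have s1 := Seg.two (M4 (P k) (u k)) (u k - 1) (u k) (by simp)
    rw [e1] at s1
    have e4 : S4 (P (k + 1)) + dv (u k - 2) + dv (u k) = S4 (P (k + 1)) := by
      rw [e2]; abel
    rw [e4] at s1
    have s2 := Seg.two (S4 (P (k + 1))) (u (k + 1) - 1) (u (k + 1)) (by simp)
    refine s1.append s2 ?_
    rw [abs_le]
    omega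

theorem blA_seg (h : Bd D n P u σ) (k : ℕ) :
    Seg (M4 (P (k + 1)) (u (k + 1))) (u (k + 1) - 2) (blA P u k) (M4 (P k) (u k)) (u k - 3) := by
  have hs := S4_step (P k) (u k)
  rw [← h.step k] at hs
  have ht := abs_le.1 (h.turn k)
  have f2 : ∀ d : ℤ, dv (d - 2) = -dv d := fun d => by
    rw [← dv_add_two]; apply dv_congr; omega
  have f3 : ∀ d : ℤ, dv (d - 3) = -dv (d - 1) := fun d => by
    rw [← dv_add_two]; apply dv_congr; omega
  unfold blA
  split_ifs with hk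
  · have := Seg.two (M4 (P (k + 1)) (u (k + 1))) (u (k + 1) - 2) (u (k + 1) - 2) (by simp)
    have e1 : M4 (P (k + 1)) (u (k + 1)) + dv (u (k + 1) - 2) = S4 (P (k + 1)) + dv (u k - 2) := by
      rw [f2 (u (k + 1))]
      unfold M4
      rw [hk, show u k - 1 - 1 = u k - 2 by ring]
      abel
    have e3 : S4 (P (k + 1)) + dv (u k - 2) + dv (u (k + 1) - 2) = M4 (P k) (u k) := by
      rw [← hs, f2, f2, hk]
      abel
    rw [e1, e3] at this
    rw [show u k - 3 = u (k + 1) - 2 by omega]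
    exact this
  · have s1 := Seg.two (M4 (P (k + 1)) (u (k + 1))) (u (k + 1) - 2) (u (k + 1) - 3) (by simp)
    have e1 : M4 (P (k + 1)) (u (k + 1)) + dv (u (k + 1) - 2) =
        S4 (P (k + 1)) + dv (u (k + 1) - 1) := by
      rw [f2]
      unfold M4
      abel
    have e2 : S4 (P (k + 1)) + dv (u (k + 1) - 1) + dv (u (k + 1) - 3) = S4 (P (k + 1)) := by
      rw [f3]; abel
    rw [e1, e2] at s1
    have s2 := Seg.two (S4 (P (k + 1))) (u k - 2) (u k - 3) (by simp)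
    have e5 : S4 (P (k + 1)) + dv (u k - 2) + dv (u k - 3) = M4 (P k) (u k) := by
      rw [← hs, f2, f3]; abel
    rw [e5] at s2
    refine s1.append s2 ?_
    rw [abs_le]
    omega

/-- The points of a block: the midpoint and points at the site `P (k + 1)`. -/
theorem mem_blB {k : ℕ} {X : ℤ × ℤ} (hX : X ∈ (blB P u k).map Prod.fst) :
    X = M4 (P k) (u k) ∨ X = S4 (P (k + 1)) ∨ X = S4 (P (k + 1)) + dv (u k - 2) ∨
      X = S4 (P (k + 1)) + dv (u (k + 1) - 1) := by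
  unfold blB at hX
  split_ifs at hX <;> simp at hX <;> tauto

theorem mem_blA {k : ℕ} {X : ℤ × ℤ} (hX : X ∈ (blA P u k).map Prod.fst) :
    X = M4 (P (k + 1)) (u (k + 1)) ∨ X = S4 (P (k + 1)) ∨ X = S4 (P (k + 1)) + dv (u k - 2) ∨
      X = S4 (P (k + 1)) + dv (u (k + 1) - 1) := by
  unfold blA at hX
  split_ifs at hX <;> simp at hX <;> tauto

theorem S4_ne_add (s : ℤ × ℤ) (d : ℤ) : S4 s ≠ S4 s + dv d := by
  intro h
  have := dv_odd d
  have h1 := congrArg Prod.fst h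
  simp only [Prod.fst_add] at h1
  omega

theorem blB_nodup (h : Bd D n P u σ) (k : ℕ) : ((blB P u k).map Prod.fst).Nodup := by
  have hm := isMid_M4 (P k) (u k)
  have n1 := not_isMid_S4 (P (k + 1))
  have n2 := not_isMid_site (P (k + 1)) (u k - 2)
  have n3 := not_isMid_site (P (k + 1)) (u (k + 1) - 1)
  have d1 : M4 (P k) (u k) ≠ S4 (P (k + 1)) := fun h => n1 (h ▸ hm)
  have d2 : M4 (P k) (u k) ≠ S4 (P (k + 1)) + dv (u k - 2) := fun h => n2 (h ▸ hm)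
  have d3 : M4 (P k) (u k) ≠ S4 (P (k + 1)) + dv (u (k + 1) - 1) := fun h => n3 (h ▸ hm)
  have ht := abs_le.1 (h.turn k)
  unfold blB
  split_ifs with hk
  · simp [d2]
  · have d4 : dv (u k - 2) ≠ dv (u (k + 1) - 1) := fun h => by
      have := dv_inj h
      omega
    have d5 := S4_ne_add (P (k + 1)) (u (k + 1) - 1)
    have d6 := S4_ne_add (P (k + 1)) (u k - 2)
    have d7 : S4 (P (k + 1)) + dv (u k - 2) ≠ S4 (P (k + 1)) + dv (u (k + 1) - 1) :=
      fun h => d4 (add_left_cancel h)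
    simp only [List.map_cons, List.map_nil, List.nodup_cons, List.mem_cons, List.not_mem_nil,
      or_false, not_or, not_false_eq_true, List.nodup_nil, and_true]
    exact ⟨⟨d2, d1, d3⟩, ⟨d6.symm, d7⟩, d5⟩

theorem blA_nodup (h : Bd D n P u σ) (k : ℕ) : ((blA P u k).map Prod.fst).Nodup := by
  have hm := isMid_M4 (P (k + 1)) (u (k + 1))
  have n1 := not_isMid_S4 (P (k + 1))
  have n2 := not_isMid_site (P (k + 1)) (u k - 2)
  have n3 := not_isMid_site (P (k + 1)) (u (k + 1) - 1)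
  have d1 : M4 (P (k + 1)) (u (k + 1)) ≠ S4 (P (k + 1)) := fun h => n1 (h ▸ hm)
  have d2 : M4 (P (k + 1)) (u (k + 1)) ≠ S4 (P (k + 1)) + dv (u k - 2) := fun h => n2 (h ▸ hm)
  have d3 : M4 (P (k + 1)) (u (k + 1)) ≠ S4 (P (k + 1)) + dv (u (k + 1) - 1) := fun h => n3 (h ▸ hm)
  have ht := abs_le.1 (h.turn k)
  unfold blA
  split_ifs with hk
  · simp [d2]
  · have d4 : dv (u k - 2) ≠ dv (u (k + 1) - 1) := fun h => by
      have := dv_inj h
      omega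
    have d5 := S4_ne_add (P (k + 1)) (u (k + 1) - 1)
    have d6 := S4_ne_add (P (k + 1)) (u k - 2)
    have d7 : S4 (P (k + 1)) + dv (u k - 2) ≠ S4 (P (k + 1)) + dv (u (k + 1) - 1) :=
      fun h => d4 (add_left_cancel h)
    simp only [List.map_cons, List.map_nil, List.nodup_cons, List.mem_cons, List.not_mem_nil,
      or_false, not_or, not_false_eq_true, List.nodup_nil, and_true]
    exact ⟨⟨d3, d1, d2⟩, ⟨d5.symm, d7.symm⟩, d6⟩

end Vale.Agent.P167.H871
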