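import Vale.Agent.P167.H871.Dom

/-!
Turning of the strands of a domain bounded by a closed lattice path.
-/

namespace Vale.Agent.P167.H871

open Finset
open Vale.Agent.P167.Top

variable {D : Set (ℤ × ℤ)} {n : ℕ} {P : ℕ → ℤ × ℤ} {u : ℕ → ℤ} {σ : ℤ}

theorem M4_ne (h : Bd D n P u σ) {k l : ℕ} (hkl : k < l) (hl : l < k + n) :
    M4 (P k) (u k) ≠ M4 (P l) (u l) := by
  intro he
  rw [M4_eq, M4_eq, Prod.mk.injEq] at he
  obtain ⟨e1, e2⟩ := he
  have h1 := (vec_rel (u k)).2.2.2.2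
  have h2 := (vec_rel (u l)).2.2.2.2
  by_cases hd : dx (u k) = dx (u l) ∧ dy (u k) = dy (u l)
  · apply h.inj k l hkl hl
    ext <;> omega
  · have h3 : dx (u l) = -dx (u k) ∧ dy (u l) = -dy (u k) := by omega
    have h4 : P (k + 1) = P l := by
      rw [h.step k]
      unfold vec
      ext <;> simp only [Prod.fst_add, Prod.snd_add] <;> omega
    rcases Nat.lt_or_ge (k + 1) l with h5 | h5
    · exact h.inj (k + 1) l h5 (by omega) h4
    · obtain rfl : l = k + 1 := by omega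
      have ht := abs_le.1 (h.turn k)
      rcases head_cases (u k) with ⟨a, b, c⟩ | ⟨a, b, c⟩ | ⟨a, b, c⟩ | ⟨a, b, c⟩ <;>
        rcases head_cases (u (k + 1)) with ⟨a', b', c'⟩ | ⟨a', b', c'⟩ | ⟨a', b', c'⟩ |
          ⟨a', b', c'⟩ <;> omega

/-- The reversed arc from the step `i + N` to the step `i`. -/
def arA (P : ℕ → ℤ × ℤ) (u : ℕ → ℤ) (i : ℕ) : ℕ → List ((ℤ × ℤ) × ℤ)
  | 0 => []
  | N + 1 => blA P u (i + N) ++ arA P u i N

/-- The arc from the step `j` to the step `j + N`. -/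
def arB (P : ℕ → ℤ × ℤ) (u : ℕ → ℤ) (j : ℕ) : ℕ → List ((ℤ × ℤ) × ℤ)
  | 0 => []
  | N + 1 => arB P u j N ++ blB P u (j + N)

theorem arA_seg (h : Bd D n P u σ) (i N : ℕ) :
    Seg (M4 (P (i + N + 1)) (u (i + N + 1))) (u (i + N + 1) - 2) (arA P u i (N + 1))
      (M4 (P i) (u i)) (u i - 3) := by
  induction N with
  | zero =>
    have := blA_seg h i
    simpa [arA] using this
  | succ N ih =>
    have h1 := blA_seg h (i + (N + 1))
    rw [arA]
    refine h1.append (e := u (i + (N + 1)) - 2) ?_ (by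
      rw [abs_le]; constructor <;> linarith)
    rw [show i + N + 1 = i + (N + 1) by ring] at ih
    exact ih

theorem arB_seg (h : Bd D n P u σ) (j N : ℕ) :
    Seg (M4 (P j) (u j)) (u j - 1) (arB P u j (N + 1)) (M4 (P (j + N + 1)) (u (j + N + 1)))
      (u (j + N + 1)) := by
  induction N with
  | zero =>
    have := blB_seg h j
    simpa [arB] using this
  | succ N ih =>
    have h1 := blB_seg h (j + (N + 1))
    rw [arB]
    refine ih.append (e := u (j + (N + 1)) - 1) ?_ (by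
      rw [show j + N + 1 = j + (N + 1) by ring, abs_le]; constructor <;> linarith)
    rw [show j + N + 1 = j + (N + 1) by ring]
    exact h1

theorem mem_arA {i N : ℕ} {X : ℤ × ℤ} (hX : X ∈ (arA P u i N).map Prod.fst) :
    ∃ k, i ≤ k ∧ k < i + N ∧ X ∈ (blA P u k).map Prod.fst := by
  induction N with
  | zero => simp [arA] at hX
  | succ N ih =>
    rw [arA, List.map_append, List.mem_append] at hX
    rcases hX with hX | hX
    · exact ⟨i + N, by omega, by omega, hX⟩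
    · obtain ⟨k, h1, h2, h3⟩ := ih hX
      exact ⟨k, h1, by omega, h3⟩

theorem mem_arB {j N : ℕ} {X : ℤ × ℤ} (hX : X ∈ (arB P u j N).map Prod.fst) :
    ∃ k, j ≤ k ∧ k < j + N ∧ X ∈ (blB P u k).map Prod.fst := by
  induction N with
  | zero => simp [arB] at hX
  | succ N ih =>
    rw [arB, List.map_append, List.mem_append] at hX
    rcases hX with hX | hX
    · obtain ⟨k, h1, h2, h3⟩ := ih hX
      exact ⟨k, h1, by omega, h3⟩
    · exact ⟨j + N, by omega, by omega, hX⟩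

/-- Classification of the points of a block. -/
theorem cls {k : ℕ} {X : ℤ × ℤ} (hX : X = S4 (P (k + 1)) ∨ X = S4 (P (k + 1)) + dv (u k - 2) ∨
      X = S4 (P (k + 1)) + dv (u (k + 1) - 1)) : ¬ IsMid X ∧ stc X = P (k + 1) := by
  rcases hX with rfl | rfl | rfl
  · exact ⟨not_isMid_S4 _, stc_S4 _⟩
  · exact ⟨not_isMid_site _ _, stc_site _ _⟩
  · exact ⟨not_isMid_site _ _, stc_site _ _⟩

theorem blB_disj (h : Bd D n P u σ) {k l : ℕ} (hkl : k < l) (hl : l < k + n) {X : ℤ × ℤ}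
    (hX : X ∈ (blB P u k).map Prod.fst) (hX' : X ∈ (blB P u l).map Prod.fst) : False := by
  rcases mem_blB hX with h1 | h1 <;> rcases mem_blB hX' with h2 | h2
  · exact M4_ne h hkl hl (h1.symm.trans h2)
  · exact (cls h2).1 (h1 ▸ isMid_M4 _ _)
  · exact (cls h1).1 (h2 ▸ isMid_M4 _ _)
  · exact h.inj (k + 1) (l + 1) (by omega) (by omega) ((cls h1).2.symm.trans (cls h2).2)

theorem blA_disj (h : Bd D n P u σ) {k l : ℕ} (hkl : k < l) (hl : l < k + n) {X : ℤ × ℤ}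
    (hX : X ∈ (blA P u k).map Prod.fst) (hX' : X ∈ (blA P u l).map Prod.fst) : False := by
  rcases mem_blA hX with h1 | h1 <;> rcases mem_blA hX' with h2 | h2
  · exact M4_ne h (show k + 1 < l + 1 by omega) (by omega) (h1.symm.trans h2)
  · exact (cls h2).1 (h1 ▸ isMid_M4 _ _)
  · exact (cls h1).1 (h2 ▸ isMid_M4 _ _)
  · exact h.inj (k + 1) (l + 1) (by omega) (by omega) ((cls h1).2.symm.trans (cls h2).2)

theorem arB_nodup (h : Bd D n P u σ) (j N : ℕ) (hN : N ≤ n) :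
    ((arB P u j N).map Prod.fst).Nodup := by
  induction N with
  | zero => simp [arB]
  | succ N ih =>
    rw [arB, List.map_append, List.nodup_append]
    refine ⟨ih (by omega), blB_nodup h _, ?_⟩
    rintro X hX Y hY rfl
    obtain ⟨k, h1, h2, h3⟩ := mem_arB hX
    exact blB_disj h h2 (by omega) h3 hY

theorem arA_nodup (h : Bd D n P u σ) (i N : ℕ) (hN : N ≤ n) :
    ((arA P u i N).map Prod.fst).Nodup := by
  induction N with
  | zero => simp [arA]
  | succ N ih =>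
    rw [arA, List.map_append, List.nodup_append]
    refine ⟨blA_nodup h _, ih (by omega), ?_⟩
    rintro X hX Y hY rfl
    obtain ⟨k, h1, h2, h3⟩ := mem_arA hY
    exact blA_disj h h2 (by omega) h3 hX

theorem P4_hdv (e : Ed) : P4 e = (4 * (hdv e).1 - 2 * dx (hd4 e), 4 * (hdv e).2 - 2 * dy (hd4 e)) := by
  unfold P4
  rw [me_eq, hdv_eq]
  unfold vec
  ext <;> simp <;> ring

theorem P4_tlv (e : Ed) : P4 e = (4 * (tlv e).1 + 2 * dx (hd4 e), 4 * (tlv e).2 + 2 * dy (hd4 e)) := by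
  unfold P4
  rw [me_eq]
  ext <;> simp <;> ring

theorem P4_hd4 (e : Ed) : (hd4 e % 2 = 0 ∧ (P4 e).1 % 4 = 2 ∧ (P4 e).2 % 4 = 0) ∨
    (hd4 e % 2 = 1 ∧ (P4 e).1 % 4 = 0 ∧ (P4 e).2 % 4 = 2) := by
  rcases me_odd' e with ⟨a, b, c⟩ | ⟨a, b, c⟩ <;> unfold P4 <;> simp only <;> omega
where
  me_odd' (e : Ed) : ((me e).1 % 2 = 1 ∧ (me e).2 % 2 = 0 ∧ (hd4 e = 0 ∨ hd4 e = 2)) ∨
    ((me e).1 % 2 = 0 ∧ (me e).2 % 2 = 1 ∧ (hd4 e = 1 ∨ hd4 e = 3)) := by
    rcases e with ⟨x, y⟩ | ⟨x, y⟩ <;> simp only [me, hd4] <;> split_ifs <;> simp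

theorem side_aux {X Y h1 h2 t1 t2 s1 s2 L1 L2 R1 R2 p q p' q' : ℤ}
    (e1 : X = 4 * h1 - 2 * p') (e2 : Y = 4 * h2 - 2 * q') (e3 : X = 4 * t1 + 2 * p')
    (e4 : Y = 4 * t2 + 2 * q') (e5 : X = 4 * s1 - 2 + 2 * p) (e6 : Y = 4 * s2 - 2 + 2 * q)
    (e7 : 4 * L1 = 4 * s1 - 2 + (p - q) + (p - q)) (e8 : 4 * L2 = 4 * s2 - 2 + (q + p) + (q + p))
    (e9 : 4 * R1 = 4 * s1 - 2 + (p + q) + (p + q)) (e10 : 4 * R2 = 4 * s2 - 2 + (q - p) + (q - p)) :
    (p' = -q ∧ q' = p → h1 = L1 ∧ h2 = L2 ∧ t1 = R1 ∧ t2 = R2) ∧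
    (p' = q ∧ q' = -p → h1 = R1 ∧ h2 = R2 ∧ t1 = L1 ∧ t2 = L2) := by
  constructor
  · rintro ⟨rfl, rfl⟩
    refine ⟨?_, ?_, ?_, ?_⟩ <;> omega
  · rintro ⟨rfl, rfl⟩
    refine ⟨?_, ?_, ?_, ?_⟩ <;> omega

/-- The squares of a medial edge which crosses a step. -/
theorem side {g : Ed} {s : ℤ × ℤ} {d : ℤ} (h : P4 g = M4 s d) :
    (hd4 g % 4 = (d + 1) % 4 ∧ hdv g = sqL s d ∧ tlv g = sqL s (d - 1)) ∨
    (hd4 g % 4 = (d - 1) % 4 ∧ hdv g = sqL s (d - 1) ∧ tlv g = sqL s d) := by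
  have h1 := P4_hdv g
  have h2 := P4_tlv g
  have h3 := P4_hd4 g
  rw [h] at h1 h2 h3
  have q1 := sqL_four s d
  have q2 := sqL_four s (d - 1)
  obtain ⟨v1, v2, -⟩ := vec_rel d
  rw [v1] at q1
  rw [v2] at q2
  rw [M4_eq] at h1 h2 h3
  unfold S4 at q1 q2
  simp only [Prod.mk.injEq, Prod.mk_add_mk] at h1 h2 h3 q1 q2
  have key := side_aux h1.1 h1.2 h2.1 h2.2 rfl rfl q1.1 q1.2 q2.1 q2.2
  have hp : (hd4 g - d) % 2 = 1 := by
    clear key h1 h2 q1 q2 v1 v2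
    rcases head_cases d with ⟨a, b, c⟩ | ⟨a, b, c⟩ | ⟨a, b, c⟩ | ⟨a, b, c⟩ <;>
      rw [b, c] at h3 <;> omega
  rcases (by omega : hd4 g % 4 = (d + 1) % 4 ∨ hd4 g % 4 = (d - 1) % 4) with h4 | h4
  · left
    have k := key.1 ⟨by
      rw [dx_congr h4]
      clear key h1 h2 q1 q2 v1 v2 h3
      rcases dx_cases d with ⟨_, a, b, c, e⟩ | ⟨_, a, b, c, e⟩ | ⟨_, a, b, c, e⟩ |
        ⟨_, a, b, c, e⟩ <;> rw [b, c] <;> norm_num, by
      rw [dy_congr h4]
      clear key h1 h2 q1 q2 v1 v2 h3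
      rcases dx_cases d with ⟨_, a, b, c, e⟩ | ⟨_, a, b, c, e⟩ | ⟨_, a, b, c, e⟩ |
        ⟨_, a, b, c, e⟩ <;> rw [a, e]⟩
    exact ⟨h4, Prod.ext k.1 k.2.1, Prod.ext k.2.2.1 k.2.2.2⟩
  · right
    have h5 : (hd4 g + 1) % 4 = d % 4 := by omega
    have k := key.2 ⟨by
      rw [dy_congr h5.symm]
      clear key h1 h2 q1 q2 v1 v2 h3
      rcases dx_cases (hd4 g) with ⟨_, a, b, c, e⟩ | ⟨_, a, b, c, e⟩ | ⟨_, a, b, c, e⟩ |
        ⟨_, a, b, c, e⟩ <;> rw [a, e], by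
      rw [dx_congr h5.symm]
      clear key h1 h2 q1 q2 v1 v2 h3
      rcases dx_cases (hd4 g) with ⟨_, a, b, c, e⟩ | ⟨_, a, b, c, e⟩ | ⟨_, a, b, c, e⟩ |
        ⟨_, a, b, c, e⟩ <;> rw [b, c] <;> norm_num⟩
    exact ⟨h4, Prod.ext k.1 k.2.1, Prod.ext k.2.2.1 k.2.2.2⟩

theorem sqc_cor (ω : Cfg) (e : Ed) {c : ℤ} (hc : c % 4 = 0) (i : ℕ) :
    sqc (cor ω e c i) = hdv ((nx ω)^[i] e) := by
  have h1 := P4_hdv ((nx ω)^[i] e)
  have h2 : dl ω e i % 4 = hd4 ((nx ω)^[i] e) % 4 := dl_mod ω e i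
  have h3 := dl_succ ω e i
  have h4 := trn_cases ω ((nx ω)^[i] e)
  have h5 : Dg ω e c i = c + dl ω e i ∨ Dg ω e c i = c + dl ω e i - 1 := by
    unfold Dg; omega
  set d := hd4 ((nx ω)^[i] e)
  have h6 : dv (Dg ω e c i) = dv d ∨ dv (Dg ω e c i) = dv (d - 1) := by
    rcases h5 with h | h <;> rw [h] <;> [left; right] <;> apply dv_congr <;> omega
  obtain ⟨v1, v2, -, -, v3⟩ := vec_rel d
  rw [v1, v2] at h6
  unfold sqc cor
  rw [h1]
  simp only [Prod.fst_add, Prod.snd_add]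
  rcases h6 with h | h <;> rw [h] <;> simp only <;> ext <;> simp only <;> omega

theorem sqL_next (s : ℤ × ℤ) (d : ℤ) : sqL (s + vec d) (d - 2) = sqL s (d - 1) := by
  unfold sqL vec
  rcases head_cases d with ⟨a, b, c⟩ | ⟨a, b, c⟩ | ⟨a, b, c⟩ | ⟨a, b, c⟩ <;> rw [b, c]
  · rw [if_pos (by omega), if_pos (by omega), if_neg (by omega), if_pos (by omega)]
    ext <;> simp
  · rw [if_neg (by omega), if_pos (by omega), if_neg (by omega), if_neg (by omega)]
    ext <;> simp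
  · rw [if_neg (by omega), if_neg (by omega), if_pos (by omega), if_neg (by omega)]
    ext <;> simp
  · rw [if_pos (by omega), if_neg (by omega), if_pos (by omega), if_pos (by omega)]
    ext <;> simp

/-- **Turning of a strand of `D`.** -/
theorem dom_turn (h : Bd D n P u σ) {ω : Cfg} {e : Ed} {m i j : ℕ} (hm : 1 ≤ m) (hij : i < j)
    (hjn : j < i + n) (hi : P4 e = M4 (P i) (u i)) (hj : P4 ((nx ω)^[m] e) = M4 (P j) (u j))
    (hin : ∀ k < m, hdv ((nx ω)^[k] e) ∈ D) (ht : tlv e ∉ D) (hh : hdv ((nx ω)^[m] e) ∉ D) :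
    ∃ q : ℤ, dl ω e m - hd4 e = u j - u i - 2 + 4 * q ∧ (q - 1 = 1 ∨ q - 1 = -1) ∧
      (q + σ = 1 ∨ q + σ = -1) := by
  -- the headings of the end edges
  have a1 : hd4 e % 4 = (u i + 1) % 4 := by
    rcases side hi with ⟨h1, _, _⟩ | ⟨_, h2, _⟩
    · exact h1
    · exact absurd (h2 ▸ hin 0 (by omega)) (h.right i)
  have a2 : hd4 ((nx ω)^[m] e) % 4 = (u j - 1) % 4 := by
    rcases side hj with ⟨_, h2, _⟩ | ⟨h1, _, _⟩
    · exact absurd (h2 ▸ h.left j) hh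
    · exact h1
  have a3 : dl ω e m % 4 = (u j - 1) % 4 := by rw [dl_mod]; exact a2
  set c : ℤ := u j - 1 - dl ω e m with hc
  have hc4 : c % 4 = 0 := by omega
  have ht1 : ∀ k, 1 ≤ k → k ≤ m → tlv ((nx ω)^[k] e) ∈ D := by
    intro k h1 h2
    obtain ⟨k', rfl⟩ : ∃ k', k = k' + 1 := ⟨k - 1, by omega⟩
    rw [Function.iterate_succ_apply', tlv_nx]
    exact hin k' (by omega)
  have hinj : ∀ a b, a ≤ m → b ≤ m → (nx ω)^[a] e = (nx ω)^[b] e → a = b := by
    have key : ∀ a b, a < b → b ≤ m → (nx ω)^[a] e ≠ (nx ω)^[b] e := by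
      intro a b hab hb he
      have h1 : (nx ω)^[b - a] e = e := by
        apply ((s_nx ω).injective.iterate a)
        rw [← Function.iterate_add_apply, show a + (b - a) = b by omega, he]
      exact ht (h1 ▸ ht1 (b - a) (by omega) (by omega))
    intro a b ha hb he
    rcases lt_trichotomy a b with h1 | h1 | h1
    · exact absurd he (key a b h1 hb)
    · exact h1
    · exact absurd he.symm (key b a h1 ha)
  -- midpoints of the boundary are not visited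
  have hmid : ∀ k, (∀ h0 : M4 (P k) (u k) = M4 (P i) (u i), False) →
      ∀ a < m, M4 (P k) (u k) ≠ P4 ((nx ω)^[a] e) := by
    intro k h0 a ha he
    rcases Nat.eq_zero_or_pos a with rfl | ha'
    · exact h0 (he.trans hi)
    · have h1 := hin a ha
      have h2 := ht1 a ha' ha.le
      rcases side he.symm with ⟨_, _, h3⟩ | ⟨_, h3, _⟩
      · exact h.right k (h3 ▸ h2)
      · exact h.right k (h3 ▸ h1)
  have hcor : ∀ k X, (X = M4 (P k) (u k) ∨ X = M4 (P (k + 1)) (u (k + 1)) ∨ X = S4 (P (k + 1)) ∨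
      X = S4 (P (k + 1)) + dv (u k - 2) ∨ X = S4 (P (k + 1)) + dv (u (k + 1) - 1)) →
      ∀ a < m, X ≠ cor ω e c a := by
    intro k X hX a ha he
    have ho := cor_odd ω e c a
    have hq : sqc X = hdv ((nx ω)^[a] e) := by rw [he, sqc_cor ω e hc4]
    rw [← he] at ho
    rcases hX with rfl | rfl | rfl | rfl | rfl
    · have := isMid_M4 (P k) (u k); unfold IsMid at this; omega
    · have := isMid_M4 (P (k + 1)) (u (k + 1)); unfold IsMid at this; omega
    · unfold S4 at ho; simp only at ho; omega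
    · rw [sqc_site, h.step k, sqL_next] at hq
      exact h.right k (hq ▸ hin a ha)
    · rw [sqc_site] at hq
      exact h.right (k + 1) (hq ▸ hin a ha)
  have hsite : ∀ k X, (X = S4 (P (k + 1)) ∨ X = S4 (P (k + 1)) + dv (u k - 2) ∨
      X = S4 (P (k + 1)) + dv (u (k + 1) - 1)) → ∀ a < m, X ≠ P4 ((nx ω)^[a] e) := by
    intro k X hX a _ he
    exact (cls hX).1 (he ▸ isMid_P4 _)
  have b0 : Dg ω e c 0 = c + hd4 e ∨ Dg ω e c 0 = c + hd4 e - 1 := by
    have h1 := dl_succ ω e 0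
    have h2 := trn_cases ω ((nx ω)^[0] e)
    have h3 : dl ω e 0 = hd4 e := by simp [dl]
    unfold Dg
    rw [h3] at h1 ⊢
    simp only [zero_add] at h1 ⊢
    omega
  have b1 : Dg ω e c (m - 1) = u j - 1 ∨ Dg ω e c (m - 1) = u j - 2 := by
    have h1 := dl_succ ω e (m - 1)
    have h2 := trn_cases ω ((nx ω)^[m - 1] e)
    rw [show m - 1 + 1 = m by omega] at h1
    unfold Dg
    rw [show m - 1 + 1 = m by omega]
    omega
  obtain ⟨q, hq⟩ : ∃ q : ℤ, c + hd4 e = u i + 1 - 4 * q := ⟨(u i + 1 - (c + hd4 e)) / 4, by omega⟩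
  refine ⟨q, by omega, ?_, ?_⟩
  · obtain ⟨N, rfl⟩ : ∃ N, j = i + N + 1 := ⟨j - i - 1, by omega⟩
    have hs := arA_seg h i N
    rw [← hj, ← hi] at hs
    refine close ω e c hc4 hm hinj hs (s := q - 1) ?_ ?_ (arA_nodup h i _ (by omega)) ?_ ?_
    · rw [abs_le]; omega
    · rw [abs_le]; omega
    · intro X hX a ha
      obtain ⟨k, k1, k2, k3⟩ := mem_arA hX
      rcases mem_blA k3 with h1 | h1
      · rw [h1]
        exact hmid _ (fun h0 => M4_ne h (show i < k + 1 by omega) (by omega) h0.symm) a ha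
      · exact hsite k X h1 a ha
    · intro X hX a ha
      obtain ⟨k, k1, k2, k3⟩ := mem_arA hX
      exact hcor k X (Or.inr (mem_blA k3)) a ha
  · obtain ⟨N, hN⟩ : ∃ N, i + n = j + N + 1 := ⟨i + n - j - 1, by omega⟩
    have hs := arB_seg h j N
    rw [← hN, h.per, h.perP] at hs
    have h0 : M4 (P i) (u i + 4 * σ) = M4 (P i) (u i) := by
      rw [M4_eq, M4_eq, dx_congr (show (u i + 4 * σ) % 4 = u i % 4 by omega),
        dy_congr (show (u i + 4 * σ) % 4 = u i % 4 by omega)]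
    rw [h0, ← hj, ← hi] at hs
    refine close ω e c hc4 hm hinj hs (s := q + σ) ?_ ?_ (arB_nodup h j _ (by omega)) ?_ ?_
    · rw [abs_le]; omega
    · rw [abs_le]; omega
    · intro X hX a ha
      obtain ⟨k, k1, k2, k3⟩ := mem_arB hX
      rcases mem_blB k3 with h1 | h1
      · rw [h1]
        exact hmid _ (fun h0 => M4_ne h (show i < k by omega) (by omega) h0.symm) a ha
      · exact hsite k X h1 a ha
    · intro X hX a ha
      obtain ⟨k, k1, k2, k3⟩ := mem_arB hX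
      rcases mem_blB k3 with h1 | h1
      · exact hcor k X (Or.inl h1) a ha
      · exact hcor k X (Or.inr (Or.inr h1)) a ha

end Vale.Agent.P167.H871
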