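import Vale.Agent.P167.H871.DomE

/-!
Turning of the strands inside and outside a domain of squares enclosed by a lattice polygon.
-/

namespace Vale.Agent.P167.H871

open Finset
open Vale.Agent.P167.Top
open Vale.Agent.P167.E6 (IsPolygon Encloses dir face)

theorem sqL_next' (s : ℤ × ℤ) (d : ℤ) : sqL (s + vec d) (d + 1) = sqL s d := by
  unfold sqL vec
  rcases head_cases d with ⟨a, b, c⟩ | ⟨a, b, c⟩ | ⟨a, b, c⟩ | ⟨a, b, c⟩ <;> rw [b, c]
  · rw [if_pos (by omega), if_neg (by omega), if_neg (by omega), if_neg (by omega)]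
    ext <;> simp
  · rw [if_pos (by omega), if_pos (by omega), if_pos (by omega), if_neg (by omega)]
    ext <;> simp
  · rw [if_neg (by omega), if_pos (by omega), if_pos (by omega), if_pos (by omega)]
    ext <;> simp
  · rw [if_neg (by omega), if_neg (by omega), if_neg (by omega), if_pos (by omega)]
    ext <;> simp

theorem M4_rev (s : ℤ × ℤ) (d : ℤ) : M4 (s + vec d) (d + 2) = M4 s d := by
  rw [M4_eq, M4_eq]
  unfold vec
  rcases head_cases d with ⟨a, b, c⟩ | ⟨a, b, c⟩ | ⟨a, b, c⟩ | ⟨a, b, c⟩ <;>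
    rcases head_cases (d + 2) with ⟨a', b', c'⟩ | ⟨a', b', c'⟩ | ⟨a', b', c'⟩ | ⟨a', b', c'⟩ <;>
    first
    | (exfalso; omega)
    | (rw [b, c, b', c']; ext <;> simp only [Prod.fst_add, Prod.snd_add] <;> omega)

theorem M4_congr {s : ℤ × ℤ} {d d' : ℤ} (h : d % 4 = d' % 4) : M4 s d = M4 s d' := by
  rw [M4_eq, M4_eq, dx_congr h, dy_congr h]

variable {n : ℕ}

theorem Bd.perN {D : Set (ℤ × ℤ)} {P : ℕ → ℤ × ℤ} {u : ℕ → ℤ} {σ : ℤ} (h : Bd D n P u σ)
    (k q : ℕ) : u (k + n * q) = u k + 4 * σ * q ∧ P (k + n * q) = P k := by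
  induction q with
  | zero => simp
  | succ q ih =>
    rw [show k + n * (q + 1) = k + n * q + n by ring, h.per, h.perP, ih.1, ih.2]
    refine ⟨?_, rfl⟩
    push_cast; ring

/-- The boundary in the other direction, with the complement of `D` on the left. -/
theorem Bd.rev {D : Set (ℤ × ℤ)} {P : ℕ → ℤ × ℤ} {u : ℕ → ℤ} {σ : ℤ} (h : Bd D n P u σ)
    (hn : 0 < n) :
    Bd Dᶜ n (fun k => P ((n - 1) * (k + 1) + 1))
      (fun k => u ((n - 1) * (k + 1)) - 4 * σ * (k + 1) + 2) (-σ) := by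
  have ha : ∀ k, (n - 1) * (k + 1 + 1) + 1 = (n - 1) * (k + 1) + n := fun k => by
    rw [show (n - 1) * (k + 1 + 1) = (n - 1) * (k + 1) + (n - 1) by ring]; omega
  have hmod : ∀ k : ℕ, ∀ x : ℤ, (x - 4 * σ * ((k : ℤ) + 1) + 2) % 4 = (x + 2) % 4 := fun k x => by
    rw [mul_assoc]; omega
  have hv : ∀ d : ℤ, vec (d + 2) = -vec d := fun d => by
    unfold vec
    rcases head_cases d with ⟨a, b, c⟩ | ⟨a, b, c⟩ | ⟨a, b, c⟩ | ⟨a, b, c⟩ <;>
      rcases head_cases (d + 2) with ⟨a', b', c'⟩ | ⟨a', b', c'⟩ | ⟨a', b', c'⟩ | ⟨a', b', c'⟩ <;>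
      first
      | (exfalso; omega)
      | (rw [b, c, b', c']; simp)
  refine ⟨fun k => ?_, fun k => ?_, fun k => ?_, fun k => ?_, fun k l hkl hl => ?_, fun k => ?_,
    fun k => ?_⟩
  · try simp only
    rw [ha, h.perP, vec_congr (hmod k _), hv]
    have := h.step ((n - 1) * (k + 1))
    rw [this]
    abel
  · try simp only
    have h1 := h.per ((n - 1) * (k + 1))
    have h2 := h.turn ((n - 1) * (k + 1 + 1))
    rw [ha, h1] at h2
    rw [abs_le] at h2 ⊢
    push_cast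
    constructor <;> linarith [h2.1, h2.2]
  · try simp only
    have h1 := (h.perN ((n - 1) * (k + 1)) (n - 1)).1
    rw [show (n - 1) * (k + n + 1) = (n - 1) * (k + 1) + n * (n - 1) by ring, h1,
      Nat.cast_sub (by omega : 1 ≤ n)]
    push_cast
    ring
  · try simp only
    rw [show (n - 1) * (k + n + 1) + 1 = (n - 1) * (k + 1) + 1 + n * (n - 1) by ring]
    exact (h.perN _ _).2
  · try simp only
    obtain ⟨t, rfl⟩ : ∃ t, l = k + t := ⟨l - k, by omega⟩
    intro he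
    have h1 := (h.perN ((n - 1) * (k + 1) + 1) t).2
    have h2 : (n - 1) * (k + 1) + 1 + n * t = ((n - 1) * (k + t + 1) + 1) + t := by
      obtain ⟨n', rfl⟩ : ∃ n', n = n' + 1 := ⟨n - 1, by omega⟩
      simp only [Nat.add_sub_cancel]
      ring
    rw [h2] at h1
    exact h.inj ((n - 1) * (k + t + 1) + 1) (((n - 1) * (k + t + 1) + 1) + t) (by omega) (by omega)
      (he.symm.trans h1.symm)
  · try simp only
    rw [Set.mem_compl_iff, sqL_congr (hmod k _), h.step, sqL_congr (show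
      (u ((n - 1) * (k + 1)) + 2) % 4 = (u ((n - 1) * (k + 1)) - 2) % 4 by omega), sqL_next]
    exact h.right _
  · try simp only
    rw [Set.mem_compl_iff, not_not, h.step, sqL_congr (show
      (u ((n - 1) * (k + 1)) - 4 * σ * ((k : ℤ) + 1) + 2 - 1) % 4 =
        (u ((n - 1) * (k + 1)) + 1) % 4 by rw [mul_assoc]; omega), sqL_next']
    exact h.left _

variable {p : ZMod n → ℤ × ℤ} {D : Finset (ℤ × ℤ)}

theorem exists_fin (d : ℤ) : ∃ r : Fin 4, (((r.val : ℕ) : ℤ)) % 4 = d % 4 :=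
  ⟨⟨(d % 4).toNat, by omega⟩, by simp only; omega⟩

/-- Every boundary step is a step of the polygon. -/
theorem cross_step (hp : IsPolygon p) (he : Encloses p D) {u : ℕ → ℤ}
    (hu : Bd (D : Set (ℤ × ℤ)) n (fun k => p (k : ZMod n)) u 1) {v : ℤ × ℤ} {d : ℤ}
    (h1 : sqL v d ∈ D) (h2 : sqL v (d - 1) ∉ D) :
    ∃ k < n, p (k : ZMod n) = v ∧ u k % 4 = d % 4 := by
  have hn0 : NeZero n := ⟨by have := hp.1; omega⟩
  obtain ⟨r, hr⟩ := exists_fin d
  obtain ⟨i, hi, hi'⟩ := (he v r).2 ⟨by rw [face_eq, sqL_congr hr]; exact h1, by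
    rw [face_pred, sqL_congr (show ((((r.val : ℕ) : ℤ)) - 1) % 4 = (d - 1) % 4 by omega)]
    exact h2⟩
  have hk0 : ((ZMod.val i : ℕ) : ZMod n) = i := ZMod.natCast_zmod_val i
  refine ⟨ZMod.val i, ZMod.val_lt i, by rw [hk0, hi], ?_⟩
  have h3 := hu.step (ZMod.val i)
  try simp only at h3
  rw [Nat.cast_succ, hk0, hi', hi] at h3
  have h4 := add_left_cancel h3
  rw [← vec_fin] at h4
  rw [← hr]
  have h5 := congrArg Prod.fst h4
  have h6 := congrArg Prod.snd h4
  unfold vec at h5 h6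
  simp only at h5 h6
  rcases head_cases (((r.val : ℕ) : ℤ)) with ⟨a, b, c⟩ | ⟨a, b, c⟩ | ⟨a, b, c⟩ | ⟨a, b, c⟩ <;>
    rcases head_cases (u (ZMod.val i)) with ⟨a', b', c'⟩ | ⟨a', b', c'⟩ | ⟨a', b', c'⟩ |
      ⟨a', b', c'⟩ <;> rw [b, b'] at h5 <;> rw [c, c'] at h6 <;> omega

/-- The squares of a medial edge in terms of a site and a direction. -/
theorem exists_side (g : Ed) : ∃ (v : ℤ × ℤ) (d : ℤ), P4 g = M4 v d ∧ hdv g = sqL v d ∧
    tlv g = sqL v (d - 1) := by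
  refine ⟨ls g, hd4 g - 1, ?_, ?_, ?_⟩
  · rw [M4_eq]
    unfold P4
    rcases g with ⟨x, y⟩ | ⟨x, y⟩ <;> by_cases h : Even (x + y) <;>
      simp [me, ls, hd4, dx, dy, h] <;> ring_nf <;> trivial
  · rcases g with ⟨x, y⟩ | ⟨x, y⟩ <;> by_cases h : Even (x + y) <;>
      simp [hdv, ls, hd4, sqL, h]
  · rcases g with ⟨x, y⟩ | ⟨x, y⟩ <;> by_cases h : Even (x + y) <;>
      simp [tlv, ls, hd4, sqL, h]

/-- Every medial edge on the boundary of `D` crosses a step of the polygon. -/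
theorem bd_cross (hp : IsPolygon p) (he : Encloses p D) {u : ℕ → ℤ}
    (hu : Bd (D : Set (ℤ × ℤ)) n (fun k => p (k : ZMod n)) u 1) {g : Ed}
    (hg : ¬ (hdv g ∈ D ↔ tlv g ∈ D)) :
    ∃ k < n, P4 g = M4 (p (k : ZMod n)) (u k) := by
  obtain ⟨v, d, h1, h2, h3⟩ := exists_side g
  by_cases h : hdv g ∈ D
  · have h' : tlv g ∉ D := fun h'' => hg ⟨fun _ => h'', fun _ => h⟩
    rw [h2] at h
    rw [h3] at h'
    obtain ⟨k, hk, h4, h5⟩ := cross_step hp he hu h h'
    exact ⟨k, hk, by rw [h1, h4, M4_congr h5]⟩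
  · have h' : tlv g ∈ D := by
      by_contra h''
      exact hg ⟨fun h0 => absurd h0 h, fun h0 => absurd h0 h''⟩
    rw [h2] at h
    rw [h3] at h'
    have e1 : sqL (v + vec d) (d + 2) = sqL v (d - 1) := by
      rw [sqL_congr (show (d + 2) % 4 = (d - 2) % 4 by omega), sqL_next]
    have e2 : sqL (v + vec d) (d + 2 - 1) = sqL v d := by
      rw [show d + 2 - 1 = d + 1 by ring, sqL_next']
    obtain ⟨k, hk, h4, h5⟩ := cross_step hp he hu (v := v + vec d) (d := d + 2) (e1 ▸ h')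
      (e2 ▸ h)
    exact ⟨k, hk, by rw [h1, h4, M4_congr h5, M4_rev]⟩

/-- **Turning of the strands of `D`**: entering through the step `i`, leaving through the step `j`. -/
theorem strand_turn {u : ℕ → ℤ} (hu : Bd (D : Set (ℤ × ℤ)) n (fun k => p (k : ZMod n)) u 1)
    {ω : Cfg} {e : Ed} {m i j : ℕ} (hm : 1 ≤ m) (hin : i < n) (hjn : j < n)
    (hi : P4 e = M4 (p (i : ZMod n)) (u i))
    (hj : P4 ((nx ω)^[m] e) = M4 (p (j : ZMod n)) (u j))
    (hD : ∀ k < m, hdv ((nx ω)^[k] e) ∈ D) (ht : tlv e ∉ D) (hh : hdv ((nx ω)^[m] e) ∉ D) :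
    i ≠ j ∧ ∑ k ∈ range m, trn ω ((nx ω)^[k] e) = u j - u i + (if i < j then -2 else 2) := by
  have hT : dl ω e m - hd4 e = ∑ k ∈ range m, trn ω ((nx ω)^[k] e) := by
    unfold dl; ring
  rcases lt_trichotomy i j with h | h | h
  · refine ⟨h.ne, ?_⟩
    obtain ⟨q, h1, h2, h3⟩ := dom_turn hu hm h (by omega) hi hj hD ht hh
    rw [if_pos h, ← hT, h1]
    omega
  · exfalso
    subst h
    have h0 : (nx ω)^[m] e = e := P4_inj (hj.trans hi.symm)
    rw [h0] at hh
    exact hh (hD 0 (by omega))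
  · refine ⟨h.ne', ?_⟩
    have h5 := hu.per j
    obtain ⟨q, h1, h2, h3⟩ := dom_turn hu hm (show i < j + n by omega) (by omega) hi
      (by rw [hj]; simp only [h5, Nat.cast_add, ZMod.natCast_self, add_zero]
          exact M4_congr (by omega)) hD ht hh
    rw [if_neg (by omega), ← hT, h1, h5]
    omega

/-- **Turning of the strands outside `D`**: leaving `D` through the step `i`, entering through the
step `j`. -/
theorem ext_turn {u : ℕ → ℤ} (hn : 0 < n)
    (hu : Bd (D : Set (ℤ × ℤ)) n (fun k => p (k : ZMod n)) u 1)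
    {ω : Cfg} {e : Ed} {m i j : ℕ} (hm : 1 ≤ m) (hin : i < n) (hjn : j < n)
    (hi : P4 e = M4 (p (i : ZMod n)) (u i))
    (hj : P4 ((nx ω)^[m] e) = M4 (p (j : ZMod n)) (u j))
    (hD : ∀ k < m, hdv ((nx ω)^[k] e) ∉ D) (ht : tlv e ∈ D) (hh : hdv ((nx ω)^[m] e) ∈ D) :
    i ≠ j ∧ (∑ k ∈ range m, trn ω ((nx ω)^[k] e) = u j - u i + (if i < j then 2 else -2) ∨
      ∑ k ∈ range m, trn ω ((nx ω)^[k] e) = u j - u i + (if i < j then -6 else 6)) := by
  have hT : dl ω e m - hd4 e = ∑ k ∈ range m, trn ω ((nx ω)^[k] e) := by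
    unfold dl; ring
  have hr := hu.rev hn
  have hidx : ∀ a < n, (n - 1) * (n - 1 - a + 1) = a + n * (n - 1 - a) := by
    intro a ha
    obtain ⟨b, rfl⟩ : ∃ b, n = a + b + 1 := ⟨n - 1 - a, by omega⟩
    rw [show a + b + 1 - 1 - a = b by omega, show a + b + 1 - 1 = a + b by omega]
    ring
  have hU : ∀ a < n, (u ((n - 1) * (n - 1 - a + 1)) - 4 * 1 * (((n - 1 - a : ℕ) : ℤ) + 1) + 2 : ℤ)
      = u a - 2 := by
    intro a ha
    have := (hu.perN a (n - 1 - a)).1
    rw [hidx a ha, this]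
    ring
  have hM : ∀ a < n, M4 (p (((n - 1) * (n - 1 - a + 1) + 1 : ℕ) : ZMod n))
      (u ((n - 1) * (n - 1 - a + 1)) - 4 * 1 * (((n - 1 - a : ℕ) : ℤ) + 1) + 2) =
      M4 (p (a : ZMod n)) (u a) := by
    intro a ha
    rw [hU a ha, hidx a ha]
    have h1 := (hu.perN (a + 1) (n - 1 - a)).2
    try simp only at h1
    rw [show a + n * (n - 1 - a) + 1 = a + 1 + n * (n - 1 - a) by ring, h1]
    have h2 := hu.step a
    try simp only at h2
    rw [h2, ← M4_rev (p (a : ZMod n)) (u a)]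
    exact M4_congr (by omega)
  rcases lt_trichotomy i j with h | h | h
  · refine ⟨h.ne, ?_⟩
    have h5 := hr.per (n - 1 - j)
    have h6 := hr.perP (n - 1 - j)
    obtain ⟨q, h1, h2, h3⟩ := dom_turn hr hm (show n - 1 - i < n - 1 - j + n by omega) (by omega)
      (by rw [hi]; exact (hM i hin).symm)
      (by
        rw [h5, h6, hj]
        try simp only
        rw [← hM j hjn]
        exact M4_congr (by omega)) hD (fun h' => h' ht) (fun h' => h' hh)
    rw [h5] at h1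
    try simp only at h1
    rw [hU i hin, hU j hjn] at h1
    rw [if_pos h, if_pos h, ← hT, h1]
    omega
  · exfalso
    subst h
    have h0 : (nx ω)^[m] e = e := P4_inj (hj.trans hi.symm)
    rw [h0] at hh
    exact hD 0 (by omega) hh
  · refine ⟨h.ne', ?_⟩
    obtain ⟨q, h1, h2, h3⟩ := dom_turn hr hm (show n - 1 - i < n - 1 - j by omega) (by omega)
      (by rw [hi]; exact (hM i hin).symm)
      (by rw [hj]; exact (hM j hjn).symm) hD (fun h' => h' ht) (fun h' => h' hh)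
    try simp only at h1
    rw [hU i hin, hU j hjn] at h1
    rw [if_neg (by omega), if_neg (by omega), ← hT, h1]
    omega

end Vale.Agent.P167.H871
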