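import Vale.Agent.P167.H871.WindL
import Vale.Agent.P167.H871.Dom2

/-!
Turning of the strands of a domain, with the winding functions of the two closed curves.
-/

namespace Vale.Agent.P167.H871

open Finset
open Vale.Agent.P167.Top

variable {D : Set (ℤ × ℤ)} {n : ℕ} {P : ℕ → ℤ × ℤ} {u : ℕ → ℤ} {σ : ℤ}

/-- **Turning of a strand of `D`**, with winding functions. -/
theorem dom_wind (h : Bd D n P u σ) {ω : Cfg} {e : Ed} {m i j : ℕ} (hm : 1 ≤ m) (hij : i < j)
    (hjn : j < i + n) (hi : P4 e = M4 (P i) (u i)) (hj : P4 ((nx ω)^[m] e) = M4 (P j) (u j))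
    (hin : ∀ k < m, hdv ((nx ω)^[k] e) ∈ D) (ht : tlv e ∉ D) (hh : hdv ((nx ω)^[m] e) ∉ D) :
    ∃ q c : ℤ, c % 4 = 0 ∧ dl ω e m - hd4 e = u j - u i - 2 + 4 * q ∧
      (∃ WA, WF (gam ω e c m ++ arA P u i (j - i)) (q - 1) WA) ∧
      ∃ WB, WF (gam ω e c m ++ arB P u j (i + n - j)) (q + σ) WB := by
  -- the headings of the end edges
  have a1 : hd4 e % 4 = (u i + 1) % 4 := by
    rcases side hi with ⟨h1, _, _⟩ | ⟨_, h2, _⟩
    · exact h1
    · exact absurd (h2 ▸ hin 0 (by omega)) (h.right i)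
  have a2 : hd4 ((nx ω)^[m] e) % 4 = (u j - 1) % 4 := by
    rcases side hj with ⟨_, h2, _⟩ | ⟨h1, _, _⟩
    · exact absurd (h2 ▸ h.left j) hh
    · exact h1
  have a3 : dl ω e m % 4 = (u j - 1) % 4 := by rw [dl_mod]; exact a2
  set c : ℤ := u j - 1 - dl ω e m with hc
  have hc4 : c % 4 = 0 := by omega
  have ht1 : ∀ k, 1 ≤ k → k ≤ m → tlv ((nx ω)^[k] e) ∈ D := by
    intro k h1 h2
    obtain ⟨k', rfl⟩ : ∃ k', k = k' + 1 := ⟨k - 1, by omega⟩
    rw [Function.iterate_succ_apply', tlv_nx]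
    exact hin k' (by omega)
  have hinj : ∀ a b, a ≤ m → b ≤ m → (nx ω)^[a] e = (nx ω)^[b] e → a = b := by
    have key : ∀ a b, a < b → b ≤ m → (nx ω)^[a] e ≠ (nx ω)^[b] e := by
      intro a b hab hb he
      have h1 : (nx ω)^[b - a] e = e := by
        apply ((s_nx ω).injective.iterate a)
        rw [← Function.iterate_add_apply, show a + (b - a) = b by omega, he]
      exact ht (h1 ▸ ht1 (b - a) (by omega) (by omega))
    intro a b ha hb he
    rcases lt_trichotomy a b with h1 | h1 | h1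
    · exact absurd he (key a b h1 hb)
    · exact h1
    · exact absurd he.symm (key b a h1 ha)
  -- midpoints of the boundary are not visited
  have hmid : ∀ k, (∀ h0 : M4 (P k) (u k) = M4 (P i) (u i), False) →
      ∀ a < m, M4 (P k) (u k) ≠ P4 ((nx ω)^[a] e) := by
    intro k h0 a ha he
    rcases Nat.eq_zero_or_pos a with rfl | ha'
    · exact h0 (he.trans hi)
    · have h1 := hin a ha
      have h2 := ht1 a ha' ha.le
      rcases side he.symm with ⟨_, _, h3⟩ | ⟨_, h3, _⟩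
      · exact h.right k (h3 ▸ h2)
      · exact h.right k (h3 ▸ h1)
  have hcor : ∀ k X, (X = M4 (P k) (u k) ∨ X = M4 (P (k + 1)) (u (k + 1)) ∨ X = S4 (P (k + 1)) ∨
      X = S4 (P (k + 1)) + dv (u k - 2) ∨ X = S4 (P (k + 1)) + dv (u (k + 1) - 1)) →
      ∀ a < m, X ≠ cor ω e c a := by
    intro k X hX a ha he
    have ho := cor_odd ω e c a
    have hq : sqc X = hdv ((nx ω)^[a] e) := by rw [he, sqc_cor ω e hc4]
    rw [← he] at ho
    rcases hX with rfl | rfl | rfl | rfl | rfl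
    · have := isMid_M4 (P k) (u k); unfold IsMid at this; omega
    · have := isMid_M4 (P (k + 1)) (u (k + 1)); unfold IsMid at this; omega
    · unfold S4 at ho; simp only at ho; omega
    · rw [sqc_site, h.step k, sqL_next] at hq
      exact h.right k (hq ▸ hin a ha)
    · rw [sqc_site] at hq
      exact h.right (k + 1) (hq ▸ hin a ha)
  have hsite : ∀ k X, (X = S4 (P (k + 1)) ∨ X = S4 (P (k + 1)) + dv (u k - 2) ∨
      X = S4 (P (k + 1)) + dv (u (k + 1) - 1)) → ∀ a < m, X ≠ P4 ((nx ω)^[a] e) := by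
    intro k X hX a _ he
    exact (cls hX).1 (he ▸ isMid_P4 _)
  have b0 : Dg ω e c 0 = c + hd4 e ∨ Dg ω e c 0 = c + hd4 e - 1 := by
    have h1 := dl_succ ω e 0
    have h2 := trn_cases ω ((nx ω)^[0] e)
    have h3 : dl ω e 0 = hd4 e := by simp [dl]
    unfold Dg
    rw [h3] at h1 ⊢
    simp only [zero_add] at h1 ⊢
    omega
  have b1 : Dg ω e c (m - 1) = u j - 1 ∨ Dg ω e c (m - 1) = u j - 2 := by
    have h1 := dl_succ ω e (m - 1)
    have h2 := trn_cases ω ((nx ω)^[m - 1] e)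
    rw [show m - 1 + 1 = m by omega] at h1
    unfold Dg
    rw [show m - 1 + 1 = m by omega]
    omega
  obtain ⟨q, hq⟩ : ∃ q : ℤ, c + hd4 e = u i + 1 - 4 * q := ⟨(u i + 1 - (c + hd4 e)) / 4, by omega⟩
  refine ⟨q, c, hc4, by omega, ?_, ?_⟩
  · obtain ⟨N, rfl⟩ : ∃ N, j = i + N + 1 := ⟨j - i - 1, by omega⟩
    have hs := arA_seg h i N
    rw [← hj, ← hi] at hs
    rw [show i + N + 1 - i = N + 1 by omega]
    refine close_wind ω e c hc4 hm hinj hs (s := q - 1) ?_ ?_ (arA_nodup h i _ (by omega)) ?_ ?_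
    · rw [abs_le]; omega
    · rw [abs_le]; omega
    · intro X hX a ha
      obtain ⟨k, k1, k2, k3⟩ := mem_arA hX
      rcases mem_blA k3 with h1 | h1
      · rw [h1]
        exact hmid _ (fun h0 => M4_ne h (show i < k + 1 by omega) (by omega) h0.symm) a ha
      · exact hsite k X h1 a ha
    · intro X hX a ha
      obtain ⟨k, k1, k2, k3⟩ := mem_arA hX
      exact hcor k X (Or.inr (mem_blA k3)) a ha
  · obtain ⟨N, hN⟩ : ∃ N, i + n = j + N + 1 := ⟨i + n - j - 1, by omega⟩
    have hs := arB_seg h j N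
    rw [← hN, h.per, h.perP] at hs
    have h0 : M4 (P i) (u i + 4 * σ) = M4 (P i) (u i) := by
      rw [M4_eq, M4_eq, dx_congr (show (u i + 4 * σ) % 4 = u i % 4 by omega),
        dy_congr (show (u i + 4 * σ) % 4 = u i % 4 by omega)]
    rw [h0, ← hj, ← hi] at hs
    rw [show i + n - j = N + 1 by omega]
    refine close_wind ω e c hc4 hm hinj hs (s := q + σ) ?_ ?_ (arB_nodup h j _ (by omega)) ?_ ?_
    · rw [abs_le]; omega
    · rw [abs_le]; omega
    · intro X hX a ha
      obtain ⟨k, k1, k2, k3⟩ := mem_arB hX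
      rcases mem_blB k3 with h1 | h1
      · rw [h1]
        exact hmid _ (fun h0 => M4_ne h (show i < k by omega) (by omega) h0.symm) a ha
      · exact hsite k X h1 a ha
    · intro X hX a ha
      obtain ⟨k, k1, k2, k3⟩ := mem_arB hX
      rcases mem_blB k3 with h1 | h1
      · exact hcor k X (Or.inl h1) a ha
      · exact hcor k X (Or.inr (Or.inr h1)) a ha

/-! ### the winding function on the corners of the squares of `D` -/

/-- The odd endpoints of the step are corners of squares which are not in `D`. -/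
def OutP (D : Set (ℤ × ℤ)) (p : (ℤ × ℤ) × ℤ) : Prop :=
  ∀ X, (X = p.1 ∨ X = p.1 + dv p.2) → X.1 % 2 = 1 → sqc X ∉ D

theorem out_bump (h : Bd D n P u σ) (k : ℕ) : sqc (S4 (P (k + 1)) + dv (u k - 2)) ∉ D ∧
    sqc (S4 (P (k + 1)) + dv (u (k + 1) - 1)) ∉ D := by
  rw [sqc_site, sqc_site]
  refine ⟨?_, h.right (k + 1)⟩
  rw [h.step k, sqL_next]
  exact h.right k

theorem even_not (X Y : ℤ × ℤ) (hX : X.1 % 2 = 1) (hY : X = Y) (hE : Y.1 % 2 = 0) : False := by
  rw [hY] at hX; omega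

theorem M4_even (s : ℤ × ℤ) (d : ℤ) : (M4 s d).1 % 2 = 0 := (isMid_M4 s d).1

theorem S4_even (s : ℤ × ℤ) : (S4 s).1 % 2 = 0 := by unfold S4; simp only; omega

/-- Steps of a chain whose points alternate: reduction to the odd points. -/
theorem outP_of_seg {X Y : ℤ × ℤ} {d d' : ℤ} {L : List ((ℤ × ℤ) × ℤ)} (hL : Seg X d L Y d')
    (hY : Y.1 % 2 = 0) (hodd : ∀ Z ∈ L.map Prod.fst, Z.1 % 2 = 1 → sqc Z ∉ D) :
    ∀ p ∈ L, OutP D p := by
  intro p hp Z hZ hZo
  rcases hZ with rfl | rfl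
  · exact hodd _ (List.mem_map_of_mem hp) hZo
  · -- the next point
    obtain ⟨k, hk, hkp⟩ := List.mem_iff_getElem.1 hp
    rcases Nat.lt_or_ge (k + 1) L.length with h1 | h1
    · have h2 := (List.isChain_iff_getElem.1 hL.chain) k h1
      rw [hkp] at h2
      rw [← h2.1] at hZo ⊢
      exact hodd _ (List.mem_map_of_mem (List.getElem_mem _)) hZo
    · exfalso
      obtain ⟨Q, hQ, hQ'⟩ := hL.last
      have h3 : L.getLast? = some p := by
        rw [List.getLast?_eq_getElem?, List.getElem?_eq_getElem (by omega)]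
        congr 1
        rw [← hkp]
        congr 1
        omega
      rw [h3] at hQ
      have h4 := Option.some.inj hQ
      rw [h4] at hZo
      simp only at hZo
      rw [← hQ'] at hZo
      omega

theorem outP_arA (h : Bd D n P u σ) (i N : ℕ) : ∀ p ∈ arA P u i N, OutP D p := by
  rcases Nat.eq_zero_or_pos N with rfl | hN
  · intro p hp; simp [arA] at hp
  obtain ⟨N, rfl⟩ : ∃ N', N = N' + 1 := ⟨N - 1, by omega⟩
  refine outP_of_seg (arA_seg h i N) (M4_even _ _) fun Z hZ hZo => ?_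
  obtain ⟨k, _, _, h1⟩ := mem_arA hZ
  rcases mem_blA h1 with h2 | h2 | h2 | h2
  · exact (even_not _ _ hZo h2 (M4_even _ _)).elim
  · exact (even_not _ _ hZo h2 (S4_even _)).elim
  · rw [h2]; exact (out_bump h k).1
  · rw [h2]; exact (out_bump h k).2

theorem outP_arB (h : Bd D n P u σ) (j N : ℕ) : ∀ p ∈ arB P u j N, OutP D p := by
  rcases Nat.eq_zero_or_pos N with rfl | hN
  · intro p hp; simp [arB] at hp
  obtain ⟨N, rfl⟩ : ∃ N', N = N' + 1 := ⟨N - 1, by omega⟩
  refine outP_of_seg (arB_seg h j N) (M4_even _ _) fun Z hZ hZo => ?_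
  obtain ⟨k, _, _, h1⟩ := mem_arB hZ
  rcases mem_blB h1 with h2 | h2 | h2 | h2
  · exact (even_not _ _ hZo h2 (M4_even _ _)).elim
  · exact (even_not _ _ hZo h2 (S4_even _)).elim
  · rw [h2]; exact (out_bump h k).1
  · rw [h2]; exact (out_bump h k).2

/-- The steps of a piece of the interface. -/
theorem gam_step {ω : Cfg} {e : Ed} {c : ℤ} (hc : c % 4 = 0) {m : ℕ} {p : (ℤ × ℤ) × ℤ}
    (hp : p ∈ gam ω e c m) : ∃ a < m, (p.1 = cor ω e c a ∧ IsMid (p.1 + dv p.2)) ∨
      (p.1 + dv p.2 = cor ω e c a ∧ IsMid p.1) := by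
  induction m with
  | zero => simp [gam] at hp
  | succ m ih =>
    rw [gam, List.mem_append] at hp
    rcases hp with hp | hp
    · obtain ⟨a, ha, h⟩ := ih hp
      exact ⟨a, by omega, h⟩
    · refine ⟨m, by omega, ?_⟩
      simp only [List.mem_cons, List.not_mem_nil, or_false] at hp
      rcases hp with rfl | rfl
      · right
        exact ⟨rfl, P4_par _⟩
      · left
        refine ⟨rfl, ?_⟩
        have h1 := P4_step ω e c hc m
        unfold cor
        simp only
        rw [← h1]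
        exact P4_par _

end Vale.Agent.P167.H871
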