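import Vale.Agent.P167.H871.Ray

/-!
Turning of the strands from a straight wall to the next one at a hole (straight, convex corner or
reflex corner). The hole is at the site `z`; the first wall is on the line which arrives at `z` in the
direction `u` (before `z`), the second one on the line which leaves `z` in the direction `u'` (after
`z`), `|u' - u| ≤ 1`; the domain is on the left.
-/

namespace Vale.Agent.P167.H871

open Finset
open Vale.Agent.P167.Top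

/-- The site `z` in the coordinates of the midpoints `me`. -/
def M2 (z : ℤ × ℤ) : ℤ × ℤ := (2 * z.1 - 1, 2 * z.2 - 1)

/-- The point at distance `τ` from the site `z` in the direction `d`. -/
def pw (z : ℤ × ℤ) (d τ : ℤ) : ℤ × ℤ := ((M2 z).1 + τ * dx d, (M2 z).2 + τ * dy d)

theorem dxy_two (d : ℤ) : dx (d + 2) = -dx d ∧ dy (d + 2) = -dy d := by
  rcases head_cases d with ⟨a, b, c⟩ | ⟨a, b, c⟩ | ⟨a, b, c⟩ | ⟨a, b, c⟩ <;>
    rcases head_cases (d + 2) with ⟨a', b', c'⟩ | ⟨a', b', c'⟩ | ⟨a', b', c'⟩ | ⟨a', b', c'⟩ <;>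
    omega

variable {ω : Cfg} {e : Ed} {n : ℕ} {z : ℤ × ℤ} {u u' σ τ : ℤ}

/-- **From the first wall to the second one.** -/
theorem hole_AB (hn : 1 ≤ n) (hu : |u' - u| ≤ 1) (hσ : 0 < σ) (hτ : 0 < τ)
    (he : me e = pw z u (-σ)) (hf : me ((nx ω)^[n] e) = pw z u' τ)
    (hA : ∀ i, 1 ≤ i → i < n → ∀ σ', σ ≤ σ' → me ((nx ω)^[i] e) ≠ pw z u (-σ'))
    (hB : ∀ i, 1 ≤ i → i < n → ∀ τ', τ ≤ τ' → me ((nx ω)^[i] e) ≠ pw z u' τ')
    {α β : ℤ} (hα : (α = 0 ∧ hd4 e % 4 = (u + 1) % 4) ∨ (α = 2 ∧ hd4 e % 4 = (u - 1) % 4))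
    (hβ : (β = 0 ∧ hd4 ((nx ω)^[n] e) % 4 = (u' - 1) % 4) ∨
      (β = 2 ∧ hd4 ((nx ω)^[n] e) % 4 = (u' + 1) % 4)) :
    ∑ k ∈ range n, trn ω ((nx ω)^[k] e) = u' - u - 2 + α + β := by
  have hu' := abs_le.1 hu
  have d2 := dxy_two u
  have d2' := dxy_two u'
  -- the chord
  obtain ⟨q, s, t, hs, ht, q1, q2, q3, q4, q5, hx, hy⟩ : ∃ q s t : ℤ, 0 < s ∧ 0 ≤ t ∧ u + 2 ≤ q ∧
      q ≤ u + 2 + 3 ∧ u' + 2 ≤ q ∧ q ≤ u' + 2 + 3 ∧ (t = 0 → u + 2 < q ∧ u' + 2 < q) ∧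
      σ * dx u + τ * dx u' = s * dx q + t * dx (q + 1) ∧
      σ * dy u + τ * dy u' = s * dy q + t * dy (q + 1) := by
    rcases (by omega : u' = u - 1 ∨ u' = u ∨ u' = u + 1) with rfl | rfl | rfl
    · refine ⟨u + 3, τ, σ, hτ, hσ.le, by omega, by omega, by omega, by omega, by omega, ?_, ?_⟩
      · rw [dx_congr (show (u + 3) % 4 = (u - 1) % 4 by omega),
          dx_congr (show (u + 3 + 1) % 4 = u % 4 by omega)]
        ring
      · rw [dy_congr (show (u + 3) % 4 = (u - 1) % 4 by omega),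
          dy_congr (show (u + 3 + 1) % 4 = u % 4 by omega)]
        ring
    · refine ⟨u' + 4, σ + τ, 0, by omega, le_rfl, by omega, by omega, by omega, by omega,
        by omega, ?_, ?_⟩
      · rw [dx_congr (show (u' + 4) % 4 = u' % 4 by omega)]
        ring
      · rw [dy_congr (show (u' + 4) % 4 = u' % 4 by omega)]
        ring
    · refine ⟨u + 4, σ, τ, hσ, hτ.le, by omega, by omega, by omega, by omega, by omega, ?_, ?_⟩
      · rw [dx_congr (show (u + 4) % 4 = u % 4 by omega),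
          dx_congr (show (u + 4 + 1) % 4 = (u + 1) % 4 by omega)]
      · rw [dy_congr (show (u + 4) % 4 = u % 4 by omega),
          dy_congr (show (u + 4 + 1) % 4 = (u + 1) % 4 by omega)]
  have hM0 : Mp ω e 0 = pw z u (-σ) := he
  have hMn : Mp ω e n = pw z u' τ := hf
  have hch : Mp ω e n - Mp ω e 0 =
      (s * dx q + t * dx (q + 1), s * dy q + t * dy (q + 1)) := by
    rw [hM0, hMn, ← hx, ← hy]
    unfold pw
    ext <;> simp only [Prod.fst_sub, Prod.snd_sub] <;> ring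
  -- the chord is not on the rays
  have hnr : ∀ a : ℤ, a ≤ q → q ≤ a + 3 → (t = 0 → a < q) → ∀ ρ : ℤ, 0 ≤ ρ →
      ¬ (s * dx q + t * dx (q + 1) = ρ * dx a ∧ s * dy q + t * dy (q + 1) = ρ * dy a) := by
    intro a h1 h2 h3 ρ hρ h4
    have g1 := Gr_quad h1 h2 hs ht h3
    rcases dx_cases q with ⟨h, c1, c2, c3, c4⟩ | ⟨h, c1, c2, c3, c4⟩ | ⟨h, c1, c2, c3, c4⟩ |
      ⟨h, c1, c2, c3, c4⟩ <;> rw [c1, c2, c3, c4] at h4 <;>
      rcases head_cases a with ⟨k, k1, k2⟩ | ⟨k, k1, k2⟩ | ⟨k, k1, k2⟩ | ⟨k, k1, k2⟩ <;>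
      rw [k1, k2] at h4 <;> simp only [mul_one, mul_zero, add_zero, zero_add, mul_neg] at h4 <;>
      clear g1 <;> omega
  have main := two_ray (ω := ω) (e := e) hn (a := u + 2) (b := u' + 2) (q := q) (s := s) (t := t)
    (α := u + 5 - α) (β := u' + 3 + β) ?_ ?_ hch hs ht q1 q2 q3 q4 q5 (by omega) (by omega)
    (by omega) (by omega)
  · rw [main]; ring
  · rintro i h1 h2 ⟨ρ, hρ, hr⟩
    rcases Nat.lt_or_ge i n with h3 | h3
    · apply hA i h1 h3 (σ + ρ) (by omega)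
      have : Mp ω e i = Mp ω e 0 + (ρ * dx (u + 2), ρ * dy (u + 2)) := by rw [← hr]; abel
      change Mp ω e i = _
      rw [this, hM0, d2.1, d2.2]
      unfold pw
      ext <;> simp only [Prod.fst_add, Prod.snd_add] <;> ring
    · have : i = n := by omega
      subst this
      rw [hch] at hr
      exact hnr (u + 2) q1 q2 (fun h => (q5 h).1) ρ hρ
        ⟨congrArg Prod.fst hr, congrArg Prod.snd hr⟩
  · rintro i h1 ⟨ρ, hρ, hr⟩
    rcases Nat.eq_zero_or_pos i with h3 | h3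
    · subst h3
      rw [hch] at hr
      exact hnr (u' + 2) q3 q4 (fun h => (q5 h).2) ρ hρ
        ⟨congrArg Prod.fst hr, congrArg Prod.snd hr⟩
    · apply hB i h3 h1 (τ + ρ) (by omega)
      have : Mp ω e i = Mp ω e n - (ρ * dx (u' + 2), ρ * dy (u' + 2)) := by rw [← hr]; abel
      change Mp ω e i = _
      rw [this, hMn, d2'.1, d2'.2]
      unfold pw
      ext <;> simp only [Prod.fst_sub, Prod.snd_sub] <;> ring

/-- **From the second wall to the first one.** -/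
theorem hole_BA (hn : 1 ≤ n) (hu : |u' - u| ≤ 1) (hσ : 0 < σ) (hτ : 0 < τ)
    (he : me e = pw z u' τ) (hf : me ((nx ω)^[n] e) = pw z u (-σ))
    (hA : ∀ i, 1 ≤ i → i < n → ∀ σ', σ ≤ σ' → me ((nx ω)^[i] e) ≠ pw z u (-σ'))
    (hB : ∀ i, 1 ≤ i → i < n → ∀ τ', τ ≤ τ' → me ((nx ω)^[i] e) ≠ pw z u' τ')
    {α β : ℤ} (hα : (α = 0 ∧ hd4 e % 4 = (u' + 1) % 4) ∨ (α = 2 ∧ hd4 e % 4 = (u' - 1) % 4))
    (hβ : (β = 0 ∧ hd4 ((nx ω)^[n] e) % 4 = (u - 1) % 4) ∨
      (β = 2 ∧ hd4 ((nx ω)^[n] e) % 4 = (u + 1) % 4)) :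
    ∑ k ∈ range n, trn ω ((nx ω)^[k] e) = u - u' + 2 - α - β := by
  have hu' := abs_le.1 hu
  have d2 := dxy_two u
  have d2' := dxy_two u'
  obtain ⟨q, s, t, hs, ht, q1, q2, q3, q4, q5, hx, hy⟩ : ∃ q s t : ℤ, 0 < s ∧ 0 ≤ t ∧ u' ≤ q ∧
      q ≤ u' + 3 ∧ u ≤ q ∧ q ≤ u + 3 ∧ (t = 0 → u' < q ∧ u < q) ∧
      -σ * dx u - τ * dx u' = s * dx q + t * dx (q + 1) ∧
      -σ * dy u - τ * dy u' = s * dy q + t * dy (q + 1) := by
    rcases (by omega : u' = u - 1 ∨ u' = u ∨ u' = u + 1) with rfl | rfl | rfl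
    · refine ⟨u + 1, τ, σ, hτ, hσ.le, by omega, by omega, by omega, by omega, by omega, ?_, ?_⟩
      · have h1 := (dxy_two (u - 1)).1
        rw [show u - 1 + 2 = u + 1 by ring] at h1
        rw [h1, show u + 1 + 1 = u + 2 by ring, d2.1]
        ring
      · have h1 := (dxy_two (u - 1)).2
        rw [show u - 1 + 2 = u + 1 by ring] at h1
        rw [h1, show u + 1 + 1 = u + 2 by ring, d2.2]
        ring
    · refine ⟨u' + 2, σ + τ, 0, by omega, le_rfl, by omega, by omega, by omega, by omega,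
        by omega, ?_, ?_⟩
      · rw [d2.1]; ring
      · rw [d2.2]; ring
    · refine ⟨u + 2, σ, τ, hσ, hτ.le, by omega, by omega, by omega, by omega, by omega, ?_, ?_⟩
      · rw [d2.1, show u + 2 + 1 = u + 1 + 2 by ring, d2'.1]
        ring
      · rw [d2.2, show u + 2 + 1 = u + 1 + 2 by ring, d2'.2]
        ring
  have hM0 : Mp ω e 0 = pw z u' τ := he
  have hMn : Mp ω e n = pw z u (-σ) := hf
  have hch : Mp ω e n - Mp ω e 0 =
      (s * dx q + t * dx (q + 1), s * dy q + t * dy (q + 1)) := by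
    rw [hM0, hMn, ← hx, ← hy]
    unfold pw
    ext <;> simp only [Prod.fst_sub, Prod.snd_sub] <;> ring
  have hnr : ∀ a : ℤ, a ≤ q → q ≤ a + 3 → (t = 0 → a < q) → ∀ ρ : ℤ, 0 ≤ ρ →
      ¬ (s * dx q + t * dx (q + 1) = ρ * dx a ∧ s * dy q + t * dy (q + 1) = ρ * dy a) := by
    intro a h1 h2 h3 ρ hρ h4
    rcases dx_cases q with ⟨h, c1, c2, c3, c4⟩ | ⟨h, c1, c2, c3, c4⟩ | ⟨h, c1, c2, c3, c4⟩ |
      ⟨h, c1, c2, c3, c4⟩ <;> rw [c1, c2, c3, c4] at h4 <;>
      rcases head_cases a with ⟨k, k1, k2⟩ | ⟨k, k1, k2⟩ | ⟨k, k1, k2⟩ | ⟨k, k1, k2⟩ <;>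
      rw [k1, k2] at h4 <;> simp only [mul_one, mul_zero, add_zero, zero_add, mul_neg] at h4 <;>
      omega
  have main := two_ray (ω := ω) (e := e) hn (a := u') (b := u) (q := q) (s := s) (t := t)
    (α := u' + 1 + α) (β := u + 3 - β) ?_ ?_ hch hs ht q1 q2 q3 q4 q5 (by omega) (by omega)
    (by omega) (by omega)
  · rw [main]; ring
  · rintro i h1 h2 ⟨ρ, hρ, hr⟩
    rcases Nat.lt_or_ge i n with h3 | h3
    · apply hB i h1 h3 (τ + ρ) (by omega)
      have : Mp ω e i = Mp ω e 0 + (ρ * dx u', ρ * dy u') := by rw [← hr]; abel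
      change Mp ω e i = _
      rw [this, hM0]
      unfold pw
      ext <;> simp only [Prod.fst_add, Prod.snd_add] <;> ring
    · have : i = n := by omega
      subst this
      rw [hch] at hr
      exact hnr u' q1 q2 (fun h => (q5 h).1) ρ hρ
        ⟨congrArg Prod.fst hr, congrArg Prod.snd hr⟩
  · rintro i h1 ⟨ρ, hρ, hr⟩
    rcases Nat.eq_zero_or_pos i with h3 | h3
    · subst h3
      rw [hch] at hr
      exact hnr u q3 q4 (fun h => (q5 h).2) ρ hρ
        ⟨congrArg Prod.fst hr, congrArg Prod.snd hr⟩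
    · apply hA i h3 h1 (σ + ρ) (by omega)
      have : Mp ω e i = Mp ω e n - (ρ * dx u, ρ * dy u) := by rw [← hr]; abel
      change Mp ω e i = _
      rw [this, hMn]
      unfold pw
      ext <;> simp only [Prod.fst_sub, Prod.snd_sub] <;> ring

end Vale.Agent.P167.H871
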