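import Vale.Agent.P167.Top.Head

/-!
The Umlaufsatz for closed paths of diagonal steps, with lifted directions, in list form.
-/

namespace Vale.Agent.P167.H871

open Finset
open Vale.Agent.P167.Top

/-- The diagonal step of the direction `d` (angle `(d + 1/2)` right angles). -/
def dv (d : ℤ) : ℤ × ℤ := (dx d + dx (d + 1), dy d + dy (d + 1))

theorem dx_cases (d : ℤ) : (d % 4 = 0 ∧ dx d = 1 ∧ dy d = 0 ∧ dx (d + 1) = 0 ∧ dy (d + 1) = 1) ∨
    (d % 4 = 1 ∧ dx d = 0 ∧ dy d = 1 ∧ dx (d + 1) = -1 ∧ dy (d + 1) = 0) ∨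
    (d % 4 = 2 ∧ dx d = -1 ∧ dy d = 0 ∧ dx (d + 1) = 0 ∧ dy (d + 1) = -1) ∨
    (d % 4 = 3 ∧ dx d = 0 ∧ dy d = -1 ∧ dx (d + 1) = 1 ∧ dy (d + 1) = 0) := by
  unfold dx dy
  rcases (by omega : d % 4 = 0 ∨ d % 4 = 1 ∨ d % 4 = 2 ∨ d % 4 = 3) with h | h | h | h
  · have h1 : (d + 1) % 4 = 1 := by omega
    simp [h, h1]
  · have h1 : (d + 1) % 4 = 2 := by omega
    simp [h, h1]
  · have h1 : (d + 1) % 4 = 3 := by omega
    simp [h, h1]
  · have h1 : (d + 1) % 4 = 0 := by omega
    simp [h, h1]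

theorem dv_cases (d : ℤ) : (d % 4 = 0 ∧ dv d = (1, 1)) ∨ (d % 4 = 1 ∧ dv d = (-1, 1)) ∨
    (d % 4 = 2 ∧ dv d = (-1, -1)) ∨ (d % 4 = 3 ∧ dv d = (1, -1)) := by
  unfold dv
  rcases dx_cases d with ⟨h, a, b, c, e⟩ | ⟨h, a, b, c, e⟩ | ⟨h, a, b, c, e⟩ | ⟨h, a, b, c, e⟩ <;>
    simp [h, a, b, c, e]

theorem diag_dv (d : ℤ) : Diag (dv d) := by
  unfold Diag
  rcases dv_cases d with ⟨_, h⟩ | ⟨_, h⟩ | ⟨_, h⟩ | ⟨_, h⟩ <;> simp [h]

theorem dv_inj {d d' : ℤ} (h : dv d = dv d') : d % 4 = d' % 4 := by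
  rcases dv_cases d with ⟨a, b⟩ | ⟨a, b⟩ | ⟨a, b⟩ | ⟨a, b⟩ <;>
    rcases dv_cases d' with ⟨a', b'⟩ | ⟨a', b'⟩ | ⟨a', b'⟩ | ⟨a', b'⟩ <;>
    rw [b, b'] at h <;> rw [Prod.mk.injEq] at h <;> omega

theorem dv_add_two (d : ℤ) : dv (d + 2) = -dv d := by
  rcases dv_cases d with ⟨a, b⟩ | ⟨a, b⟩ | ⟨a, b⟩ | ⟨a, b⟩ <;>
    rcases dv_cases (d + 2) with ⟨a', b'⟩ | ⟨a', b'⟩ | ⟨a', b'⟩ | ⟨a', b'⟩ <;>
    first
    | (exfalso; omega)
    | (rw [b, b']; rfl)

theorem dv_congr {d d' : ℤ} (h : d % 4 = d' % 4) : dv d = dv d' := by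
  unfold dv
  rw [dx_congr h, dy_congr h, dx_congr (by omega : (d + 1) % 4 = (d' + 1) % 4),
    dy_congr (by omega : (d + 1) % 4 = (d' + 1) % 4)]

/-- A path of diagonal steps with lifted directions. -/
structure DPath (M : ℕ → ℤ × ℤ) (D : ℕ → ℤ) : Prop where
  step : ∀ i, M (i + 1) = M i + dv (D i)
  turn : ∀ i, |D (i + 1) - D i| ≤ 1

theorem DPath.kd_eq {M : ℕ → ℤ × ℤ} {D : ℕ → ℤ} (h : DPath M D) (i : ℕ) :
    kd M i = D (i + 1) / 4 - D i / 4 := by
  have e1 : sec M i (i + 1) = dv (D i) := by simp [sec, h.step i]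
  have e2 : sec M (i + 1) (i + 1 + 1) = dv (D (i + 1)) := by simp [sec, h.step (i + 1)]
  have e3 : sec M i (i + 1 + 1) = dv (D i) + dv (D (i + 1)) := by
    simp only [sec, h.step (i + 1), h.step i]; abel
  unfold kd
  rw [e1, e2, e3]
  have ht := abs_le.1 (h.turn i)
  unfold kap
  rcases dv_cases (D i) with ⟨a, b⟩ | ⟨a, b⟩ | ⟨a, b⟩ | ⟨a, b⟩ <;>
    rcases dv_cases (D (i + 1)) with ⟨a', b'⟩ | ⟨a', b'⟩ | ⟨a', b'⟩ | ⟨a', b'⟩ <;>
    first
    | (exfalso; omega)
    | (rw [b, b']; norm_num; omega)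

theorem DPath.shift {M : ℕ → ℤ × ℤ} {D : ℕ → ℤ} (h : DPath M D) (k : ℕ) :
    DPath (fun i => M (i + k)) (fun i => D (i + k)) := by
  refine ⟨fun i => ?_, fun i => ?_⟩
  · have := h.step (i + k)
    rwa [show i + k + 1 = i + 1 + k by ring] at this
  · have := h.turn (i + k)
    rwa [show i + k + 1 = i + 1 + k by ring] at this

/-- **Umlaufsatz** for simple closed paths of diagonal steps. -/
theorem DPath.closed {M : ℕ → ℤ × ℤ} {D : ℕ → ℤ} (h : DPath M D) {n : ℕ} (hn : 3 ≤ n)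
    (hP : ∀ i, M (i + n) = M i) (h0 : ∀ k, 1 ≤ k → k < n → ∀ i, M (i + k) ≠ M i) :
    D n - D 0 = 4 ∨ D n - D 0 = -4 := by
  have hmod : ∀ i, D (i + n) % 4 = D i % 4 := by
    intro i
    apply dv_inj
    have h1 := h.step (i + n)
    have h2 := h.step i
    rw [show i + n + 1 = i + 1 + n by ring, hP, hP, h2] at h1
    exact (add_left_cancel h1).symm
  have hconst : ∀ i, D (i + n) - D i = D n - D 0 := by
    intro i
    induction i with
    | zero => simp
    | succ i ih =>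
      have a := hmod i
      have b := hmod (i + 1)
      have c := abs_le.1 (h.turn i)
      have d := abs_le.1 (h.turn (i + n))
      rw [show i + n + 1 = i + 1 + n by ring] at d
      omega
  have hM : ∀ i, M (i % n) = M i := by
    intro i
    have : ∀ q r, M (r + n * q) = M r := by
      intro q
      induction q with
      | zero => simp
      | succ q ih => intro r; rw [show r + n * (q + 1) = r + n * q + n by ring, hP, ih]
    conv_rhs => rw [← Nat.mod_add_div i n]
    rw [this]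
  obtain ⟨k, _, hmin⟩ := Finset.exists_min_image (range n)
    (fun i => toLex ((M i).2, (M i).1)) ⟨0, by rw [Finset.mem_range]; omega⟩
  have hlow : ∀ i, (M k).2 < (M i).2 ∨ (M k).2 = (M i).2 ∧ (M k).1 ≤ (M i).1 := by
    intro i
    have h1 := hmin (i % n) (Finset.mem_range.mpr (Nat.mod_lt _ (by omega)))
    rw [Prod.Lex.toLex_le_toLex, hM] at h1
    exact h1
  have hs := h.shift k
  have hD : ∀ i, Diag (M (i + 1 + k) - M (i + k)) := by
    intro i
    have h5 : M (i + 1 + k) = M (i + k) + dv (D (i + k)) := hs.step i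
    rw [h5, add_sub_cancel_left]
    exact diag_dv _
  obtain ⟨hsum, hy1, hyn, hxn⟩ := S_closed (M := fun i => M (i + k)) hD hn
    (fun i => by
      show M (i + n + k) = M (i + k)
      rw [show i + n + k = i + k + n by ring, hP])
    (fun j hj hj' i => by
      show M (i + j + k) ≠ M (i + k)
      rw [show i + j + k = i + k + j by ring]; exact h0 j hj hj' _)
    (fun i => by simp only [zero_add]; exact hlow (i + k))
  have htel : ∀ m, ∑ i ∈ range m, kd (fun i => M (i + k)) i = D (m + k) / 4 - D k / 4 := by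
    intro m
    induction m with
    | zero => simp
    | succ m ih =>
      rw [Finset.sum_range_succ, ih, hs.kd_eq]
      ring
  rw [htel] at hsum
  have h1 := hmod k
  have h2 := hconst k
  rw [show k + n = n + k by ring] at h1 h2
  have h3 := hD 0
  simp only [zero_add] at h3 hsum
  unfold Diag at h3
  rcases h3.1 with h3 | h3 <;> [left; right] <;> omega

/-- Consecutive elements of a list of points with directions. -/
def Rl (a b : (ℤ × ℤ) × ℤ) : Prop := b.1 = a.1 + dv a.2 ∧ |b.2 - a.2| ≤ 1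

/-- **Umlaufsatz, list form.** -/
theorem hopf_list (L : List ((ℤ × ℤ) × ℤ)) (s : ℤ) (hlen : 3 ≤ L.length)
    (hc : ∀ i, ∀ (h : i + 1 < L.length), Rl L[i] L[i + 1])
    (hcl : (L[0]'(by omega)).1 = (L[L.length - 1]'(by omega)).1 + dv (L[L.length - 1]'(by omega)).2 ∧
      |(L[0]'(by omega)).2 + 4 * s - (L[L.length - 1]'(by omega)).2| ≤ 1)
    (hnd : (L.map Prod.fst).Nodup) : s = 1 ∨ s = -1 := by
  set n := L.length with hn
  have hn0 : 0 < n := by omega
  have hmod : ∀ i : ℕ, i % n < n := fun i => Nat.mod_lt _ hn0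
  let M : ℕ → ℤ × ℤ := fun i => (L[i % n]'(hmod i)).1
  let D : ℕ → ℤ := fun i => (L[i % n]'(hmod i)).2 + 4 * s * ((i / n : ℕ) : ℤ)
  have hstep : DPath M D := by
    have hcase : ∀ i : ℕ, (i % n + 1 < n ∧ (i + 1) % n = i % n + 1 ∧ (i + 1) / n = i / n) ∨
        (i % n = n - 1 ∧ (i + 1) % n = 0 ∧ (i + 1) / n = i / n + 1) := by
      intro i
      rcases Nat.lt_or_ge (i % n + 1) n with h | h
      · left
        refine ⟨h, ?_, ?_⟩
        · rw [Nat.add_mod, Nat.mod_eq_of_lt (show 1 < n by omega), Nat.mod_eq_of_lt h]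
        · rw [Nat.add_div hn0, Nat.mod_eq_of_lt (show 1 < n by omega),
            Nat.div_eq_of_lt (show 1 < n by omega), if_neg (by omega)]
          omega
      · right
        have h' := hmod i
        refine ⟨by omega, ?_, ?_⟩
        · rw [Nat.add_mod, Nat.mod_eq_of_lt (show 1 < n by omega),
            show i % n + 1 = n by omega, Nat.mod_self]
        · rw [Nat.add_div hn0, Nat.mod_eq_of_lt (show 1 < n by omega),
            Nat.div_eq_of_lt (show 1 < n by omega), if_pos (by omega)]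
    refine ⟨fun i => ?_, fun i => ?_⟩
    · simp only [M, D]
      have hdv : dv ((L[i % n]'(hmod i)).2 + 4 * s * ((i / n : ℕ) : ℤ)) =
          dv (L[i % n]'(hmod i)).2 := dv_congr (by
        rw [mul_assoc]; omega)
      rw [hdv]
      rcases hcase i with ⟨h1, h2, _⟩ | ⟨h1, h2, _⟩
      · have := (hc (i % n) h1).1
        simp only [h2]
        exact this
      · simp only [h1, h2]
        exact hcl.1
    · simp only [D]
      rcases hcase i with ⟨h1, h2, h3⟩ | ⟨h1, h2, h3⟩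
      · have := (hc (i % n) h1).2
        simp only [h2, h3]
        rw [add_sub_add_right_eq_sub]
        exact this
      · simp only [h1, h2, h3]
        have := hcl.2
        push_cast
        convert this using 2
        ring
  have h0 : ∀ k, 1 ≤ k → k < n → ∀ i, M (i + k) ≠ M i := by
    intro k hk1 hk2 i h
    simp only [M] at h
    have h1 : (L.map Prod.fst)[(i + k) % n]'(by rw [List.length_map]; exact hmod _) =
        (L.map Prod.fst)[i % n]'(by rw [List.length_map]; exact hmod _) := by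
      simp only [List.getElem_map]
      exact h
    have h2 := (List.Nodup.getElem_inj_iff hnd).1 h1
    have h3 : (i + k) % n = (i % n + k) % n := by rw [Nat.mod_add_mod]
    rw [h3] at h2
    have h4 := hmod i
    rcases Nat.lt_or_ge (i % n + k) n with h5 | h5
    · rw [Nat.mod_eq_of_lt h5] at h2; omega
    · rw [Nat.mod_eq_sub_mod h5, Nat.mod_eq_of_lt (by omega)] at h2; omega
  have hP : ∀ i, M (i + n) = M i := by
    intro i
    simp only [M, Nat.add_mod_right]
  have hfin := hstep.closed hlen hP h0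
  simp only [D, Nat.mod_self, Nat.div_self hn0, Nat.zero_mod, Nat.zero_div] at hfin
  push_cast at hfin
  omega

end Vale.Agent.P167.H871
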