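import Vale.Agent.P167.Top.Turn

/-!
Turning of a piece of the interface whose two end edges are vertical edges at the same height, in
terms of the signed numbers of passages through this height to the right of the first and to the left
of the last edge.
-/

namespace Vale.Agent.P167.H871

open Finset
open Vale.Agent.P167.Top

variable {ω : Cfg} {e : Ed} {n : ℕ}

/-- Signed passage of the `i`-th edge through the height `Y` (`0` if it is not a vertical edge at this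
height). -/
def psg (ω : Cfg) (e : Ed) (Y : ℤ) (i : ℕ) : ℤ :=
  if (me ((nx ω)^[i] e)).2 = Y then dy (hd4 ((nx ω)^[i] e)) else 0

/-- The path of the midpoints. -/
def Mp (ω : Cfg) (e : Ed) (i : ℕ) : ℤ × ℤ := me ((nx ω)^[i] e)

theorem Mp_step (i : ℕ) : (Mp ω e (i + 1)).1 - (Mp ω e i).1 = dx (dl ω e i) + dx (dl ω e (i + 1)) ∧
    (Mp ω e (i + 1)).2 - (Mp ω e i).2 = dy (dl ω e i) + dy (dl ω e (i + 1)) := by
  have h := mid_step (isPath ω e) i
  rw [mid_eq, mid_eq] at h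
  exact ⟨congrArg Prod.fst h, congrArg Prod.snd h⟩

theorem dl_step (i : ℕ) : dl ω e (i + 1) = dl ω e i + 1 ∨ dl ω e (i + 1) = dl ω e i - 1 := by
  exact (isPath ω e).turn i

theorem me_odd (e : Ed) : ((me e).1 % 2 = 1 ∧ (me e).2 % 2 = 0 ∧ (hd4 e = 0 ∨ hd4 e = 2)) ∨
    ((me e).1 % 2 = 0 ∧ (me e).2 % 2 = 1 ∧ (hd4 e = 1 ∨ hd4 e = 3)) := by
  rcases e with ⟨x, y⟩ | ⟨x, y⟩ <;> simp only [me, hd4] <;> split_ifs <;> simp

theorem hd4_dl (i : ℕ) : hd4 ((nx ω)^[i] e) % 4 = dl ω e i % 4 := (dl_mod ω e i).symm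

theorem dy_hd4 (i : ℕ) : dy (hd4 ((nx ω)^[i] e)) = dy (dl ω e i) := dy_congr (hd4_dl i)

/-- Heights of two successive midpoints. -/
theorem vstep (ω : Cfg) (e : Ed) (i : ℕ) :
    ((Mp ω e i).2 % 2 = 1 ∧ (dy (dl ω e i) = 1 ∨ dy (dl ω e i) = -1) ∧ dy (dl ω e (i + 1)) = 0 ∧
      (Mp ω e (i + 1)).2 = (Mp ω e i).2 + dy (dl ω e i)) ∨
    ((Mp ω e i).2 % 2 = 0 ∧ dy (dl ω e i) = 0 ∧
      (dy (dl ω e (i + 1)) = 1 ∨ dy (dl ω e (i + 1)) = -1) ∧
      (Mp ω e (i + 1)).2 = (Mp ω e i).2 + dy (dl ω e (i + 1))) := by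
  have h5 := (Mp_step (ω := ω) (e := e) i).2
  have h8 := dl_step (ω := ω) (e := e) i
  have h10 := me_odd ((nx ω)^[i] e)
  have h11 := hd4_dl (ω := ω) (e := e) i
  have h12 : (Mp ω e i).2 = (me ((nx ω)^[i] e)).2 := rfl
  have h6 := head_cases (dl ω e i)
  have h7 := head_cases (dl ω e (i + 1))
  rcases h10 with ⟨_, b, c⟩ | ⟨_, b, c⟩
  · right
    rw [← h12] at b
    rcases h6 with ⟨d, _, f⟩ | ⟨d, _, f⟩ | ⟨d, _, f⟩ | ⟨d, _, f⟩ <;>
      rcases h7 with ⟨d', _, f'⟩ | ⟨d', _, f'⟩ | ⟨d', _, f'⟩ | ⟨d', _, f'⟩ <;>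
      refine ⟨b, ?_, ?_, ?_⟩ <;> omega
  · left
    rw [← h12] at b
    rcases h6 with ⟨d, _, f⟩ | ⟨d, _, f⟩ | ⟨d, _, f⟩ | ⟨d, _, f⟩ <;>
      rcases h7 with ⟨d', _, f'⟩ | ⟨d', _, f'⟩ | ⟨d', _, f'⟩ | ⟨d', _, f'⟩ <;>
      refine ⟨b, ?_, ?_, ?_⟩ <;> omega

theorem kstep1 (x0 Y x y x' y' v v' : ℤ) (hY : Y % 2 = 1)
    (h : (y % 2 = 1 ∧ (v = 1 ∨ v = -1) ∧ v' = 0 ∧ y' = y + v) ∨
      (y % 2 = 0 ∧ v = 0 ∧ (v' = 1 ∨ v' = -1) ∧ y' = y + v')) :
    kap (x - x0, y - Y) (x' - x0, y' - Y) = (if x0 < x' ∧ y' = Y ∧ v' = 1 then 1 else 0) -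
      (if x0 < x ∧ y = Y ∧ v = -1 then 1 else 0) := by
  unfold kap
  simp only
  congr 1
  · apply if_congr _ rfl rfl
    omega
  · apply if_congr _ rfl rfl
    omega

theorem kstep2 (xn Y x y x' y' v v' : ℤ) (hY : Y % 2 = 1)
    (h : (y % 2 = 1 ∧ (v = 1 ∨ v = -1) ∧ v' = 0 ∧ y' = y + v) ∨
      (y % 2 = 0 ∧ v = 0 ∧ (v' = 1 ∨ v' = -1) ∧ y' = y + v')) :
    kap (xn - x, Y - y) (xn - x', Y - y') = (if x' < xn ∧ y' = Y ∧ v' = -1 then 1 else 0) -
      (if x < xn ∧ y = Y ∧ v = 1 then 1 else 0) := by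
  unfold kap
  simp only
  congr 1
  · apply if_congr _ rfl rfl
    omega
  · apply if_congr _ rfl rfl
    omega

theorem pm1 (p : Prop) [Decidable p] (Y y v : ℤ) (hY : Y % 2 = 1)
    (h : (y % 2 = 1 ∧ (v = 1 ∨ v = -1)) ∨ (y % 2 = 0 ∧ v = 0)) :
    (if p ∧ y = Y ∧ v = 1 then (1 : ℤ) else 0) - (if p ∧ y = Y ∧ v = -1 then 1 else 0) =
      if p then (if y = Y then v else 0) else 0 := by
  by_cases hp : p
  · simp only [hp, true_and, if_true]
    split_ifs <;> omega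
  · simp [hp]

theorem Ioo_succ (k : ℕ) : Ioo 0 (k + 1 + 1) = insert (k + 1) (Ioo 0 (k + 1)) := by
  ext x; simp only [mem_insert, mem_Ioo]; omega

/-- The crossings of the right ray from the first point. -/
theorem ray1 (ω : Cfg) (e : Ed) {Y : ℤ} (hY : Y % 2 = 1) (h0 : (Mp ω e 0).2 = Y) (k : ℕ) :
    ∑ j ∈ range k, kap (sec (Mp ω e) 0 (j + 1)) (sec (Mp ω e) 0 (j + 1 + 1)) =
      (∑ i ∈ Ioo 0 (k + 1), if (Mp ω e 0).1 < (Mp ω e i).1 then psg ω e Y i else 0) +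
        (if (Mp ω e 0).1 < (Mp ω e (k + 1)).1 ∧ (Mp ω e (k + 1)).2 = Y ∧
          dy (dl ω e (k + 1)) = 1 then 1 else 0) := by
  induction k with
  | zero =>
    have h := vstep ω e 0
    rw [range_zero, sum_empty, zero_add, show Ioo 0 1 = (∅ : Finset ℕ) from rfl, sum_empty,
      zero_add, if_neg]
    simp only [zero_add] at h
    rintro ⟨_, h1, h2⟩
    omega
  | succ k ih =>
    rw [Finset.sum_range_succ, ih, Ioo_succ, Finset.sum_insert (by simp)]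
    have h := vstep ω e (k + 1)
    have h2 := kstep1 (Mp ω e 0).1 Y (Mp ω e (k + 1)).1 _ (Mp ω e (k + 1 + 1)).1 _ _ _ hY h
    have h3 : kap (sec (Mp ω e) 0 (k + 1)) (sec (Mp ω e) 0 (k + 1 + 1)) =
        kap ((Mp ω e (k + 1)).1 - (Mp ω e 0).1, (Mp ω e (k + 1)).2 - Y)
          ((Mp ω e (k + 1 + 1)).1 - (Mp ω e 0).1, (Mp ω e (k + 1 + 1)).2 - Y) := by
      rw [← h0]; rfl
    have h4 := pm1 ((Mp ω e 0).1 < (Mp ω e (k + 1)).1) Y (Mp ω e (k + 1)).2 (dy (dl ω e (k + 1))) hY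
      (by rcases h with ⟨a, b, _⟩ | ⟨a, b, _⟩ <;> [left; right] <;> exact ⟨a, b⟩)
    have h5 : psg ω e Y (k + 1) = if (Mp ω e (k + 1)).2 = Y then dy (dl ω e (k + 1)) else 0 := by
      unfold psg
      rw [dy_hd4]
      rfl
    rw [h3, h2, h5, ← h4]
    ring

/-- The crossings of the left ray from the last point. -/
theorem ray2 (ω : Cfg) (e : Ed) {Y : ℤ} (hY : Y % 2 = 1) (h0 : (Mp ω e 0).2 = Y) (N : ℤ × ℤ)
    (hN : N.2 = Y) (k : ℕ) :
    ∑ i ∈ range k, kap (N - Mp ω e i) (N - Mp ω e (i + 1)) =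
      (if (Mp ω e k).1 < N.1 ∧ (Mp ω e k).2 = Y ∧ dy (dl ω e k) = -1 then 1 else 0) -
      ((∑ i ∈ Ioo 0 k, if (Mp ω e i).1 < N.1 then psg ω e Y i else 0) +
        (if (Mp ω e 0).1 < N.1 then
          (if k = 0 then (if dy (dl ω e 0) = -1 then 1 else 0) else
            (if dy (dl ω e 0) = 1 then 1 else 0)) else 0)) := by
  induction k with
  | zero =>
    rw [range_zero, sum_empty, show Ioo 0 0 = (∅ : Finset ℕ) from rfl, sum_empty, zero_add]
    simp only [h0, if_true, true_and]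
    split_ifs <;> simp_all
  | succ k ih =>
    rw [Finset.sum_range_succ, ih]
    have h := vstep ω e k
    have h2 := kstep2 N.1 Y (Mp ω e k).1 _ (Mp ω e (k + 1)).1 _ _ _ hY h
    have h3 : kap (N - Mp ω e k) (N - Mp ω e (k + 1)) =
        kap (N.1 - (Mp ω e k).1, Y - (Mp ω e k).2)
          (N.1 - (Mp ω e (k + 1)).1, Y - (Mp ω e (k + 1)).2) := by
      rw [← hN]; rfl
    rw [h3, h2]
    rcases Nat.eq_zero_or_pos k with rfl | hk
    · rw [show Ioo 0 (0 + 1) = (∅ : Finset ℕ) from rfl, show Ioo 0 0 = (∅ : Finset ℕ) from rfl]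
      simp only [sum_empty, h0, true_and, zero_add, if_true, one_ne_zero, if_false]
      split_ifs <;> simp_all
    · obtain ⟨j, rfl⟩ : ∃ j, k = j + 1 := ⟨k - 1, by omega⟩
      rw [Ioo_succ, Finset.sum_insert (by simp)]
      have h4 := pm1 ((Mp ω e (j + 1)).1 < N.1) Y (Mp ω e (j + 1)).2 (dy (dl ω e (j + 1))) hY
        (by rcases h with ⟨a, b, _⟩ | ⟨a, b, _⟩ <;> [left; right] <;> exact ⟨a, b⟩)
      have h5 : psg ω e Y (j + 1) = if (Mp ω e (j + 1)).2 = Y then dy (dl ω e (j + 1)) else 0 := by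
        unfold psg
        rw [dy_hd4]
        rfl
      rw [h5, ← h4, if_neg (by omega : ¬ j + 1 = 0), if_neg (by omega : ¬ j + 1 + 1 = 0)]
      ring

theorem min_div {x y z : ℤ} (h : y = x + 1 ∨ y = x - 1) (h1 : z % 4 = y % 4) (h2 : z = 1 ∨ z = 3) :
    min x y / 4 = (y - z) / 4 := by omega

theorem min_div' {x y : ℤ} (h : y = x + 1 ∨ y = x - 1) (h2 : x = 1 ∨ x = 3) :
    min x y / 4 = 0 := by omega

theorem line_fin (NR NL T z y : ℤ) (p : Prop) [Decidable p] (hy : y = 1 ∨ y = 3)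
    (hz : z = 1 ∨ z = 3) (hT : (T - z) % 4 = 0)
    (ht : (T - z) / 4 - 0 = (NR + if p ∧ (if z = 1 then (1 : ℤ) else -1) = 1 then 1 else 0) +
      (0 - (NL + if p then (if (if y = 1 then (1 : ℤ) else -1) = 1 then 1 else 0) else 0))) :
    T = z + 4 * (NR - NL + (if p then (if z = 1 then 1 else 0) - (if y = 1 then 1 else 0) else 0)) := by
  by_cases hp : p <;> rcases hy with rfl | rfl <;> rcases hz with rfl | rfl <;>
    simp [hp] at ht ⊢ <;> omega

/-- The turning of a piece between two vertical edges at the same height `Y` (odd). -/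
theorem line_turn {Y : ℤ} (hn : 2 ≤ n) (hY : Y % 2 = 1) (h0 : (me e).2 = Y)
    (h1 : (me ((nx ω)^[n] e)).2 = Y) (hne : ∀ k, 1 ≤ k → k ≤ n → (nx ω)^[k] e ≠ e) :
    dl ω e n = hd4 ((nx ω)^[n] e) + 4 * (
      (∑ i ∈ Ioo 0 n, if (Mp ω e 0).1 < (Mp ω e i).1 then psg ω e Y i else 0) -
      (∑ i ∈ Ioo 0 n, if (Mp ω e i).1 < (Mp ω e n).1 then psg ω e Y i else 0) +
      (if (Mp ω e 0).1 < (Mp ω e n).1 then
        (if hd4 ((nx ω)^[n] e) = 1 then 1 else 0) - (if hd4 e = 1 then 1 else 0) else 0)) := by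
  have hD : ∀ i, Diag (Mp ω e (i + 1) - Mp ω e i) := by
    intro i
    have := diag_mid (isPath ω e) i
    rw [mid_eq, mid_eq] at this
    exact this
  have hinj : ∀ i j, i < j → j ≤ n + 1 → (i, j) ≠ (0, n + 1) → Mp ω e j ≠ Mp ω e i := by
    intro i j hij hj hne' h
    have h2 := me_injective h
    have h3 : (nx ω)^[j] e = (nx ω)^[i] ((nx ω)^[j - i] e) := by
      rw [← Function.iterate_add_apply, show i + (j - i) = j by omega]
    rw [h3] at h2
    have h4 := ((s_nx ω).injective.iterate i) h2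
    rcases Nat.lt_or_ge n (j - i) with h5 | h5
    · apply hne'
      ext <;> simp <;> omega
    · exact hne _ (by omega) h5 h4
  obtain ⟨m, rfl⟩ : ∃ m, n = m + 1 := ⟨n - 1, by omega⟩
  have ht := triangle hD hinj m (by omega)
  have hk : ∑ i ∈ range m, kd (Mp ω e) i =
      min (dl ω e m) (dl ω e (m + 1)) / 4 - min (dl ω e 0) (dl ω e 1) / 4 := by
    have hM : Mp ω e = mid (fun i => tlv ((nx ω)^[i] e)) (dl ω e) := by
      funext i; rw [mid_eq]; rfl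
    rw [hM]
    have : ∀ k, ∑ i ∈ range k, kd (mid (fun i => tlv ((nx ω)^[i] e)) (dl ω e)) i =
        min (dl ω e k) (dl ω e (k + 1)) / 4 - min (dl ω e 0) (dl ω e 1) / 4 := by
      intro k
      induction k with
      | zero => simp
      | succ k ih =>
        rw [Finset.sum_range_succ, ih, kd_eq (isPath ω e)]
        ring
    exact this m
  have e0 : (Mp ω e 0).2 = Y := h0
  have e1 : (Mp ω e (m + 1)).2 = Y := h1
  have k1 := ray1 ω e hY e0 m
  have k2 := ray2 ω e hY e0 (Mp ω e (m + 1)) e1 m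
  have h5 : ∀ i, sec (Mp ω e) i (m + 1) = Mp ω e (m + 1) - Mp ω e i := fun _ => rfl
  simp only [h5] at ht
  rw [hk, k1, k2] at ht
  -- the last but one edge is not at the height `Y`
  have v1 := vstep ω e m
  have hnot : (Mp ω e m).2 ≠ Y := by
    rcases v1 with ⟨_, _, _, d⟩ | ⟨a, _⟩
    · omega
    · omega
  have hz2 : (if (Mp ω e m).1 < (Mp ω e (m + 1)).1 ∧ (Mp ω e m).2 = Y ∧
      dy (dl ω e m) = -1 then (1 : ℤ) else 0) = 0 := if_neg fun h => hnot h.2.1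
  rw [hz2, if_neg (by omega : ¬ m = 0)] at ht
  have hlast : Ioo 0 (m + 1) = insert m (Ioo 0 m) := by
    ext x; simp only [mem_insert, mem_Ioo]; omega
  have hz : psg ω e Y m = 0 := by
    unfold psg
    exact if_neg hnot
  have hsum : (∑ i ∈ Ioo 0 (m + 1), if (Mp ω e i).1 < (Mp ω e (m + 1)).1 then psg ω e Y i else 0) =
      ∑ i ∈ Ioo 0 m, if (Mp ω e i).1 < (Mp ω e (m + 1)).1 then psg ω e Y i else 0 := by
    rw [hlast, Finset.sum_insert (by simp), hz]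
    simp
  rw [hsum]
  have a1 := me_odd e
  have a2 := me_odd ((nx ω)^[m + 1] e)
  have a3 := hd4_dl (ω := ω) (e := e) (m + 1)
  have a4 : dl ω e 0 = hd4 e := by simp [dl]
  have a5 := dl_step (ω := ω) (e := e) 0
  have a6 := dl_step (ω := ω) (e := e) m
  simp only [zero_add] at a5
  have b0 : hd4 e = 1 ∨ hd4 e = 3 := by
    rcases a1 with ⟨_, h, _⟩ | ⟨_, _, h⟩
    · omega
    · exact h
  have b1 : hd4 ((nx ω)^[m + 1] e) = 1 ∨ hd4 ((nx ω)^[m + 1] e) = 3 := by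
    rcases a2 with ⟨_, h, _⟩ | ⟨_, _, h⟩
    · omega
    · exact h
  have c0 : dy (dl ω e 0) = if hd4 e = 1 then 1 else -1 := by
    rw [a4]; rcases b0 with h | h <;> rw [h] <;> simp [dy]
  have c1 : dy (dl ω e (m + 1)) = if hd4 ((nx ω)^[m + 1] e) = 1 then 1 else -1 := by
    rw [← dy_hd4]; rcases b1 with h | h <;> rw [h] <;> simp [dy]
  simp only [e1, true_and] at ht
  rw [c0, c1, a4] at ht
  rw [a4] at a5
  have d0 := min_div' a5 b0
  have d1 := min_div a6 a3 b1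
  rw [d0, d1] at ht
  have hm : (dl ω e (m + 1) - hd4 ((nx ω)^[m + 1] e)) % 4 = 0 := by
    clear * - a3
    omega
  refine line_fin _ _ _ _ _ _ b0 b1 hm ?_
  rw [← ht]

end Vale.Agent.P167.H871
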