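import Vale.Agent.P167.H871.DomW
import Vale.Agent.P167.H871.DomT
import Vale.Agent.P167.H166.Clu

/-!
The winding function of a closed strand on the corners of the squares of the domain.
-/

namespace Vale.Agent.P167.H871

open Finset
open Vale.Agent.P167.Top

theorem stc_aux (x : Ed) (b : Bool) :
    stc (P4 x + dv (hd4 x + (if b = true then -1 else 0))) = if b = true then rs x else ls x := by
  rcases x with ⟨a, c⟩ | ⟨a, c⟩ <;> by_cases hp : Even (a + c) <;> cases b <;>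
    simp [stc, P4, me, hd4, ls, rs, hp, dv, dx, dy] <;> (try constructor) <;> omega

/-- The site around which the interface turns. -/
theorem stc_cor (ω : Cfg) (e : Ed) {c : ℤ} (hc : c % 4 = 0) (i : ℕ) :
    stc (cor ω e c i) = if ω (hdv ((nx ω)^[i] e)) = true then rs ((nx ω)^[i] e)
      else ls ((nx ω)^[i] e) := by
  have h2 := dl_mod ω e i
  have h3 := dl_succ ω e i
  have h5 : dv (Dg ω e c i) = dv (hd4 ((nx ω)^[i] e) +
      (if ω (hdv ((nx ω)^[i] e)) = true then -1 else 0)) := by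
    apply dv_congr
    unfold Dg
    unfold trn at h3
    split_ifs at h3 ⊢ <;> omega
  unfold cor
  rw [h5]
  exact stc_aux _ _

/-- The parity of the site around which the interface turns. -/
theorem stc_par (ω : Cfg) (e : Ed) {c : ℤ} (hc : c % 4 = 0) (i : ℕ) :
    ω (hdv ((nx ω)^[i] e)) ≠
      decide (Even ((stc (cor ω e c i)).1 + (stc (cor ω e c i)).2)) := by
  obtain ⟨-, -, -, -, h1, h2⟩ := H166.corner ((nx ω)^[i] e)
  rw [stc_cor ω e hc]
  cases h : ω (hdv ((nx ω)^[i] e))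
  · rw [if_neg (by simp)]
    intro h'
    have h3 := h'.symm
    rw [decide_eq_false_iff_not, Int.even_iff] at h3
    exact h3 h1
  · rw [if_pos rfl]
    intro h'
    have h3 := h'.symm
    rw [decide_eq_true_eq, Int.even_iff] at h3
    omega

/-- The winding function of a strand in `D` closed outside of `D`. -/
structure SW (D : Set (ℤ × ℤ)) (ω : Cfg) (e : Ed) (m : ℕ) (W : ℤ × ℤ → ℤ) : Prop where
  ex : ∃ (c s : ℤ) (C : List ((ℤ × ℤ) × ℤ)), c % 4 = 0 ∧ WF (gam ω e c m ++ C) s W ∧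
    ∀ p ∈ C, OutP D p

variable {D : Set (ℤ × ℤ)} {ω : Cfg} {e : Ed} {m : ℕ} {W : ℤ × ℤ → ℤ}

/-- The square is not left by the strand through a corner at `s`. -/
def NoCor (ω : Cfg) (e : Ed) (m : ℕ) (v s : ℤ × ℤ) : Prop :=
  ω v = decide (Even (s.1 + s.2)) ∨ ∀ a < m, hdv ((nx ω)^[a] e) ≠ v

theorem cor_ne {c : ℤ} (hc : c % 4 = 0) {v s X : ℤ × ℤ} (h : NoCor ω e m v s) (h1 : sqc X = v)
    (h2 : stc X = s) {a : ℕ} (ha : a < m) : cor ω e c a ≠ X := by
  intro he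
  have h3 := sqc_cor ω e hc a
  have h4 := stc_par ω e hc a
  rw [he, h1] at h3
  rw [he, h2, ← h3] at h4
  rcases h with h | h
  · exact h4 h
  · exact h a ha h3.symm

theorem SW.free (h : SW D ω e m W) {v s X Y : ℤ × ℤ} (hv : v ∈ D) (h1 : sqc X = v)
    (h2 : stc X = s) (hX : X.1 % 2 = 1) (hn : NoCor ω e m v s ∨ ¬ IsMid Y) {z : ℤ × ℤ}
    (hz : (z.1 + z.2) % 2 = 1) {d : ℤ} (hXY : (z + vec d = X ∧ z + vec (d + 1) = Y) ∨
      (z + vec d = Y ∧ z + vec (d + 1) = X)) : W z = W (z + dv d) := by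
  obtain ⟨c, t, C, hc, hW, hC⟩ := h.ex
  apply hW.free z hz d
  intro p hp
  have key : ¬ (p.1 = X ∧ p.1 + dv p.2 = Y) ∧ ¬ (p.1 = Y ∧ p.1 + dv p.2 = X) := by
    have hno : ∀ Z, IsMid Z → Z ≠ X := fun Z hZ he => by
      rw [he] at hZ
      have := hZ.1
      omega
    rcases List.mem_append.1 hp with hp | hp
    · obtain ⟨a, ha, h3⟩ := gam_step hc hp
      rcases hn with hn | hn
      · have h4 := cor_ne hc hn h1 h2 ha
        rcases h3 with ⟨h5, h6⟩ | ⟨h5, h6⟩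
        · exact ⟨fun h7 => h4 (h5.symm.trans h7.1), fun h7 => hno _ h6 h7.2⟩
        · exact ⟨fun h7 => hno _ h6 h7.1, fun h7 => h4 (h5.symm.trans h7.2)⟩
      · rcases h3 with ⟨h5, h6⟩ | ⟨h5, h6⟩
        · exact ⟨fun h7 => hn (h7.2 ▸ h6), fun h7 => hno _ h6 h7.2⟩
        · exact ⟨fun h7 => hno _ h6 h7.1, fun h7 => hn (h7.1 ▸ h6)⟩
    · have h3 := hC p hp X
      constructor
      · rintro ⟨h4, -⟩
        exact h3 (Or.inl h4.symm) hX (h1 ▸ hv)
      · rintro ⟨-, h4⟩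
        exact h3 (Or.inr h4.symm) hX (h1 ▸ hv)
  rcases hXY with ⟨h3, h4⟩ | ⟨h3, h4⟩ <;> rw [h3, h4]
  · exact key
  · exact ⟨key.2, key.1⟩

theorem site_odd (s : ℤ × ℤ) (d : ℤ) : ((S4 s + vec d).1 + (S4 s + vec d).2) % 2 = 1 := by
  have := vpar d
  unfold S4
  simp only [Prod.fst_add, Prod.snd_add]
  omega

theorem S4_add (s : ℤ × ℤ) (d : ℤ) : S4 (s + vec d) = S4 s + (vec d + vec d + (vec d + vec d)) := by
  unfold S4
  ext <;> simp only [Prod.fst_add, Prod.snd_add] <;> ring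

/-- Inside a corner. -/
theorem SW.site (h : SW D ω e m W) {s : ℤ × ℤ} {d : ℤ} (hv : sqL s d ∈ D) :
    W (S4 s + vec d) = W (S4 s + vec (d + 1)) := by
  obtain ⟨v1, v2, v3, -⟩ := vec_nt d
  obtain ⟨w1, w2, w3, -⟩ := vec_nt (d + 1)
  rw [show d + 1 + 1 = d + 2 by ring] at w2
  have h1 := h.free (X := S4 s + dv d) (Y := S4 s) (s := s) hv (sqc_site s d) (stc_site s d)
    (by have := dv_odd d; unfold S4; simp only [Prod.fst_add]; omega)
    (Or.inr (not_isMid_S4 s)) (site_odd s d) (d := d + 1) (Or.inl ⟨by rw [v2]; abel, by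
      rw [show d + 1 + 1 = d + 2 by ring, v1]; abel⟩)
  rw [h1, w2, v1]
  congr 1
  abel

theorem corner_odd (s : ℤ × ℤ) (d : ℤ) : (S4 s + dv d).1 % 2 = 1 := by
  have := dv_odd d
  unfold S4
  simp only [Prod.fst_add]
  omega

theorem add_odd {z w : ℤ × ℤ} (hz : (z.1 + z.2) % 2 = 1) (hw : (w.1 + w.2) % 2 = 0) :
    ((z + w).1 + (z + w).2) % 2 = 1 := by
  simp only [Prod.fst_add, Prod.snd_add]; omega

theorem dv_ev (d : ℤ) : ((dv d).1 + (dv d).2) % 2 = 0 := by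
  have := dv_odd d
  omega

theorem M4_vec (s : ℤ × ℤ) (d : ℤ) : M4 s d = S4 s + vec d + vec d := by
  obtain ⟨v1, v2, v3, -⟩ := vec_nt d
  unfold M4
  rw [v2, v3]
  abel

theorem sqL_diag (s : ℤ × ℤ) (d : ℤ) : sqL (s + vec d + vec (d + 1)) (d + 2) = sqL s d := by
  have h1 := sqL_next' (s + vec d) (d + 1)
  rw [show d + 1 + 1 = d + 2 by ring] at h1
  rw [h1, sqL_next']

/-- Across a square of `D`. -/
theorem SW.cross (h : SW D ω e m W) {s : ℤ × ℤ} {d : ℤ} (hv : sqL s d ∈ D)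
    (h1 : NoCor ω e m (sqL s d) s) (h2 : NoCor ω e m (sqL s d) (s + vec d + vec (d + 1))) :
    W (S4 s + vec d) = W (S4 (s + vec d + vec (d + 1)) - vec (d + 1)) := by
  obtain ⟨v1, v2, v3, -⟩ := vec_nt d
  obtain ⟨w1, w2, w3, -⟩ := vec_nt (d + 1)
  rw [show d + 1 + 1 = d + 2 by ring] at w2
  have o1 := site_odd s d
  have o2 := add_odd o1 (dv_ev d)
  have o3 := add_odd o2 (dv_ev d)
  have a1 := h.free (X := S4 s + dv d) (Y := M4 s d) hv (sqc_site s d) (stc_site s d)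
    (corner_odd s d) (Or.inl h1) o1 (d := d) (Or.inr ⟨by rw [M4_vec], by rw [v2]; abel⟩)
  have a2 := h.free (X := S4 (s + vec d) + dv (d + 1)) (Y := S4 s + dv d + dv d)
    hv ((sqc_site (s + vec d) (d + 1)).trans (sqL_next' s d)) (stc_site _ _)
    (corner_odd _ _) (Or.inr (by
      unfold IsMid S4
      have := dv_odd d
      simp only [Prod.fst_add, Prod.snd_add]
      omega)) o2 (d := d) (Or.inl ⟨by rw [S4_add, w2, v1, v2]; abel, by rw [v2]; abel⟩)
  have e3 : dv (d + 2) = - vec d - vec (d + 1) := by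
    rw [dv_add_two, v2]; abel
  have a3 := h.free (X := S4 (s + vec d + vec (d + 1)) + dv (d + 2)) (Y := M4 (s + vec d) (d + 1))
    hv ((sqc_site (s + vec d + vec (d + 1)) (d + 2)).trans (sqL_diag s d))
    (stc_site _ _) (corner_odd _ _) (Or.inl h2) o3 (d := d)
    (Or.inr ⟨by rw [M4_vec, S4_add, v2]; abel, by rw [S4_add, S4_add, e3, v2]; abel⟩)
  rw [a1, a2, a3, S4_add, S4_add, v2]
  congr 1
  abel

/-- Along the side of a square which is not visited. -/
theorem SW.adj (h : SW D ω e m W) {s : ℤ × ℤ} {d : ℤ} (hv : sqL s d ∈ D)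
    (h1 : NoCor ω e m (sqL s d) s) (h2 : NoCor ω e m (sqL s d) (s + vec d)) :
    W (S4 s + vec d) = W (S4 (s + vec d) - vec d) := by
  obtain ⟨v1, v2, v3, -⟩ := vec_nt d
  obtain ⟨w1, w2, w3, -⟩ := vec_nt (d + 1)
  rw [show d + 1 + 1 = d + 2 by ring] at w2
  have o1 := site_odd s d
  have o2 := add_odd o1 (dv_ev d)
  have a1 := h.free (X := S4 s + dv d) (Y := M4 s d) hv (sqc_site s d) (stc_site s d)
    (corner_odd s d) (Or.inl h1) o1 (d := d) (Or.inr ⟨by rw [M4_vec], by rw [v2]; abel⟩)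
  have w4 : vec (d - 1) = - vec (d + 1) := by
    have := (vec_nt (d - 1)).1
    rw [show d - 1 + 2 = d + 1 by ring] at this
    rw [this, neg_neg]
  have a2 := h.free (X := S4 (s + vec d) + dv (d + 1)) (Y := M4 s d)
    hv ((sqc_site (s + vec d) (d + 1)).trans (sqL_next' s d)) (stc_site _ _)
    (corner_odd _ _) (Or.inl h2) o2 (d := d - 1)
    (Or.inr ⟨by rw [M4_vec, v2, w4]; abel, by
      rw [show d - 1 + 1 = d by ring, S4_add, w2, v1, v2]; abel⟩)
  rw [a1, a2, S4_add, v2, v3]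
  congr 1
  abel

end Vale.Agent.P167.H871
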