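import Vale.Agent.P167.H871.OutW

/-!
The winding function of an outer strand over the base point.
-/

namespace Vale.Agent.P167.H871

open Finset
open Vale.Agent.P167.Top
open Vale.Agent.P145.FB (PStep)
open Vale.Agent.P167.E6 (IsPolygon Encloses dir face)

variable {D : Set (ℤ × ℤ)} {ω : Cfg} {e : Ed} {m : ℕ} {W : ℤ × ℤ → ℤ}

/-- The value of the winding function at the corner `s` of the square `v`. -/
def psi (W : ℤ × ℤ → ℤ) (v s : ℤ × ℤ) : ℤ := W (S4 s + (2 * (v.1 - s.1) + 1, 0))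

theorem psi_eq (h : SW D ω e m W) {s : ℤ × ℤ} {d : ℤ} (hv : sqL s d ∈ D) :
    psi W (sqL s d) s = W (S4 s + vec d) ∧ psi W (sqL s d) s = W (S4 s + vec (d + 1)) := by
  have h1 := h.site hv
  have h2 : (2 * ((sqL s d).1 - s.1) + 1, (0 : ℤ)) = vec d ∨
      (2 * ((sqL s d).1 - s.1) + 1, (0 : ℤ)) = vec (d + 1) := by
    unfold sqL vec
    rcases dx_cases d with ⟨h, a, b, c, e⟩ | ⟨h, a, b, c, e⟩ | ⟨h, a, b, c, e⟩ | ⟨h, a, b, c, e⟩ <;>
      rw [h, a, b, c, e] <;> simp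
  unfold psi
  rcases h2 with h2 | h2 <;> rw [h2]
  · exact ⟨rfl, h1⟩
  · exact ⟨h1.symm, rfl⟩

theorem psi_turn (h : SW D ω e m W) {s : ℤ × ℤ} {d : ℤ} (hv : sqL s d ∈ D)
    (hv' : sqL s (d - 1) ∈ D) : psi W (sqL s d) s = psi W (sqL s (d - 1)) s := by
  rw [(psi_eq h hv).1, (psi_eq h hv').2, sub_add_cancel]

/-- `s` is a corner of the square `v`. -/
def IsC (v s : ℤ × ℤ) : Prop := (s.1 = v.1 ∨ s.1 = v.1 + 1) ∧ (s.2 = v.2 ∨ s.2 = v.2 + 1)

theorem isC_sqL (s : ℤ × ℤ) (d : ℤ) : IsC (sqL s d) s := by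
  unfold IsC sqL
  simp only
  constructor <;> split_ifs <;> simp

theorem IsC.ex {v s : ℤ × ℤ} (h : IsC v s) : ∃ d : ℤ, v = sqL s d := by
  obtain ⟨h1, h2⟩ := h
  rcases h1 with h1 | h1 <;> rcases h2 with h2 | h2
  · refine ⟨0, ?_⟩
    unfold sqL; ext <;> simp [h1, h2]
  · refine ⟨3, ?_⟩
    unfold sqL; ext <;> simp [h1, h2]
  · refine ⟨1, ?_⟩
    unfold sqL; ext <;> simp [h1, h2]
  · refine ⟨2, ?_⟩
    unfold sqL; ext <;> simp [h1, h2]

theorem pstep_sqL {v s s' : ℤ × ℤ} (h : PStep {v} s s') :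
    ∃ d : ℤ, v = sqL s d ∧ s' = s + vec d + vec (d + 1) := by
  obtain ⟨h1, h2, h3⟩ := h
  rw [Set.mem_singleton_iff] at h3
  rcases h1 with h1 | h1 <;> rcases h2 with h2 | h2
  · refine ⟨0, ?_, ?_⟩
    · rw [← h3, h1, h2, min_eq_left (by omega), min_eq_left (by omega)]
      unfold sqL; ext <;> simp
    · unfold vec dx dy; ext <;> simp [h1, h2]
  · refine ⟨3, ?_, ?_⟩
    · rw [← h3, h1, h2, min_eq_left (by omega), min_eq_right (by omega)]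
      unfold sqL; ext <;> simp <;> ring
    · unfold vec dx dy; ext <;> simp [h1, h2] <;> ring
  · refine ⟨1, ?_, ?_⟩
    · rw [← h3, h1, h2, min_eq_right (by omega), min_eq_left (by omega)]
      unfold sqL; ext <;> simp <;> ring
    · unfold vec dx dy; ext <;> simp [h1, h2] <;> ring
  · refine ⟨2, ?_, ?_⟩
    · rw [← h3, h1, h2, min_eq_right (by omega), min_eq_right (by omega)]
      unfold sqL; ext <;> simp <;> ring
    · unfold vec dx dy; ext <;> simp [h1, h2] <;> ring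

theorem vec_three (d : ℤ) : vec (d + 2 + 1) = - vec (d + 1) := by
  have := (vec_nt (d + 1)).1
  rw [show d + 1 + 2 = d + 2 + 1 by ring] at this
  exact this

theorem psi_cross (h : SW D ω e m W) {v s s' : ℤ × ℤ} (hv : v ∈ D) (hs : PStep {v} s s')
    (h1 : NoCor ω e m v s) (h2 : NoCor ω e m v s') : psi W v s = psi W v s' := by
  obtain ⟨d, rfl, rfl⟩ := pstep_sqL hs
  have h3 := h.cross hv h1 h2
  have h4 : sqL (s + vec d + vec (d + 1)) (d + 2) ∈ D := by rw [sqL_diag]; exact hv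
  have h5 := (psi_eq h h4).2
  rw [sqL_diag, vec_three, ← sub_eq_add_neg] at h5
  rw [(psi_eq h hv).1, h5]
  exact h3

theorem psi_adj (h : SW D ω e m W) {s : ℤ × ℤ} {d : ℤ} (hv : sqL s d ∈ D)
    (h1 : NoCor ω e m (sqL s d) s) (h2 : NoCor ω e m (sqL s d) (s + vec d)) :
    psi W (sqL s d) s = psi W (sqL s d) (s + vec d) := by
  have h3 := h.adj hv h1 h2
  have h4 : sqL (s + vec d) (d + 1) ∈ D := by rw [sqL_next']; exact hv
  have h5 := (psi_eq h h4).2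
  rw [sqL_next', show d + 1 + 1 = d + 2 by ring, (vec_nt d).1, ← sub_eq_add_neg] at h5
  rw [(psi_eq h hv).1, h5]
  exact h3

/-- The values at the corners of a square which is not visited. -/
theorem psi_sq (h : SW D ω e m W) {v s s' : ℤ × ℤ} (hv : v ∈ D)
    (hn : ∀ a < m, hdv ((nx ω)^[a] e) ≠ v) (hs : IsC v s) (hs' : IsC v s') :
    psi W v s = psi W v s' := by
  have h0 : sqL v 0 = v := by unfold sqL; simp
  have h1 : sqL (v + vec 0) 1 = v := by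
    have := sqL_next' v 0
    rw [zero_add] at this
    rw [this, h0]
  have h2 : sqL (v + vec 0 + vec 1) 2 = v := by
    have := sqL_next' (v + vec 0) 1
    rw [show (1 : ℤ) + 1 = 2 by norm_num] at this
    rw [this, h1]
  have a0 := psi_adj h (s := v) (d := 0) (h0.symm ▸ hv) (Or.inr (h0.symm ▸ hn))
    (Or.inr (h0.symm ▸ hn))
  have a1 := psi_adj h (s := v + vec 0) (d := 1) (h1.symm ▸ hv) (Or.inr (h1.symm ▸ hn))
    (Or.inr (h1.symm ▸ hn))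
  have a2 := psi_adj h (s := v + vec 0 + vec 1) (d := 2) (h2.symm ▸ hv) (Or.inr (h2.symm ▸ hn))
    (Or.inr (h2.symm ▸ hn))
  rw [h0] at a0
  rw [h1] at a1
  rw [h2] at a2
  have key : ∀ s, IsC v s → psi W v s = psi W v v := by
    intro s hs
    obtain ⟨e0, e1, e2, e3⟩ := vec_val
    obtain ⟨x, y⟩ := s
    obtain ⟨vx, vy⟩ := v
    rw [e0, e1, e2] at a2
    rw [e0, e1] at a1
    rw [e0] at a0
    simp only [Prod.mk_add_mk, add_zero] at a0 a1 a2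
    rcases hs with ⟨g1 | g1, g2 | g2⟩ <;> simp only at g1 g2 <;> subst g1 <;> subst g2
    · rfl
    · rw [a0, a1, a2]; norm_num
    · exact a0.symm
    · rw [a0, a1]
  rw [key s hs, key s' hs']

/-! ### boundary values -/

variable {n : ℕ} {P : ℕ → ℤ × ℤ} {u : ℕ → ℤ} {σ : ℤ}

theorem mem_arA_iff {i N : ℕ} {Z : (ℤ × ℤ) × ℤ} :
    Z ∈ arA P u i N ↔ ∃ k, i ≤ k ∧ k < i + N ∧ Z ∈ blA P u k := by
  induction N with
  | zero =>
    simp only [arA, List.not_mem_nil, false_iff, not_exists, not_and]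
    intro k h1 h2
    omega
  | succ N ih =>
    rw [arA, List.mem_append, ih]
    constructor
    · rintro (h | ⟨k, h1, h2, h3⟩)
      · exact ⟨i + N, by omega, by omega, h⟩
      · exact ⟨k, h1, by omega, h3⟩
    · rintro ⟨k, h1, h2, h3⟩
      rcases Nat.lt_or_ge k (i + N) with h4 | h4
      · exact Or.inr ⟨k, h1, h4, h3⟩
      · obtain rfl : k = i + N := by omega
        exact Or.inl h3

theorem bdA (h : Bd D n P u σ) {L : List ((ℤ × ℤ) × ℤ)} {i N k : ℕ} {s : ℤ}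
    (hW : WF (L ++ arA P u i N) s W) (h1 : i ≤ k) (h2 : k < i + N) :
    W (S4 (P (k + 1)) - vec (u k)) = (s - 1) / 2 := by
  have ht := abs_le.1 (h.turn k)
  have hmem : ∃ δ : ℤ, δ % 4 = (u k + 1) % 4 ∧ (S4 (P (k + 1)) + dv (u k - 2), δ) ∈ blA P u k := by
    unfold blA
    split_ifs with hk
    · exact ⟨u (k + 1) - 2, by omega, by simp⟩
    · exact ⟨u k - 3, by omega, by simp⟩
  obtain ⟨δ, hδ, hm⟩ := hmem
  have h3 := hW.right _ (List.mem_append_right _ (mem_arA_iff.2 ⟨k, h1, h2, hm⟩))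
  rw [← h3]
  congr 1
  simp only
  obtain ⟨v1, v2, v3, -⟩ := vec_nt (u k)
  have e2 : dv (u k - 2) = -dv (u k) := by
    rw [← dv_add_two]; apply dv_congr; omega
  rw [e2, v2, vec_congr hδ]
  abel

theorem bdB (_h : Bd D n P u σ) {L : List ((ℤ × ℤ) × ℤ)} {j N k : ℕ} {s : ℤ}
    (hW : WF (L ++ arB P u j N) s W) (h1 : j ≤ k) (h2 : k < j + N) :
    W (S4 (P (k + 1)) - vec (u k)) = (1 + s) / 2 := by
  have hmem : (M4 (P k) (u k), u k - 1) ∈ blB P u k := by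
    unfold blB
    split_ifs <;> simp
  have h3 := hW.left _ (List.mem_append_right _ (mem_arB_iff.2 ⟨k, h1, h2, hmem⟩))
  rw [← h3]
  congr 1
  simp only
  rw [M4_vec, _h.step, S4_add, sub_add_cancel]
  abel

/-- All points of the two closed curves lie in a box. -/
def InB (x1 x2 y1 y2 : ℤ) (X : ℤ × ℤ) : Prop :=
  4 * x1 - 3 ≤ X.1 ∧ X.1 ≤ 4 * x2 - 1 ∧ 4 * y1 - 3 ≤ X.2 ∧ X.2 ≤ 4 * y2 - 1

theorem inB_gam {c : ℤ} (hc : c % 4 = 0) {x1 x2 y1 y2 : ℤ}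
    (hb : ∀ a < m, x1 ≤ (hdv ((nx ω)^[a] e)).1 ∧ (hdv ((nx ω)^[a] e)).1 < x2 ∧
      y1 ≤ (hdv ((nx ω)^[a] e)).2 ∧ (hdv ((nx ω)^[a] e)).2 < y2) :
    ∀ p ∈ gam ω e c m, InB x1 x2 y1 y2 p.1 := by
  intro p hp
  obtain ⟨a, ha, h⟩ := (mem_gam ω e c).1 (List.mem_map_of_mem hp)
  have hb' := hb a ha
  rcases h with h | h
  · rw [h, P4_hdv]
    rcases head_cases (hd4 ((nx ω)^[a] e)) with ⟨_, b, c⟩ | ⟨_, b, c⟩ | ⟨_, b, c⟩ | ⟨_, b, c⟩ <;>
      rw [b, c] <;> unfold InB <;> simp only <;> omega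
  · have h1 := sqc_cor ω e hc a
    rw [← h] at h1
    rw [← h1] at hb'
    unfold sqc at hb'
    unfold InB
    simp only at hb'
    omega

theorem inB_site {x1 x2 y1 y2 : ℤ} {s : ℤ × ℤ} (hs : x1 ≤ s.1 ∧ s.1 ≤ x2 ∧ y1 ≤ s.2 ∧ s.2 ≤ y2)
    (d : ℤ) : InB x1 x2 y1 y2 (S4 s) ∧ InB x1 x2 y1 y2 (S4 s + dv d) := by
  have := dv_odd d
  unfold InB S4
  simp only [Prod.fst_add, Prod.snd_add]
  omega

theorem inB_M4 {x1 x2 y1 y2 : ℤ} {s : ℤ × ℤ} {d : ℤ}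
    (hs : x1 ≤ s.1 ∧ s.1 ≤ x2 ∧ y1 ≤ s.2 ∧ s.2 ≤ y2)
    (hs' : x1 ≤ (s + vec d).1 ∧ (s + vec d).1 ≤ x2 ∧ y1 ≤ (s + vec d).2 ∧ (s + vec d).2 ≤ y2) :
    InB x1 x2 y1 y2 (M4 s d) := by
  rw [M4_eq]
  unfold vec at hs'
  simp only [Prod.fst_add, Prod.snd_add] at hs'
  rcases head_cases d with ⟨_, b, c⟩ | ⟨_, b, c⟩ | ⟨_, b, c⟩ | ⟨_, b, c⟩ <;>
    rw [b, c] at hs' ⊢ <;> unfold InB <;> simp only <;> omega

theorem inB_arA (h : Bd D n P u σ) {x1 x2 y1 y2 : ℤ}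
    (hP : ∀ k, x1 ≤ (P k).1 ∧ (P k).1 ≤ x2 ∧ y1 ≤ (P k).2 ∧ (P k).2 ≤ y2) (i N : ℕ) :
    ∀ p ∈ arA P u i N, InB x1 x2 y1 y2 p.1 := by
  intro p hp
  obtain ⟨k, _, _, h1⟩ := mem_arA (List.mem_map_of_mem (f := Prod.fst) hp)
  rcases mem_blA h1 with h2 | h2 | h2 | h2 <;> rw [h2]
  · exact inB_M4 (hP _) (by rw [← h.step]; exact hP _)
  · exact (inB_site (hP _) 0).1
  · exact (inB_site (hP _) _).2
  · exact (inB_site (hP _) _).2

theorem inB_arB (h : Bd D n P u σ) {x1 x2 y1 y2 : ℤ}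
    (hP : ∀ k, x1 ≤ (P k).1 ∧ (P k).1 ≤ x2 ∧ y1 ≤ (P k).2 ∧ (P k).2 ≤ y2) (i N : ℕ) :
    ∀ p ∈ arB P u i N, InB x1 x2 y1 y2 p.1 := by
  intro p hp
  obtain ⟨k, _, _, h1⟩ := mem_arB (List.mem_map_of_mem (f := Prod.fst) hp)
  rcases mem_blB h1 with h2 | h2 | h2 | h2 <;> rw [h2]
  · exact inB_M4 (hP _) (by rw [← h.step]; exact hP _)
  · exact (inB_site (hP _) 0).1
  · exact (inB_site (hP _) _).2
  · exact (inB_site (hP _) _).2

theorem WF.out {L : List ((ℤ × ℤ) × ℤ)} {s : ℤ} (hW : WF L s W) {x1 x2 y1 y2 : ℤ}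
    (hL : ∀ p ∈ L, InB x1 x2 y1 y2 p.1) {v t : ℤ × ℤ} (hv : IsC v t)
    (ht : t.1 < x1 ∨ x2 < t.1 ∨ t.2 < y1 ∨ y2 < t.2) : psi W v t = 0 := by
  unfold psi
  obtain ⟨hv1, hv2⟩ := hv
  apply hW.far
  unfold S4
  simp only [Prod.fst_add, Prod.snd_add]
  rcases ht with h | h | h | h
  · right; right; right
    intro p hp
    have := (hL p hp).1
    omega
  · right; right; left
    intro p hp
    have := (hL p hp).2.1
    omega
  · right; left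
    intro p hp
    have := (hL p hp).2.2.1
    omega
  · left
    intro p hp
    have := (hL p hp).2.2.2
    omega

end Vale.Agent.P167.H871
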