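import Vale.Agent.P167.H871.OutX

/-!
Turning of the outer strands: the second value only for the strands over the base point.
-/

namespace Vale.Agent.P167.H871

open Finset
open Vale.Agent.P167.Top
open Vale.Agent.P145.FB (PStep)
open Vale.Agent.P167.E6 (IsPolygon Encloses dir face)

variable {n : ℕ} {p : ZMod n → ℤ × ℤ} {D : Finset (ℤ × ℤ)}

/-- A site function which is constant along the paths which do not cross the outer strand, which
vanishes far away and does not vanish at `b`. -/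
structure OutPot (D : Finset (ℤ × ℤ)) (p : ZMod n → ℤ × ℤ) (ω : Cfg) (e : Ed) (m : ℕ)
    (φ : ℤ × ℤ → ℤ) : Prop where
  base : φ (p 0) ≠ 0
  cross : ∀ v ∉ D, ∀ s s', PStep {v} s s' → ω v = decide (Even (s.1 + s.2)) → φ s = φ s'
  sq : ∀ v ∉ D, (∀ a < m, hdv ((nx ω)^[a] e) ≠ v) → ∀ s s', IsC v s → IsC v s' → φ s = φ s'
  far : ∀ x1 x2 y1 y2 : ℤ,
    (∀ k, x1 ≤ (p k).1 ∧ (p k).1 ≤ x2 ∧ y1 ≤ (p k).2 ∧ (p k).2 ≤ y2) →
    (∀ a < m, x1 ≤ (hdv ((nx ω)^[a] e)).1 ∧ (hdv ((nx ω)^[a] e)).1 < x2 ∧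
      y1 ≤ (hdv ((nx ω)^[a] e)).2 ∧ (hdv ((nx ω)^[a] e)).2 < y2) →
    ∀ t : ℤ × ℤ, (t.1 < x1 ∨ x2 < t.1 ∨ t.2 < y1 ∨ y2 < t.2) → φ t = 0

/-- The outer squares around a site are joined. -/
theorem psi_around (hp : IsPolygon p) (he : Encloses p D) {u : ℕ → ℤ}
    (hu : Bd (D : Set (ℤ × ℤ)) n (fun k => p (k : ZMod n)) u 1) {ω : Cfg} {e : Ed} {m : ℕ}
    {W : ℤ × ℤ → ℤ} (h : SW ((D : Set (ℤ × ℤ))ᶜ) ω e m W) {s v v' : ℤ × ℤ} (hv : v ∉ D)
    (hv' : v' ∉ D) (hs : IsC v s) (hs' : IsC v' s) : psi W v s = psi W v' s := by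
  obtain ⟨a, rfl⟩ := hs.ex
  obtain ⟨b, rfl⟩ := hs'.ex
  have turn : ∀ d : ℤ, sqL s d ∉ D → sqL s (d - 1) ∉ D →
      psi W (sqL s d) s = psi W (sqL s (d - 1)) s := fun d h1 h2 => psi_turn h h1 h2
  rcases (by omega : b % 4 = a % 4 ∨ b % 4 = (a + 1) % 4 ∨ b % 4 = (a - 1) % 4 ∨
    b % 4 = (a + 2) % 4) with hb | hb | hb | hb
  · rw [sqL_congr hb]
  · rw [sqL_congr hb] at hv' ⊢
    have := turn (a + 1) hv' (by rw [add_sub_cancel_right]; exact hv)
    rw [add_sub_cancel_right] at this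
    exact this.symm
  · rw [sqL_congr hb] at hv' ⊢
    exact turn a hv hv'
  · rw [sqL_congr hb] at hv' ⊢
    by_cases h1 : sqL s (a + 1) ∈ D
    · by_cases h2 : sqL s (a - 1) ∈ D
      · exfalso
        obtain ⟨k, hk, hk1, hk2⟩ := cross_step hp he hu h1 (by
          rw [add_sub_cancel_right]; exact hv)
        have h3 : sqL s (a + 3) ∈ D := by
          rw [sqL_congr (show (a + 3) % 4 = (a - 1) % 4 by omega)]; exact h2
        obtain ⟨k', hk', hk1', hk2'⟩ := cross_step hp he hu h3 (by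
          rw [show a + 3 - 1 = a + 2 by ring]; exact hv')
        have h4 : k = k' := by
          rcases lt_trichotomy k k' with h5 | h5 | h5
          · exact absurd (hk1.trans hk1'.symm) (poly_inj hp h5 (by omega))
          · exact h5
          · exact absurd (hk1'.trans hk1.symm) (poly_inj hp h5 (by omega))
        subst h4
        omega
      · have t1 := turn a hv h2
        have t2 := turn (a - 1) h2 (by
          rw [sqL_congr (show (a - 1 - 1) % 4 = (a + 2) % 4 by omega)]; exact hv')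
        rw [t1, t2, sqL_congr (show (a - 1 - 1) % 4 = (a + 2) % 4 by omega)]
    · have t1 := turn (a + 1) h1 (by rw [add_sub_cancel_right]; exact hv)
      have t2 := turn (a + 2) hv' (by rw [show a + 2 - 1 = a + 1 by ring]; exact h1)
      rw [add_sub_cancel_right] at t1
      rw [show a + 2 - 1 = a + 1 by ring] at t2
      rw [t2, t1]

/-- The site function. -/
theorem exists_pot' (hp : IsPolygon p) (he : Encloses p D) {u : ℕ → ℤ}
    (hu : Bd (D : Set (ℤ × ℤ)) n (fun k => p (k : ZMod n)) u 1) {ω : Cfg} {e : Ed} {m : ℕ}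
    {W : ℤ × ℤ → ℤ} (h : SW ((D : Set (ℤ × ℤ))ᶜ) ω e m W)
    (hb : ∃ v ∉ D, IsC v (p 0) ∧ psi W v (p 0) ≠ 0)
    (hfar : ∀ x1 x2 y1 y2 : ℤ,
      (∀ k, x1 ≤ (p k).1 ∧ (p k).1 ≤ x2 ∧ y1 ≤ (p k).2 ∧ (p k).2 ≤ y2) →
      (∀ a < m, x1 ≤ (hdv ((nx ω)^[a] e)).1 ∧ (hdv ((nx ω)^[a] e)).1 < x2 ∧
        y1 ≤ (hdv ((nx ω)^[a] e)).2 ∧ (hdv ((nx ω)^[a] e)).2 < y2) →
      ∀ v t : ℤ × ℤ, IsC v t → (t.1 < x1 ∨ x2 < t.1 ∨ t.2 < y1 ∨ y2 < t.2) → psi W v t = 0) :
    ∃ φ, OutPot D p ω e m φ := by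
  classical
  let φ : ℤ × ℤ → ℤ := fun s => if hs : ∃ v, v ∉ D ∧ IsC v s then psi W hs.choose s else 0
  have key : ∀ v ∉ D, ∀ s, IsC v s → φ s = psi W v s := by
    intro v hv s hs
    have hex : ∃ v, v ∉ D ∧ IsC v s := ⟨v, hv, hs⟩
    simp only [φ, dif_pos hex]
    exact psi_around hp he hu h hex.choose_spec.1 hv hex.choose_spec.2 hs
  refine ⟨φ, ?_, ?_, ?_, ?_⟩
  · obtain ⟨v, hv, hc, hne⟩ := hb
    rw [key v hv _ hc]
    exact hne
  · intro v hv s s' hs hc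
    obtain ⟨d, hd, hd'⟩ := pstep_sqL hs
    have c1 : IsC v s := hd ▸ isC_sqL s d
    have c2 : IsC v s' := by
      have := isC_sqL (s + vec d + vec (d + 1)) (d + 2)
      rw [sqL_diag, ← hd, ← hd'] at this
      exact this
    rw [key v hv s c1, key v hv s' c2]
    refine psi_cross h hv hs (Or.inl hc) (Or.inl ?_)
    rw [hc]
    obtain ⟨h1, h2, -⟩ := hs
    have : Even (s.1 + s.2) ↔ Even (s'.1 + s'.2) := by
      rw [Int.even_iff, Int.even_iff]; omega
    exact decide_eq_decide.2 this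
  · intro v hv hn s s' hs hs'
    rw [key v hv s hs, key v hv s' hs']
    exact psi_sq h hv hn hs hs'
  · intro x1 x2 y1 y2 h1 h2 t ht
    simp only [φ]
    split_ifs with hex
    · exact hfar x1 x2 y1 y2 h1 h2 _ t hex.choose_spec.2 ht
    · rfl

/-- **Turning of the strands outside `D`**: the second value only for a strand over `p 0`. -/
theorem ext_wind {u : ℕ → ℤ} (hp : IsPolygon p) (he : Encloses p D)
    (hu : Bd (D : Set (ℤ × ℤ)) n (fun k => p (k : ZMod n)) u 1)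
    {ω : Cfg} {e : Ed} {m i j : ℕ} (hm : 1 ≤ m) (hin : i < n) (hjn : j < n)
    (hi : P4 e = M4 (p (i : ZMod n)) (u i))
    (hj : P4 ((nx ω)^[m] e) = M4 (p (j : ZMod n)) (u j))
    (hD : ∀ k < m, hdv ((nx ω)^[k] e) ∉ D) (ht : tlv e ∈ D) (hh : hdv ((nx ω)^[m] e) ∈ D) :
    i ≠ j ∧ (∑ k ∈ range m, trn ω ((nx ω)^[k] e) = u j - u i + (if i < j then 2 else -2) ∨
      (∑ k ∈ range m, trn ω ((nx ω)^[k] e) = u j - u i + (if i < j then -6 else 6) ∧
        ∃ φ, OutPot D p ω e m φ)) := by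
  have hn : 0 < n := by have := hp.1; omega
  have hn0 : NeZero n := ⟨by omega⟩
  have hT : dl ω e m - hd4 e = ∑ k ∈ range m, trn ω ((nx ω)^[k] e) := by
    unfold dl; ring
  have hr := hu.rev hn
  have hidx : ∀ a < n, (n - 1) * (n - 1 - a + 1) = a + n * (n - 1 - a) := by
    intro a ha
    obtain ⟨b, rfl⟩ : ∃ b, n = a + b + 1 := ⟨n - 1 - a, by omega⟩
    rw [show a + b + 1 - 1 - a = b by omega, show a + b + 1 - 1 = a + b by omega]
    ring
  have hU : ∀ a < n, (u ((n - 1) * (n - 1 - a + 1)) - 4 * 1 * (((n - 1 - a : ℕ) : ℤ) + 1) + 2 : ℤ)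
      = u a - 2 := by
    intro a ha
    have := (hu.perN a (n - 1 - a)).1
    rw [hidx a ha, this]
    ring
  have hM : ∀ a < n, M4 (p (((n - 1) * (n - 1 - a + 1) + 1 : ℕ) : ZMod n))
      (u ((n - 1) * (n - 1 - a + 1)) - 4 * 1 * (((n - 1 - a : ℕ) : ℤ) + 1) + 2) =
      M4 (p (a : ZMod n)) (u a) := by
    intro a ha
    rw [hU a ha, hidx a ha]
    have h1 := (hu.perN (a + 1) (n - 1 - a)).2
    try simp only at h1
    rw [show a + n * (n - 1 - a) + 1 = a + 1 + n * (n - 1 - a) by ring, h1]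
    have h2 := hu.step a
    try simp only at h2
    rw [h2, ← M4_rev (p (a : ZMod n)) (u a)]
    exact M4_congr (by omega)
  -- the site `p 0`
  have hP0 : p (((n - 1) * (n - 1 + 1 + 1) + 1 : ℕ) : ZMod n) = p 0 := by
    congr 1
    have : (n - 1) * (n - 1 + 1 + 1) + 1 = n * n := by
      obtain ⟨n', rfl⟩ : ∃ n', n = n' + 1 := ⟨n - 1, by omega⟩
      rw [Nat.add_sub_cancel]; ring
    rw [this]
    simp
  have hC0 : IsC (sqL (p (((n - 1) * (n - 1 + 1) + 1 : ℕ) : ZMod n))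
      (u ((n - 1) * (n - 1 + 1)) - 4 * 1 * (((n - 1 : ℕ) : ℤ) + 1) + 2)) (p 0) := by
    have h1 := hr.step (n - 1)
    try simp only at h1
    rw [hP0] at h1
    rw [← sqL_next', ← h1]
    exact isC_sqL _ _
  have hpsi : ∀ W, SW ((D : Set (ℤ × ℤ))ᶜ) ω e m W →
      psi W (sqL (p (((n - 1) * (n - 1 + 1) + 1 : ℕ) : ZMod n))
        (u ((n - 1) * (n - 1 + 1)) - 4 * 1 * (((n - 1 : ℕ) : ℤ) + 1) + 2)) (p 0) =
      W (S4 (p (((n - 1) * (n - 1 + 1 + 1) + 1 : ℕ) : ZMod n)) -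
        vec (u ((n - 1) * (n - 1 + 1)) - 4 * 1 * (((n - 1 : ℕ) : ℤ) + 1) + 2)) := by
    intro W hW
    have h1 := hr.step (n - 1)
    have h2 := hr.left (n - 1)
    try simp only at h1 h2
    rw [hP0] at h1 ⊢
    rw [← sqL_next', ← h1] at h2 ⊢
    rw [(psi_eq hW h2).2]
    congr 1
    rw [show ∀ x : ℤ, x + 1 + 1 = x + 2 from fun x => by ring, (vec_nt _).1]
    exact (sub_eq_add_neg _ _).symm
  have hl0 := hr.left (n - 1)
  try simp only at hl0
  have hPb : ∀ {x1 x2 y1 y2 : ℤ},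
      (∀ k, x1 ≤ (p k).1 ∧ (p k).1 ≤ x2 ∧ y1 ≤ (p k).2 ∧ (p k).2 ≤ y2) →
      ∀ k : ℕ, x1 ≤ ((fun k : ℕ => p (((n - 1) * (k + 1) + 1 : ℕ) : ZMod n)) k).1 ∧
        ((fun k : ℕ => p (((n - 1) * (k + 1) + 1 : ℕ) : ZMod n)) k).1 ≤ x2 ∧
        y1 ≤ ((fun k : ℕ => p (((n - 1) * (k + 1) + 1 : ℕ) : ZMod n)) k).2 ∧
        ((fun k : ℕ => p (((n - 1) * (k + 1) + 1 : ℕ) : ZMod n)) k).2 ≤ y2 :=
    fun h k => h _
  rcases lt_trichotomy i j with h | h | h
  · refine ⟨h.ne, ?_⟩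
    have h5 := hr.per (n - 1 - j)
    have h6 := hr.perP (n - 1 - j)
    have g1 : n - 1 - i < n - 1 - j + n := by omega
    have g2 : n - 1 - j + n < n - 1 - i + n := by omega
    have g3 : P4 e = M4 (p (((n - 1) * (n - 1 - i + 1) + 1 : ℕ) : ZMod n))
      (u ((n - 1) * (n - 1 - i + 1)) - 4 * 1 * (((n - 1 - i : ℕ) : ℤ) + 1) + 2) := by
      rw [hi]; exact (hM i hin).symm
    have g4 : P4 ((nx ω)^[m] e) =
        M4 ((fun k : ℕ => p (((n - 1) * (k + 1) + 1 : ℕ) : ZMod n)) (n - 1 - j + n))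
        ((fun k : ℕ => u ((n - 1) * (k + 1)) - 4 * 1 * ((k : ℤ) + 1) + 2) (n - 1 - j + n)) := by
      change P4 _ = M4 (p (((n - 1) * (n - 1 - j + n + 1) + 1 : ℕ) : ZMod n))
        (u ((n - 1) * (n - 1 - j + n + 1)) - 4 * 1 * (((n - 1 - j + n : ℕ) : ℤ) + 1) + 2)
      rw [h5, h6, hj, ← hM j hjn]
      exact M4_congr (by omega)
    obtain ⟨q, h1, h2, h3⟩ := dom_turn hr hm g1 g2 g3 g4 hD (fun h' => h' ht) (fun h' => h' hh)
    obtain ⟨q', c, hc, h1', ⟨W, hW⟩, -⟩ := dom_wind hr hm g1 g2 g3 g4 hD (fun h' => h' ht)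
      (fun h' => h' hh)
    obtain rfl : q = q' := by omega
    rw [h5] at h1
    try simp only at h1
    rw [hU i hin, hU j hjn] at h1
    rw [if_pos h, if_pos h, ← hT, h1]
    rcases h2 with h2 | h2
    · left; omega
    · right
      refine ⟨by omega, ?_⟩
      have hSW : SW ((D : Set (ℤ × ℤ))ᶜ) ω e m W := ⟨c, q - 1, _, hc, hW, outP_arA hr _ _⟩
      refine exists_pot' hp he hu hSW ⟨_, hl0, hC0, ?_⟩ ?_
      · rw [hpsi W hSW]
        have := bdA hr hW (k := n - 1) (by omega) (by omega)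
        try simp only at this
        rw [this, h2]
        norm_num
      · intro x1 x2 y1 y2 b1 b2 v t hv htt
        refine hW.out (fun z hz => ?_) hv htt
        rcases List.mem_append.1 hz with hz | hz
        · exact inB_gam hc b2 z hz
        · exact inB_arA hr (hPb b1) _ _ z hz
  · exfalso
    subst h
    have h0 : (nx ω)^[m] e = e := P4_inj (hj.trans hi.symm)
    rw [h0] at hh
    exact hD 0 (by omega) hh
  · refine ⟨h.ne', ?_⟩
    have g1 : n - 1 - i < n - 1 - j := by omega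
    have g2 : n - 1 - j < n - 1 - i + n := by omega
    have g3 : P4 e = M4 (p (((n - 1) * (n - 1 - i + 1) + 1 : ℕ) : ZMod n))
      (u ((n - 1) * (n - 1 - i + 1)) - 4 * 1 * (((n - 1 - i : ℕ) : ℤ) + 1) + 2) := by
      rw [hi]; exact (hM i hin).symm
    have g4 : P4 ((nx ω)^[m] e) = M4 (p (((n - 1) * (n - 1 - j + 1) + 1 : ℕ) : ZMod n))
      (u ((n - 1) * (n - 1 - j + 1)) - 4 * 1 * (((n - 1 - j : ℕ) : ℤ) + 1) + 2) := by
      rw [hj]; exact (hM j hjn).symm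
    obtain ⟨q, h1, h2, h3⟩ := dom_turn hr hm g1 g2 g3 g4 hD (fun h' => h' ht) (fun h' => h' hh)
    obtain ⟨q', c, hc, h1', -, ⟨W, hW⟩⟩ := dom_wind hr hm g1 g2 g3 g4 hD (fun h' => h' ht)
      (fun h' => h' hh)
    obtain rfl : q = q' := by omega
    try simp only at h1
    rw [hU i hin, hU j hjn] at h1
    rw [if_neg (by omega), if_neg (by omega), ← hT, h1]
    rcases h2 with h2 | h2
    · right
      refine ⟨by omega, ?_⟩
      have hSW : SW ((D : Set (ℤ × ℤ))ᶜ) ω e m W := ⟨c, _, _, hc, hW, outP_arB hr _ _⟩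
      refine exists_pot' hp he hu hSW ⟨_, hl0, hC0, ?_⟩ ?_
      · rw [hpsi W hSW]
        have := bdB hr hW (k := n - 1) (by omega) (by omega)
        try simp only at this
        rw [this]
        have : q = 2 := by omega
        rw [this]
        norm_num
      · intro x1 x2 y1 y2 b1 b2 v t hv htt
        refine hW.out (fun z hz => ?_) hv htt
        rcases List.mem_append.1 hz with hz | hz
        · exact inB_gam hc b2 z hz
        · exact inB_arB hr (hPb b1) _ _ z hz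
    · left; omega

end Vale.Agent.P167.H871
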