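import Vale.Agent.P167.H871.Line
import Vale.Agent.P167.H871.HopfD

/-!
Turning of a piece of the interface whose first edge is on a ray in the direction `a` and whose last
edge is on a ray in the direction `- b`, neither of them being touched by the piece otherwise.
-/

namespace Vale.Agent.P167.H871

open Finset
open Vale.Agent.P167.Top

/-- Number of full turns of the direction of `v`, for angles (in quarters) between `d` and
`d + 4`. -/
def Gr (d : ℤ) (v : ℤ × ℤ) : ℤ :=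
  d / 4 + (if d % 4 = 1 then (if 0 ≤ v.2 ∧ 0 < v.1 then 1 else 0) else
    if d % 4 = 2 then (if 0 ≤ v.2 then 1 else 0) else
    if d % 4 = 3 then (if v.2 < 0 ∧ 0 < v.1 then 0 else 1) else 0)

theorem Gr_quad {d q s t : ℤ} (h1 : d ≤ q) (h2 : q ≤ d + 3) (hs : 0 < s) (ht : 0 ≤ t)
    (h0 : t = 0 → d < q) : Gr d (s * dx q + t * dx (q + 1), s * dy q + t * dy (q + 1)) = q / 4 := by
  unfold Gr
  rcases (by omega : d % 4 = 0 ∨ d % 4 = 1 ∨ d % 4 = 2 ∨ d % 4 = 3) with h | h | h | h <;>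
    rcases dx_cases q with ⟨h', a, b, c, e⟩ | ⟨h', a, b, c, e⟩ | ⟨h', a, b, c, e⟩ |
      ⟨h', a, b, c, e⟩ <;>
    simp only [h, a, b, c, e, mul_one, mul_zero, add_zero, zero_add, mul_neg] <;> norm_num <;>
    omega

theorem kap_Gr_aux (d x y s1 s2 : ℤ) (hs1 : s1 = 1 ∨ s1 = -1) (hs2 : s2 = 1 ∨ s2 = -1)
    (hpar : (x - y) % 2 = 0)
    (h0 : ¬ (x = 0 ∧ y = 0)) (h0' : ¬ (x + s1 = 0 ∧ y + s2 = 0))
    (h1 : d % 4 = 0 → ¬ (y = 0 ∧ 0 < x) ∧ ¬ (y + s2 = 0 ∧ 0 < x + s1))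
    (h2 : d % 4 = 1 → ¬ (x = 0 ∧ 0 < y) ∧ ¬ (x + s1 = 0 ∧ 0 < y + s2))
    (h3 : d % 4 = 2 → ¬ (y = 0 ∧ x < 0) ∧ ¬ (y + s2 = 0 ∧ x + s1 < 0))
    (h4 : d % 4 = 3 → ¬ (x = 0 ∧ y < 0) ∧ ¬ (x + s1 = 0 ∧ y + s2 < 0)) :
    kap (x, y) (x + s1, y + s2) = Gr d (x + s1, y + s2) - Gr d (x, y) := by
  unfold kap Gr
  rcases (by omega : d % 4 = 0 ∨ d % 4 = 1 ∨ d % 4 = 2 ∨ d % 4 = 3) with h | h | h | h
  · have := h1 h
    clear h1 h2 h3 h4
    simp only [h, add_sub_add_left_eq_sub]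
    norm_num
    rcases hs2 with rfl | rfl <;> split_ifs <;> omega
  · have := h2 h
    clear h1 h2 h3 h4
    simp only [h, add_sub_add_left_eq_sub, if_true]
    rcases hs1 with rfl | rfl <;> rcases hs2 with rfl | rfl <;> split_ifs <;> omega
  · have := h3 h
    clear h1 h2 h3 h4
    simp only [h, add_sub_add_left_eq_sub, if_true]
    norm_num
    rcases hs1 with rfl | rfl <;> rcases hs2 with rfl | rfl <;> split_ifs <;> omega
  · have := h4 h
    clear h1 h2 h3 h4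
    simp only [h, add_sub_add_left_eq_sub, if_true]
    norm_num
    rcases hs1 with rfl | rfl <;> rcases hs2 with rfl | rfl <;> split_ifs <;> omega

/-- `v` is on the closed ray in the direction `d`. -/
def OnRay (d : ℤ) (v : ℤ × ℤ) : Prop := ∃ τ : ℤ, 0 ≤ τ ∧ v = (τ * dx d, τ * dy d)

theorem kap_Gr {d : ℤ} {v w : ℤ × ℤ} (hD : Diag (w - v)) (hpar : (v.1 - v.2) % 2 = 0)
    (hv : ¬ OnRay d v) (hw : ¬ OnRay d w) : kap v w = Gr d w - Gr d v := by
  have hw' : w = (v.1 + (w - v).1, v.2 + (w - v).2) := by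
    ext <;> simp only [Prod.fst_sub, Prod.snd_sub] <;> ring
  have key : ∀ v : ℤ × ℤ, ¬ OnRay d v → ¬ (v.1 = 0 ∧ v.2 = 0) ∧
      (d % 4 = 0 → ¬ (v.2 = 0 ∧ 0 < v.1)) ∧ (d % 4 = 1 → ¬ (v.1 = 0 ∧ 0 < v.2)) ∧
      (d % 4 = 2 → ¬ (v.2 = 0 ∧ v.1 < 0)) ∧ (d % 4 = 3 → ¬ (v.1 = 0 ∧ v.2 < 0)) := by
    intro v hv
    refine ⟨?_, ?_, ?_, ?_, ?_⟩
    · rintro ⟨a, b⟩
      exact hv ⟨0, le_rfl, by ext <;> simp [a, b]⟩
    · rintro h ⟨a, b⟩
      exact hv ⟨v.1, b.le, by ext <;> simp [dx, dy, h, a]⟩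
    · rintro h ⟨a, b⟩
      exact hv ⟨v.2, b.le, by ext <;> simp [dx, dy, h, a]⟩
    · rintro h ⟨a, b⟩
      exact hv ⟨-v.1, by omega, by ext <;> simp [dx, dy, h, a]⟩
    · rintro h ⟨a, b⟩
      exact hv ⟨-v.2, by omega, by ext <;> simp [dx, dy, h, a]⟩
  obtain ⟨a0, a1, a2, a3, a4⟩ := key v hv
  obtain ⟨b0, b1, b2, b3, b4⟩ := key w hw
  rw [hw'] at b0 b1 b2 b3 b4
  have := kap_Gr_aux d v.1 v.2 (w - v).1 (w - v).2 hD.1 hD.2 hpar a0 b0
    (fun h => ⟨a1 h, b1 h⟩) (fun h => ⟨a2 h, b2 h⟩) (fun h => ⟨a3 h, b3 h⟩) (fun h => ⟨a4 h, b4 h⟩)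
  rw [← hw'] at this
  exact this

variable {ω : Cfg} {e : Ed} {n : ℕ}

/-- **Turning between two rays.** The first edge `e` is on a ray in the direction `a`, the last edge
`nx^[n] e` on a ray in the direction `- b`; no other edge is on one of these rays. The chord is in the
quadrant `q`. -/
theorem two_ray (hn : 1 ≤ n) {a b q s t α β : ℤ}
    (hx : ∀ i, 1 ≤ i → i ≤ n → ¬ OnRay a (Mp ω e i - Mp ω e 0))
    (hy : ∀ i < n, ¬ OnRay b (Mp ω e n - Mp ω e i))
    (hc : Mp ω e n - Mp ω e 0 = (s * dx q + t * dx (q + 1), s * dy q + t * dy (q + 1)))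
    (hs : 0 < s) (ht : 0 ≤ t) (ha : a ≤ q) (ha' : q ≤ a + 3) (hb : b ≤ q) (hb' : q ≤ b + 3)
    (h0 : t = 0 → a < q ∧ b < q)
    (hα : α = a + 1 ∨ α = a + 3) (hα' : α % 4 = hd4 e % 4)
    (hβ : β = b + 1 ∨ β = b + 3) (hβ' : β % 4 = hd4 ((nx ω)^[n] e) % 4) :
    ∑ k ∈ range n, trn ω ((nx ω)^[k] e) = β - α := by
  have hne : ∀ k, 1 ≤ k → k ≤ n → (nx ω)^[k] e ≠ e := by
    intro k h1 h2 h3
    apply hx k h1 h2
    refine ⟨0, le_rfl, ?_⟩
    unfold Mp
    rw [h3]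
    ext <;> simp
  have hD : ∀ i, Diag (Mp ω e (i + 1) - Mp ω e i) := by
    intro i
    have := diag_mid (isPath ω e) i
    rw [mid_eq, mid_eq] at this
    exact this
  have hinj : ∀ i j, i < j → j ≤ n + 1 → (i, j) ≠ (0, n + 1) → Mp ω e j ≠ Mp ω e i := by
    intro i j hij hj hne' h
    have h2 := me_injective h
    have h3 : (nx ω)^[j] e = (nx ω)^[i] ((nx ω)^[j - i] e) := by
      rw [← Function.iterate_add_apply, show i + (j - i) = j by omega]
    rw [h3] at h2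
    have h4 := ((s_nx ω).injective.iterate i) h2
    rcases Nat.lt_or_ge n (j - i) with h5 | h5
    · apply hne'
      ext <;> simp <;> omega
    · exact hne _ (by omega) h5 h4
  obtain ⟨m, rfl⟩ : ∃ m, n = m + 1 := ⟨n - 1, by omega⟩
  have htr := triangle hD hinj m (by omega)
  have hk : ∑ i ∈ range m, kd (Mp ω e) i =
      min (dl ω e m) (dl ω e (m + 1)) / 4 - min (dl ω e 0) (dl ω e 1) / 4 := by
    have hM : Mp ω e = mid (fun i => tlv ((nx ω)^[i] e)) (dl ω e) := by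
      funext i; rw [mid_eq]; rfl
    rw [hM]
    have : ∀ k, ∑ i ∈ range k, kd (mid (fun i => tlv ((nx ω)^[i] e)) (dl ω e)) i =
        min (dl ω e k) (dl ω e (k + 1)) / 4 - min (dl ω e 0) (dl ω e 1) / 4 := by
      intro k
      induction k with
      | zero => simp
      | succ k ih =>
        rw [Finset.sum_range_succ, ih, kd_eq (isPath ω e)]
        ring
    exact this m
  have hpar : ∀ i j, i ≤ j → ((Mp ω e j - Mp ω e i).1 - (Mp ω e j - Mp ω e i).2) % 2 = 0 := by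
    intro i j hij
    have := parity hD i (j - i)
    rwa [show i + (j - i) = j by omega] at this
  have k1 : ∑ j ∈ range m, kap (sec (Mp ω e) 0 (j + 1)) (sec (Mp ω e) 0 (j + 1 + 1)) =
      Gr a (Mp ω e (m + 1) - Mp ω e 0) - Gr a (Mp ω e 1 - Mp ω e 0) := by
    have : ∀ k ≤ m, ∑ j ∈ range k, kap (sec (Mp ω e) 0 (j + 1)) (sec (Mp ω e) 0 (j + 1 + 1)) =
        Gr a (Mp ω e (k + 1) - Mp ω e 0) - Gr a (Mp ω e 1 - Mp ω e 0) := by
      intro k hk
      induction k with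
      | zero => simp
      | succ k ih =>
        rw [Finset.sum_range_succ, ih (by omega)]
        have h1 := kap_Gr (d := a) (v := Mp ω e (k + 1) - Mp ω e 0)
          (w := Mp ω e (k + 1 + 1) - Mp ω e 0) (by
            rw [sub_sub_sub_cancel_right]; exact hD (k + 1)) (hpar 0 (k + 1) (by omega))
          (hx _ (by omega) (by omega)) (hx _ (by omega) (by omega))
        have h2 : kap (sec (Mp ω e) 0 (k + 1)) (sec (Mp ω e) 0 (k + 1 + 1)) =
          kap (Mp ω e (k + 1) - Mp ω e 0) (Mp ω e (k + 1 + 1) - Mp ω e 0) := rfl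
        rw [h2, h1]
        ring
    exact this m le_rfl
  have k2 : ∑ i ∈ range m, kap (sec (Mp ω e) i (m + 1)) (sec (Mp ω e) (i + 1) (m + 1)) =
      Gr b (Mp ω e (m + 1) - Mp ω e m) - Gr b (Mp ω e (m + 1) - Mp ω e 0) := by
    have : ∀ k ≤ m, ∑ i ∈ range k, kap (sec (Mp ω e) i (m + 1)) (sec (Mp ω e) (i + 1) (m + 1)) =
        Gr b (Mp ω e (m + 1) - Mp ω e k) - Gr b (Mp ω e (m + 1) - Mp ω e 0) := by
      intro k hk
      induction k with
      | zero => simp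
      | succ k ih =>
        rw [Finset.sum_range_succ, ih (by omega)]
        have h1 := kap_Gr (d := b) (v := Mp ω e (m + 1) - Mp ω e k)
          (w := Mp ω e (m + 1) - Mp ω e (k + 1)) (by
            rw [sub_sub_sub_cancel_left]
            have := hD k
            obtain ⟨h1, h2⟩ := this
            simp only [Diag, Prod.fst_sub, Prod.snd_sub] at h1 h2 ⊢
            omega) (hpar k (m + 1) (by omega)) (hy _ (by omega)) (hy _ (by omega))
        have h2 : kap (sec (Mp ω e) k (m + 1)) (sec (Mp ω e) (k + 1) (m + 1)) =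
          kap (Mp ω e (m + 1) - Mp ω e k) (Mp ω e (m + 1) - Mp ω e (k + 1)) := rfl
        rw [h2, h1]
        ring
    exact this m le_rfl
  rw [hk, k1, k2, hc] at htr
  rw [Gr_quad ha ha' hs ht fun h => (h0 h).1, Gr_quad hb hb' hs ht fun h => (h0 h).2] at htr
  -- the first and the last step
  have hstep : ∀ i, Mp ω e (i + 1) - Mp ω e i =
      (1 * dx (min (dl ω e i) (dl ω e (i + 1))) + 1 * dx (min (dl ω e i) (dl ω e (i + 1)) + 1),
        1 * dy (min (dl ω e i) (dl ω e (i + 1))) + 1 * dy (min (dl ω e i) (dl ω e (i + 1)) + 1)) := by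
    intro i
    have h1 := Mp_step (ω := ω) (e := e) i
    rcases dl_step (ω := ω) (e := e) i with h2 | h2
    · rw [min_eq_left (by omega), ← h2]
      ext
      · simp only [Prod.fst_sub]; linarith [h1.1]
      · simp only [Prod.snd_sub]; linarith [h1.2]
    · rw [min_eq_right (by omega), show dl ω e (i + 1) + 1 = dl ω e i by omega]
      ext
      · simp only [Prod.fst_sub]; linarith [h1.1]
      · simp only [Prod.snd_sub]; linarith [h1.2]
  have hper : ∀ x y : ℤ, x % 4 = y % 4 → dx x = dx y ∧ dy x = dy y ∧ dx (x + 1) = dx (y + 1) ∧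
      dy (x + 1) = dy (y + 1) := fun x y h =>
    ⟨dx_congr h, dy_congr h, dx_congr (by omega), dy_congr (by omega)⟩
  have e0 : dl ω e 0 = hd4 e := by simp [dl]
  have em := dl_mod ω e (m + 1)
  have t0 := dl_step (ω := ω) (e := e) 0
  have tm := dl_step (ω := ω) (e := e) m
  simp only [zero_add] at t0
  set D0 := min (dl ω e 0) (dl ω e 1) with hD0
  set D1 := min (dl ω e m) (dl ω e (m + 1)) with hD1
  obtain ⟨x0, hx0⟩ : ∃ x0 : ℤ, x0 = D0 - dl ω e 0 + α := ⟨_, rfl⟩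
  obtain ⟨x1, hx1⟩ : ∃ x1 : ℤ, x1 = D1 - dl ω e (m + 1) + β := ⟨_, rfl⟩
  have c0 : x0 % 4 = D0 % 4 := by omega
  have c1 : x1 % 4 = D1 % 4 := by omega
  have g0 : Gr a (Mp ω e 1 - Mp ω e 0) = x0 / 4 := by
    have h1 := hstep 0
    simp only [zero_add] at h1
    rw [h1]
    obtain ⟨p1, p2, p3, p4⟩ := hper _ _ c0
    rw [← hD0, ← p1, ← p2, ← p3, ← p4]
    exact Gr_quad (by omega) (by omega) one_pos zero_le_one (by omega)
  have g1 : Gr b (Mp ω e (m + 1) - Mp ω e m) = x1 / 4 := by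
    rw [hstep m]
    obtain ⟨p1, p2, p3, p4⟩ := hper _ _ c1
    rw [← hD1, ← p1, ← p2, ← p3, ← p4]
    exact Gr_quad (by omega) (by omega) one_pos zero_le_one (by omega)
  rw [g0, g1] at htr
  have hT : dl ω e (m + 1) = hd4 e + ∑ k ∈ range (m + 1), trn ω ((nx ω)^[k] e) := rfl
  clear_value D0 D1
  have f1 : D1 - D0 = x1 - x0 := by omega
  omega

end Vale.Agent.P167.H871
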