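import Vale.Agent.P167.H871.RingDet

/-!
# P167, block D2: rings of loops (`S_ring`)
-/

namespace Vale.Agent.P167.H871

open MeasureTheory Finset Vale.Agent.P145.FB Vale.Agent.P153 Vale.Agent.P153.Topo Vale.Agent.P167
open Relation

/-- From geometric decay over the scales `16 ^ i` to a power law. -/
theorem decay_of_scales {δ : ℝ} (h0 : 0 < δ) (h1 : δ ≤ 1 / 2) {s0 : ℤ} (hs0 : 0 < s0) :
    ∃ c C : ℝ, 0 < c ∧ 0 < C ∧ ∀ p r R : ℝ, 1 ≤ r → r ≤ R → p ≤ 1 →
      (∀ (s : ℤ) (m : ℕ), s0 ≤ s → r + 2 ≤ (s : ℝ) → (16 : ℝ) ^ m * s + 3 ≤ R → p ≤ (1 - δ) ^ m) →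
      p ≤ C * (r / R) ^ c := by
  set α : ℝ := - Real.logb 16 (1 - δ) with hα
  have hα0 : 0 < α := by
    rw [hα, neg_pos]
    exact Real.logb_neg (by norm_num) (by linarith) (by linarith)
  have h4 : (16 : ℝ) ^ (-α) = 1 - δ := by
    rw [hα, neg_neg, Real.rpow_logb (by norm_num) (by norm_num) (by linarith)]
  have hs0' : (0 : ℝ) < s0 := by exact_mod_cast hs0
  set K : ℝ := 16 * ((s0 : ℝ) + 4) + 3 with hK
  have hK1 : 1 ≤ K := by rw [hK]; linarith
  have hK0 : 0 < K := by linarith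
  refine ⟨α, K ^ α, hα0, by positivity, fun p r R hr hrR hp h => ?_⟩
  have hRp : (0 : ℝ) < R := by linarith
  have e : K ^ α * (r / R) ^ α = (K * r / R) ^ α := by
    rw [← Real.mul_rpow hK0.le (by positivity), mul_div_assoc]
  rw [e]
  by_cases hbig : R ≤ K * r
  · exact hp.trans (Real.one_le_rpow ((one_le_div hRp).2 hbig) hα0.le)
  · push Not at hbig
    obtain ⟨s, hs⟩ : ∃ s : ℤ, s = s0 + ⌈r⌉ + 2 := ⟨_, rfl⟩
    have hc1 : r ≤ ⌈r⌉ := Int.le_ceil r
    have hc2 : (⌈r⌉ : ℝ) < r + 1 := Int.ceil_lt_add_one r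
    have hs1 : (s : ℝ) ≤ (s0 + 4) * r := by
      rw [hs]; push_cast
      nlinarith
    have hs2 : r + 2 ≤ (s : ℝ) := by rw [hs]; push_cast; linarith
    have hs3 : s0 ≤ s := by
      have : (1 : ℝ) ≤ ⌈r⌉ := hr.trans hc1
      have : 1 ≤ ⌈r⌉ := by exact_mod_cast this
      omega
    have hs0'' : (0 : ℝ) < s := by linarith
    obtain ⟨m, hm1, hm2⟩ : ∃ m : ℕ, (16 : ℝ) ^ m * s + 3 ≤ R ∧ R < 16 ^ (m + 1) * s + 3 := by
      have hex : ∃ m : ℕ, R < 16 ^ m * s + 3 := by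
        obtain ⟨m, hm⟩ := pow_unbounded_of_one_lt R (by norm_num : (1 : ℝ) < 16)
        refine ⟨m, ?_⟩
        have : (1 : ℝ) ≤ s := by linarith
        nlinarith [pow_pos (by norm_num : (0 : ℝ) < 16) m]
      classical
      have h0 : Nat.find hex ≠ 0 := by
        intro h0
        have h1 := Nat.find_spec hex
        rw [h0, pow_zero] at h1
        nlinarith
      obtain ⟨k, hk⟩ := Nat.exists_eq_succ_of_ne_zero h0
      refine ⟨k, ?_, ?_⟩
      · have := Nat.find_min hex (m := k) (by omega)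
        push Not at this
        exact this
      · have := Nat.find_spec hex
        rwa [hk] at this
    refine (h s m hs3 hs2 hm1).trans ?_
    have h5 : (1 - δ) ^ m = ((16 : ℝ) ^ m) ^ (-α) := by
      rw [← h4, ← Real.rpow_natCast, ← Real.rpow_natCast, ← Real.rpow_mul (by norm_num),
        ← Real.rpow_mul (by norm_num), mul_comm]
    have h7 : (1 : ℝ) ≤ 16 ^ m := one_le_pow₀ (by norm_num)
    have h8 : R / (K * r) ≤ 16 ^ m := by
      rw [div_le_iff₀ (by positivity)]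
      have h9 : (16 : ℝ) ^ (m + 1) = 16 * 16 ^ m := by ring
      rw [h9] at hm2
      have h10 : R ≤ 16 ^ m * (16 * s + 3) := by nlinarith
      refine h10.trans (mul_le_mul_of_nonneg_left ?_ (by positivity))
      rw [hK]
      nlinarith
    rw [h5, Real.rpow_neg (by positivity), ← Real.inv_rpow (by positivity)]
    refine Real.rpow_le_rpow (by positivity) ?_ hα0.le
    rw [inv_le_comm₀ (by positivity) (by positivity), inv_div]
    exact h8

/-- Loops which visit only squares of a bounded region. -/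
theorem finite_loops_in (B : ℝ) : {ℓ : Finset Ed | ∀ v ∈ vs ℓ, (nm v : ℝ) < B}.Finite := by
  obtain ⟨N, hN⟩ := exists_int_gt B
  set S : Finset (ℤ × ℤ) := Finset.Icc (-(N + 1), -(N + 1)) (N + 1, N + 1) with hS
  set E : Finset Ed := S.image Sum.inl ∪ S.image Sum.inr with hE
  refine Set.Finite.subset (E.powerset.finite_toSet) ?_
  intro ℓ hℓ
  rw [Finset.mem_coe, Finset.mem_powerset]
  intro e he
  have h1 := hℓ (hdv e) (Finset.mem_image_of_mem _ he)
  have h2 : nm (hdv e) < N := by exact_mod_cast h1.trans hN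
  simp only [nm, max_lt_iff, abs_lt] at h2
  rw [hE, Finset.mem_union, Finset.mem_image, Finset.mem_image]
  rcases e with ⟨x, y⟩ | ⟨x, y⟩
  · left
    refine ⟨(x, y), ?_, rfl⟩
    rw [hS, Finset.mem_Icc, Prod.le_def, Prod.le_def]
    by_cases h : Even (x + y) <;> simp only [hdv, h, if_true, if_false] at h2 <;> dsimp only <;> omega
  · right
    refine ⟨(x, y), ?_, rfl⟩
    rw [hS, Finset.mem_Icc, Prod.le_def, Prod.le_def]
    by_cases h : Even (x + y) <;> simp only [hdv, h, if_true, if_false] at h2 <;> dsimp only <;> omega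

theorem Nn_ne_zero {ω : Cfg} {a b : ℝ} {ℓ : Finset Ed} (hℓ : IsLoop ω ℓ)
    (h : ∀ v ∈ vs ℓ, a < (nm v : ℝ) ∧ (nm v : ℝ) < b) (hW : W ℓ 0 ≠ 0) : Nn a b ω ≠ 0 := by
  unfold Nn
  rw [← Nat.pos_iff_ne_zero, Set.ncard_pos ((finite_loops_in b).subset fun ℓ h v hv => (h.2.1 v hv).2)]
  exact ⟨ℓ, hℓ, h, hW⟩

/-- The ring event: a primal circuit at scale `t`, a dual one at scale `4 t`. -/
def ringE (t : ℤ) : Set Mk := {o | Ann (-1) 0 t (SB o)} ∩ {o | Ann 0 (-1) (4 * t) (dl (SB o))}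

/-- The squares on which `ringE t` depends. -/
noncomputable def ringF (t : ℤ) : Finset Pt :=
  vxs (annF (-1) 0 t ∪ (annF 0 (-1) (4 * t)).image mir)

theorem vxs_union (R R' : Finset Pt) : vxs (R ∪ R') = vxs R ∪ vxs R' := by
  simp only [vxs, Finset.filter_union, Finset.image_union]

theorem dep_ringE {t : ℤ} (ht : 0 ≤ t) : Dep (ringF t) (ringE t) := by
  unfold ringF ringE
  rw [vxs_union]
  exact (dep_ann ht).inter' (dep_annd (by omega))

theorem disj_ring {t u : ℤ} (ht : 0 < t) (htu : 16 * t ≤ u) : Disjoint (ringF t) (ringF u) := by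
  refine disj_vxs ?_
  rw [Finset.disjoint_left]
  have h1 : ∀ t : ℤ, 0 < t → ∀ z ∈ annF (-1) 0 t ∪ (annF 0 (-1) (4 * t)).image mir,
      (2 * t ≤ z.1 + 2 ∨ z.1 + 2 ≤ -(2 * t) ∨ 2 * t ≤ z.2 ∨ z.2 ≤ -(2 * t)) ∧
      z.1 + 2 ≤ 16 * t + 1 ∧ -(16 * t + 1) ≤ z.1 + 2 ∧ z.2 ≤ 16 * t + 1 ∧ -(16 * t + 1) ≤ z.2 := by
    intro t ht z hz
    rw [Finset.mem_union, Finset.mem_image] at hz
    rcases hz with hz | ⟨w, hw, rfl⟩
    · rw [mem_annF, annR, Set.mem_ofPred_eq, mem_rc] at hz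
      omega
    · rw [mem_annF, annR, Set.mem_ofPred_eq, mem_rc] at hw
      simp only [mir]
      omega
  intro z hz hz'
  have h2 := h1 t ht z hz
  have h3 := h1 u (by omega) z hz'
  omega

theorem ringE_ge {c : ℝ} (hc : 0 ≤ c) {t : ℤ} (ht : 0 < t)
    (h1 : c ≤ μ.real {o | Ann (-1) 0 t (SB o)})
    (h2 : c ≤ μ.real {o | Ann 0 (-1) (4 * t) (dl (SB o))}) : c * c ≤ μ.real (ringE t) := by
  unfold ringE
  rw [fair_mu.indep ?_ (dep_ann ht.le) (dep_annd (by omega))]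
  · exact mul_le_mul h1 h2 hc measureReal_nonneg
  · refine disj_vxs ?_
    rw [Finset.disjoint_left]
    intro z hz hz'
    rw [Finset.mem_image] at hz'
    obtain ⟨w, hw, rfl⟩ := hz'
    rw [mem_annF, annR, Set.mem_ofPred_eq, mem_rc] at hz hw
    simp only [mir] at hz
    omega

/-- **D2 (S_ring).** -/
theorem s_ring (hbdP : S_bdP) (hjump : S_jump) (hstep : S_step) (hsign : S_sign) (hout : S_out) :
    S_ring := by
  obtain ⟨c', hc', r0, hr0, h'⟩ := ann_ge fair_mu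
  obtain ⟨c, hcd⟩ : ∃ c : ℝ, c = min c' (1 / 2) := ⟨_, rfl⟩
  have hc : 0 < c := by rw [hcd]; positivity
  have hc1 : c ≤ 1 / 2 := by rw [hcd]; exact min_le_right _ _
  have hcc : c ≤ c' := by rw [hcd]; exact min_le_left _ _
  obtain ⟨α, C, hα, hC, key⟩ := decay_of_scales (δ := c * c) (by positivity) (by nlinarith) hr0
  refine ⟨α, C, hα, fun r R hr hrR => key _ r R hr hrR measureReal_le_one ?_⟩
  intro s m hs hrs hR
  have hsp : 0 < s := by omega
  have h0 : ∀ i : ℕ, (0 : ℤ) < 16 ^ i * s := fun i => by positivity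
  have hge : ∀ i : ℕ, s ≤ 16 ^ i * s := fun i => by
    have : (1 : ℤ) ≤ 16 ^ i := one_le_pow₀ (by norm_num)
    nlinarith
  have hstepi : ∀ i j : ℕ, i < j → (16 : ℤ) * (16 ^ i * s) ≤ 16 ^ j * s := by
    intro i j hij
    obtain ⟨k, rfl⟩ : ∃ k, j = i + 1 + k := ⟨j - (i + 1), by omega⟩
    have h2 : (1 : ℤ) ≤ 16 ^ k := one_le_pow₀ (by norm_num)
    have h3 := h0 i
    have h4 : (16 : ℤ) ^ (i + 1 + k) * s = 16 ^ k * (16 * (16 ^ i * s)) := by ring
    rw [h4]
    nlinarith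
  have hsub : {ω : Cfg | Nn r R ω = 0} ⊆ ⋂ i ∈ Finset.range m, (ringE (16 ^ i * s))ᶜ := by
    intro ω hω
    simp only [Set.mem_iInter, Finset.mem_range, Set.mem_compl_iff]
    intro i hi hE
    obtain ⟨ℓ, hℓ, hv, hW⟩ := ring_det hbdP hjump hstep hsign hout (t := 16 ^ i * s)
      (t' := 4 * (16 ^ i * s)) (h0 i) (by have := h0 i; omega) hE.1 hE.2
    refine Nn_ne_zero hℓ (fun v hvv => ?_) hW hω
    obtain ⟨h1, h2⟩ := hv v hvv
    have h3 : s ≤ nm v := (hge i).trans h1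
    have h4 : nm v ≤ 16 ^ m * s + 2 := by
      have := hstepi i m hi
      omega
    have h3' : (s : ℝ) ≤ nm v := by exact_mod_cast h3
    have h4' : (nm v : ℝ) ≤ 16 ^ m * s + 2 := by exact_mod_cast h4
    constructor <;> linarith
  refine (measureReal_mono hsub).trans ?_
  rw [fair_mu.indep_range (fun i => ringF (16 ^ i * s)) _ (fun i => (dep_ringE (h0 i).le).compl) m
    (fun i j hij _ => disj_ring (h0 i) (hstepi i j hij))]
  calc _ ≤ ∏ _i ∈ Finset.range m, (1 - c * c) := by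
        refine Finset.prod_le_prod (fun i _ => measureReal_nonneg) (fun i _ => ?_)
        have := fair_mu.prob
        rw [probReal_compl_eq_one_sub (dep_ringE (h0 i).le).meas]
        have h1 := ringE_ge hc.le (h0 i)
          (hcc.trans (h' (16 ^ i * s) (hs.trans (hge i)) (-1) 0).1)
          (hcc.trans (h' (4 * (16 ^ i * s)) (by have := hge i; omega) 0 (-1)).2)
        linarith
    _ = (1 - c * c) ^ m := by simp

end Vale.Agent.P167.H871
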