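import Vale.Agent.P167.H871.Hole
import Vale.Agent.P167.H945.Tab

/-!
The table of the local strands at a hole: one wall ends and the next one begins.
-/

namespace Vale.Agent.P167.H871

open Finset
open Vale.Agent.P167.Top
open Vale.Agent.P167.H945 (Ln ln_hi ln_lo)
open Vale.Agent.P167.A (plane)
open Vale.Agent.P167.H199 (cang ah at' hb strand ret Returns)

theorem exists_Ln (z : ℤ × ℤ) (d : ℤ) : ∃ (h : Bool) (c t0 ε : ℤ), (ε = 1 ∨ ε = -1) ∧
    (∀ g τ, me g = pw z d τ → ∃ t, g = Ln h c t ∧ 2 * t = t0 + ε * τ) ∧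
    (∀ t, me (Ln h c t) = pw z d (ε * (2 * t - t0))) ∧
    (∀ t, (hd4 (Ln h c t) % 4 = (d + 1) % 4 ∧ sg (Ln h c t) = ε) ∨
      (hd4 (Ln h c t) % 4 = (d - 1) % 4 ∧ sg (Ln h c t) = -ε)) := by
  rcases head_cases d with ⟨a, b, c⟩ | ⟨a, b, c⟩ | ⟨a, b, c⟩ | ⟨a, b, c⟩
  · refine ⟨true, z.2 - 1, 2 * z.1 - 1, 1, Or.inl rfl, fun g τ hg => ?_, fun t => ?_, fun t => ?_⟩
    · unfold pw M2 at hg
      rw [b, c] at hg
      rcases g with ⟨x, y⟩ | ⟨x, y⟩
      · simp only [me, Prod.mk.injEq] at hg; omega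
      · simp only [me, Prod.mk.injEq] at hg
        refine ⟨x, ?_, by omega⟩
        simp only [Ln, if_true, Sum.inr.injEq, Prod.mk.injEq, true_and]
        omega
    · unfold pw M2
      rw [b, c]
      simp only [Ln, if_true, me]
      ext <;> simp only <;> ring
    · by_cases hp : Even (t + (z.2 - 1))
      · right
        simp only [Ln, if_true, hd4, sg, hp, and_true]
        omega
      · left
        simp only [Ln, if_true, hd4, sg, hp, if_false, and_true]
        omega
  · refine ⟨false, z.1 - 1, -2 * z.2 - 1, -1, Or.inr rfl, fun g τ hg => ?_, fun t => ?_,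
      fun t => ?_⟩
    · unfold pw M2 at hg
      rw [b, c] at hg
      rcases g with ⟨x, y⟩ | ⟨x, y⟩
      · simp only [me, Prod.mk.injEq] at hg
        refine ⟨-y - 1, ?_, by omega⟩
        simp only [Ln, Bool.false_eq_true, if_false, Sum.inl.injEq, Prod.mk.injEq, true_and]
        omega
      · simp only [me, Prod.mk.injEq] at hg; omega
    · unfold pw M2
      rw [b, c]
      simp only [Ln, Bool.false_eq_true, if_false, me]
      ext <;> simp only <;> ring
    · by_cases hp : Even (z.1 - 1 + (-t - 1))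
      · right
        simp only [Ln, Bool.false_eq_true, if_false, hd4, sg, hp, if_true, and_true]
        omega
      · left
        simp only [Ln, Bool.false_eq_true, if_false, hd4, sg, hp, and_true]
        omega
  · refine ⟨true, z.2 - 1, 2 * z.1 - 1, -1, Or.inr rfl, fun g τ hg => ?_, fun t => ?_,
      fun t => ?_⟩
    · unfold pw M2 at hg
      rw [b, c] at hg
      rcases g with ⟨x, y⟩ | ⟨x, y⟩
      · simp only [me, Prod.mk.injEq] at hg; omega
      · simp only [me, Prod.mk.injEq] at hg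
        refine ⟨x, ?_, by omega⟩
        simp only [Ln, if_true, Sum.inr.injEq, Prod.mk.injEq, true_and]
        omega
    · unfold pw M2
      rw [b, c]
      simp only [Ln, if_true, me]
      ext <;> simp only <;> ring
    · by_cases hp : Even (t + (z.2 - 1))
      · left
        simp only [Ln, if_true, hd4, sg, hp, and_true]
        omega
      · right
        simp only [Ln, if_true, hd4, sg, hp, if_false, and_true]
        omega
  · refine ⟨false, z.1 - 1, -2 * z.2 - 1, 1, Or.inl rfl, fun g τ hg => ?_, fun t => ?_,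
      fun t => ?_⟩
    · unfold pw M2 at hg
      rw [b, c] at hg
      rcases g with ⟨x, y⟩ | ⟨x, y⟩
      · simp only [me, Prod.mk.injEq] at hg
        refine ⟨-y - 1, ?_, by omega⟩
        simp only [Ln, Bool.false_eq_true, if_false, Sum.inl.injEq, Prod.mk.injEq, true_and]
        omega
      · simp only [me, Prod.mk.injEq] at hg; omega
    · unfold pw M2
      rw [b, c]
      simp only [Ln, Bool.false_eq_true, if_false, me]
      ext <;> simp only <;> ring
    · by_cases hp : Even (z.1 - 1 + (-t - 1))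
      · left
        simp only [Ln, Bool.false_eq_true, if_false, hd4, sg, hp, if_true, and_true]
        omega
      · right
        simp only [Ln, Bool.false_eq_true, if_false, hd4, sg, hp, and_true]
        omega

/-- Turning of a piece with both ends on the same line, the interior passages through this line
being all beyond both ends on the side `κ`. -/
theorem line_same {ω : Cfg} {e : Ed} {n : ℕ} {z : ℤ × ℤ} {d τ0 τ1 κ : ℤ} (hn : 1 ≤ n)
    (he : me e = pw z d τ0) (hf : me ((nx ω)^[n] e) = pw z d τ1) (hκ : κ = 1 ∨ κ = -1)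
    (hint : ∀ i, 0 < i → i < n → ∀ τ, me ((nx ω)^[i] e) = pw z d τ →
      κ * τ0 < κ * τ ∧ κ * τ1 < κ * τ) :
    (hd4 e % 4 = hd4 ((nx ω)^[n] e) % 4 ∧ ∑ k ∈ range n, trn ω ((nx ω)^[k] e) =
      if hd4 e % 4 = (d + 1) % 4 then -4 * κ else 4 * κ) ∨
    (hd4 e % 4 ≠ hd4 ((nx ω)^[n] e) % 4 ∧ (∑ k ∈ range n, trn ω ((nx ω)^[k] e) = 2 ∨
      ∑ k ∈ range n, trn ω ((nx ω)^[k] e) = -2)) := by
  obtain ⟨h, c, t0, ε, hε, h1, h2, h3⟩ := exists_Ln z d
  obtain ⟨a, rfl, ha⟩ := h1 _ _ he
  obtain ⟨b, hb, hb'⟩ := h1 _ _ hf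
  have hne : ∀ k, 1 ≤ k → k < n → (nx ω)^[k] (Ln h c a) ≠ Ln h c a := by
    intro k k1 k2 k3
    have := hint k k1 k2 τ0 (by rw [k3]; exact he)
    omega
  have s1 := h3 a
  have s2 := h3 b
  have s1' : sg (Ln h c a) = 1 ∨ sg (Ln h c a) = -1 := by omega
  have s2' : sg (Ln h c b) = 1 ∨ sg (Ln h c b) = -1 := by omega
  rw [hb]
  have fin : ∀ T : ℤ, (T = if sg (Ln h c b) = - sg (Ln h c a) then
        (if b < a then 2 * sg (Ln h c a) else -2 * sg (Ln h c a))
      else -4 * (κ * ε) * sg (Ln h c a)) →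
      (hd4 (Ln h c a) % 4 = hd4 (Ln h c b) % 4 ∧ T =
        if hd4 (Ln h c a) % 4 = (d + 1) % 4 then -4 * κ else 4 * κ) ∨
      (hd4 (Ln h c a) % 4 ≠ hd4 (Ln h c b) % 4 ∧ (T = 2 ∨ T = -2)) := by
    intro T hT
    by_cases hs : sg (Ln h c b) = - sg (Ln h c a)
    · right
      rw [if_pos hs] at hT
      refine ⟨by omega, ?_⟩
      split_ifs at hT <;> omega
    · left
      rw [if_neg hs] at hT
      refine ⟨by omega, ?_⟩
      rcases s1 with ⟨p1, p2⟩ | ⟨p1, p2⟩
      · rw [if_pos p1, hT, p2]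
        rcases hε with rfl | rfl <;> ring
      · rw [if_neg (by omega), hT, p2]
        rcases hε with rfl | rfl <;> ring
  apply fin
  have hint' : ∀ i, 0 < i → i < n → ∀ x, (nx ω)^[i] (Ln h c a) = Ln h c x →
      κ * τ0 < κ * (ε * (2 * x - t0)) ∧ κ * τ1 < κ * (ε * (2 * x - t0)) := by
    intro i i1 i2 x hx
    exact hint i i1 i2 _ (by rw [hx]; exact h2 x)
  rcases (by rcases hκ with rfl | rfl <;> rcases hε with rfl | rfl <;> simp :
    κ * ε = 1 ∨ κ * ε = -1) with hk | hk
  · have := ln_hi hn hb hne (fun i i1 i2 x hx => by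
      have := hint' i i1 i2 x hx
      rcases hκ with rfl | rfl <;> rcases hε with rfl | rfl <;> omega)
    rw [this, hk]
    simp
  · have := ln_lo hn hb hne (fun i i1 i2 x hx => by
      have := hint' i i1 i2 x hx
      rcases hκ with rfl | rfl <;> rcases hε with rfl | rfl <;> omega)
    rw [this, hk]
    simp

end Vale.Agent.P167.H871
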