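import Vale.Agent.P167.H871.Tab3
import Vale.Agent.P167.H871.OutX
import Vale.Agent.P167.XDL.Core

/-!
The cuts of a polygon near a site: the local structure `LW`.
-/

namespace Vale.Agent.P167.H871

open Finset
open Vale.Agent.P167.Top
open Vale.Agent.P167.A (plane)
open Vale.Agent.P167.H199 (cang ah at' hb strand ret Returns)
open Vale.Agent.P167.E6 (IsPolygon Encloses dir face)
open Vale.Agent.P167.BR (be be_sides be_bd)
open Vale.Agent.P167.XDL (bS mem_bS exists_idx P4_be ah_add_at)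

variable {N : ℕ} {q : ZMod N → ℤ × ℤ} {D : Finset (ℤ × ℤ)} {u : ℕ → ℤ} {a : Ed → Bool → ℝ}
  {K : ℝ}

/-- The polygon near the site `q k0`: two straight pieces, no other sites. -/
structure Win (q : ZMod N → ℤ × ℤ) (u : ℕ → ℤ) (k0 R : ℕ) : Prop where
  lo : R ≤ k0
  hi : k0 + R ≤ N
  ub : ∀ k, k0 ≤ k → k < k0 + R → u k = u k0
  ua : ∀ k, k0 - R ≤ k → k < k0 → u k = u (k0 - 1)
  near : ∀ k < N, nm (q (k : ZMod N) - q (k0 : ZMod N)) < R → k0 - R ≤ k ∧ k < k0 + R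

theorem Win.posB {k0 R : ℕ} (h : Win q u k0 R)
    (hu : Bd (D : Set (ℤ × ℤ)) N (fun k => q (k : ZMod N)) u 1) (j : ℕ) (hj : j ≤ R) :
    q ((k0 + j : ℕ) : ZMod N) = q (k0 : ZMod N) + ((j : ℤ) * dx (u k0), (j : ℤ) * dy (u k0)) := by
  induction j with
  | zero => simp
  | succ j ih =>
    have h1 := hu.step (k0 + j)
    try simp only at h1
    rw [← add_assoc, h1, ih (by omega), h.ub (k0 + j) (by omega) (by omega)]
    unfold vec
    push_cast
    ext <;> simp only [Prod.fst_add, Prod.snd_add] <;> ring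

theorem Win.posA {k0 R : ℕ} (h : Win q u k0 R)
    (hu : Bd (D : Set (ℤ × ℤ)) N (fun k => q (k : ZMod N)) u 1) (j : ℕ) (hj : j ≤ R) :
    q ((k0 - j : ℕ) : ZMod N) = q (k0 : ZMod N) -
      ((j : ℤ) * dx (u (k0 - 1)), (j : ℤ) * dy (u (k0 - 1))) := by
  have hlo := h.lo
  induction j with
  | zero => ext <;> simp
  | succ j ih =>
    have h1 := hu.step (k0 - (j + 1))
    try simp only at h1
    rw [show k0 - (j + 1) + 1 = k0 - j by omega, ih (by omega),
      h.ua (k0 - (j + 1)) (by omega) (by omega)] at h1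
    have h2 : q ((k0 - (j + 1) : ℕ) : ZMod N) = q (k0 : ZMod N) -
        ((j : ℤ) * dx (u (k0 - 1)), (j : ℤ) * dy (u (k0 - 1))) - vec (u (k0 - 1)) :=
      eq_sub_of_add_eq h1.symm
    rw [h2]
    unfold vec
    push_cast
    ext <;> simp only [Prod.fst_sub, Prod.snd_sub] <;> ring

theorem me_be (hq : IsPolygon q) (hu : Bd (D : Set (ℤ × ℤ)) N (fun k => q (k : ZMod N)) u 1)
    (k : ℕ) : me (be q (k : ZMod N)) = pw (q (k : ZMod N)) (u k) 1 := by
  have h := P4_be hq hu k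
  rw [M4_eq] at h
  unfold P4 at h
  unfold pw M2
  have h1 := congrArg Prod.fst h
  have h2 := congrArg Prod.snd h
  simp only at h1 h2
  ext <;> simp only <;> omega

theorem Win.meB {k0 R : ℕ} (h : Win q u k0 R) (hq : IsPolygon q)
    (hu : Bd (D : Set (ℤ × ℤ)) N (fun k => q (k : ZMod N)) u 1) {j : ℕ} (hj : j < R) :
    me (be q ((k0 + j : ℕ) : ZMod N)) = pw (q (k0 : ZMod N)) (u k0) (2 * j + 1) := by
  rw [me_be hq hu, h.posB hu j hj.le, h.ub (k0 + j) (by omega) (by omega)]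
  unfold pw M2
  ext <;> simp only [Prod.fst_add, Prod.snd_add] <;> ring

theorem Win.meA {k0 R : ℕ} (h : Win q u k0 R) (hq : IsPolygon q)
    (hu : Bd (D : Set (ℤ × ℤ)) N (fun k => q (k : ZMod N)) u 1) {j : ℕ} (hj : j < R) :
    me (be q ((k0 - (j + 1) : ℕ) : ZMod N)) =
      pw (q (k0 : ZMod N)) (u (k0 - 1)) (-(2 * j + 1)) := by
  have hlo := h.lo
  rw [me_be hq hu, h.posA hu (j + 1) hj, h.ua (k0 - (j + 1)) (by omega) (by omega)]
  unfold pw M2
  push_cast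
  ext <;> simp only [Prod.fst_sub, Prod.snd_sub] <;> ring

theorem me_par (g : Ed) : ((me g).1 + (me g).2) % 2 = 1 := by
  have := P4_par g
  unfold P4 at this
  simp only at this
  omega

theorem me_inj' {g g' : Ed} (h : me g = me g') : g = g' := by
  apply P4_inj
  unfold P4
  rw [h]

theorem pw_odd {g : Ed} {z : ℤ × ℤ} {d τ : ℤ} (h : me g = pw z d τ) : τ % 2 = 1 := by
  have h1 := me_par g
  rw [h] at h1
  unfold pw M2 at h1
  simp only at h1
  rcases head_cases d with ⟨a, b, c⟩ | ⟨a, b, c⟩ | ⟨a, b, c⟩ | ⟨a, b, c⟩ <;>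
    rw [b, c] at h1 <;> omega

/-- The squares of an edge near a site. -/
theorem me_near (g : Ed) : |(me g).1 - 2 * (hdv g).1| ≤ 1 ∧ |(me g).2 - 2 * (hdv g).2| ≤ 1 ∧
    |(me g).1 - 2 * (tlv g).1| ≤ 1 ∧ |(me g).2 - 2 * (tlv g).2| ≤ 1 := by
  have h1 := hdv_eq g
  have h2 := me_eq g
  unfold vec at h1
  rw [h1, h2]
  simp only [Prod.fst_add, Prod.snd_add]
  rcases head_cases (hd4 g) with ⟨a, b, c⟩ | ⟨a, b, c⟩ | ⟨a, b, c⟩ | ⟨a, b, c⟩ <;>
    rw [b, c] <;> simp only [abs_le] <;> omega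

/-- Phases at the two sides of the cuts. -/
structure Sides (q : ZMod N → ℤ × ℤ) (D : Finset (ℤ × ℤ)) (u : ℕ → ℤ) (S : Finset Ed)
    (a : Ed → Bool → ℝ) (K : ℝ) : Prop where
  hd : ∀ k < N, be q (k : ZMod N) ∈ S → hdv (be q (k : ZMod N)) ∈ D →
    ah plane a (be q (k : ZMod N)) = Real.pi / 12 * u k + K ∧
    at' plane a (be q (k : ZMod N)) = -(Real.pi / 12 * u k + K - Real.pi / 6)
  tl : ∀ k < N, be q (k : ZMod N) ∈ S → tlv (be q (k : ZMod N)) ∈ D →
    ah plane a (be q (k : ZMod N)) = Real.pi / 12 * u k + K - Real.pi / 6 ∧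
    at' plane a (be q (k : ZMod N)) = -(Real.pi / 12 * u k + K)

theorem Sides.fc {S : Finset Ed} (h : Sides q D u S a K) (hq : IsPolygon q)
    (hu : Bd (D : Set (ℤ × ℤ)) N (fun k => q (k : ZMod N)) u 1) {k : ℕ} (hk : k < N)
    (hS : be q (k : ZMod N) ∈ S) : Fc a (be q (k : ZMod N)) (u k) K := by
  have h1 := side (P4_be hq hu k)
  have h2 := hu.left k
  try simp only at h2
  constructor
  · intro h3
    rcases h1 with ⟨_, h4, _⟩ | ⟨h4, _⟩
    · exact h.hd k hk hS (by rw [h4]; exact h2)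
    · omega
  · intro h3
    rcases h1 with ⟨h4, _⟩ | ⟨_, _, h4⟩
    · omega
    · exact h.tl k hk hS (by rw [h4]; exact h2)

/-- **The cuts near a site of the polygon.** -/
theorem LW_mk (hq : IsPolygon q) (hD : Encloses q D)
    (hu : Bd (D : Set (ℤ × ℤ)) N (fun k => q (k : ZMod N)) u 1) {k0 R : ℕ} (hW : Win q u k0 R)
    {S : Finset Ed} (hSb : S ⊆ bS D) {s1 s2 : ℕ}
    (hS : ∀ k, k0 - R ≤ k → k < k0 + R →
      (be q (k : ZMod N) ∈ S ↔ k + s1 < k0 ∨ k0 + s2 ≤ k))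
    (hs : Sides q D u S a K) {r : ℤ} (hr : r + 2 ≤ R)
    (hoff : ∀ g ∉ S, (nm (hdv g - q (k0 : ZMod N)) ≤ r ∨ nm (tlv g - q (k0 : ZMod N)) ≤ r) →
      a g false + a g true = 0) :
    LW S a {v | nm (v - q (k0 : ZMod N)) ≤ r} (q (k0 : ZMod N)) (u (k0 - 1)) (u k0)
      (2 * s1 + 1) (2 * s2 + 1) K := by
  have hlo := hW.lo
  have hhi := hW.hi
  -- an edge near the site on a ray
  have hdist : ∀ (g : Ed) (d τ : ℤ), (nm (hdv g - q (k0 : ZMod N)) ≤ r ∨
      nm (tlv g - q (k0 : ZMod N)) ≤ r) → me g = pw (q (k0 : ZMod N)) d τ → |τ| ≤ 2 * r + 2 := by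
    intro g d τ hg hm
    obtain ⟨n1, n2, n3, n4⟩ := me_near g
    rw [abs_le] at n1 n2 n3 n4 ⊢
    rw [hm] at n1 n2 n3 n4
    unfold pw M2 at n1 n2 n3 n4
    simp only at n1 n2 n3 n4
    rw [H632.nm_le, H632.nm_le] at hg
    simp only [Prod.fst_sub, Prod.snd_sub] at hg
    rcases head_cases d with ⟨a, b, c⟩ | ⟨a, b, c⟩ | ⟨a, b, c⟩ | ⟨a, b, c⟩ <;>
      simp only [b, c] at n1 n2 n3 n4 <;> rcases hg with hg | hg <;> omega
  have hrayB : ∀ (g : Ed) (τ : ℤ), (nm (hdv g - q (k0 : ZMod N)) ≤ r ∨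
      nm (tlv g - q (k0 : ZMod N)) ≤ r) → 1 ≤ τ → me g = pw (q (k0 : ZMod N)) (u k0) τ →
      ∃ j : ℕ, j < R ∧ τ = 2 * j + 1 ∧ g = be q ((k0 + j : ℕ) : ZMod N) := by
    intro g τ hg h1 hm
    have h2 := abs_le.1 (hdist g _ τ hg hm)
    have h3 := pw_odd hm
    obtain ⟨j, hj⟩ : ∃ j : ℕ, τ = 2 * j + 1 := ⟨((τ - 1) / 2).toNat, by omega⟩
    have hjR : j < R := by omega
    refine ⟨j, hjR, hj, me_inj' ?_⟩
    rw [hm, hW.meB hq hu hjR, hj]
  have hrayA : ∀ (g : Ed) (τ : ℤ), (nm (hdv g - q (k0 : ZMod N)) ≤ r ∨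
      nm (tlv g - q (k0 : ZMod N)) ≤ r) → 1 ≤ τ → me g = pw (q (k0 : ZMod N)) (u (k0 - 1)) (-τ) →
      ∃ j : ℕ, j < R ∧ τ = 2 * j + 1 ∧ g = be q ((k0 - (j + 1) : ℕ) : ZMod N) := by
    intro g τ hg h1 hm
    have h2 := abs_le.1 (hdist g _ (-τ) hg hm)
    have h3 := pw_odd hm
    obtain ⟨j, hj⟩ : ∃ j : ℕ, τ = 2 * j + 1 := ⟨((τ - 1) / 2).toNat, by omega⟩
    have hjR : j < R := by omega
    refine ⟨j, hjR, hj, me_inj' ?_⟩
    rw [hm, hW.meA hq hu hjR, hj]
  refine ⟨?_, by omega, by omega, ?_, ?_, ?_, ?_⟩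
  · rcases Nat.eq_zero_or_pos R with h0 | h0
    · subst h0
      rcases Nat.eq_zero_or_pos k0 with h1 | h1
      · subst h1; simp
      · have := hu.turn (k0 - 1)
        rwa [show k0 - 1 + 1 = k0 by omega] at this
    · have := hu.turn (k0 - 1)
      rwa [show k0 - 1 + 1 = k0 by omega] at this
  · intro g hg
    constructor
    · intro hgS
      obtain ⟨k, hk, hgk⟩ := exists_idx hq hD hu (hSb hgS)
      have hnear : nm (q (k : ZMod N) - q (k0 : ZMod N)) < R := by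
        have h1 := me_be hq hu k
        rw [← hgk] at h1
        obtain ⟨n1, n2, n3, n4⟩ := me_near g
        rw [abs_le] at n1 n2 n3 n4
        rw [h1] at n1 n2 n3 n4
        unfold pw M2 at n1 n2 n3 n4
        simp only at n1 n2 n3 n4
        have hg' : nm (hdv g - q (k0 : ZMod N)) ≤ r ∨ nm (tlv g - q (k0 : ZMod N)) ≤ r := hg
        rw [H632.nm_le, H632.nm_le] at hg'
        simp only [Prod.fst_sub, Prod.snd_sub] at hg'
        refine lt_of_le_of_lt (b := r + 1) ?_ (by omega)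
        rw [H632.nm_le]
        simp only [Prod.fst_sub, Prod.snd_sub]
        rcases head_cases (u k) with ⟨a, b, c⟩ | ⟨a, b, c⟩ | ⟨a, b, c⟩ | ⟨a, b, c⟩ <;>
          simp only [b, c] at n1 n2 n3 n4 <;> rcases hg' with hg' | hg' <;> omega
      obtain ⟨w1, w2⟩ := hW.near k hk hnear
      rw [hgk, hS k w1 w2] at hgS
      rcases Nat.lt_or_ge k k0 with h3 | h3
      · left
        obtain ⟨j, hj⟩ : ∃ j : ℕ, k = k0 - (j + 1) ∧ j < R := ⟨k0 - 1 - k, by omega, by omega⟩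
        refine ⟨2 * j + 1, by omega, ?_⟩
        rw [hgk, hj.1]
        exact hW.meA hq hu hj.2
      · right
        obtain ⟨j, hj⟩ : ∃ j : ℕ, k = k0 + j ∧ j < R := ⟨k - k0, by omega, by omega⟩
        refine ⟨2 * j + 1, by omega, ?_⟩
        rw [hgk, hj.1]
        exact hW.meB hq hu hj.2
    · rintro (⟨τ, h1, h2⟩ | ⟨τ, h1, h2⟩)
      · obtain ⟨j, hj, hj', hgj⟩ := hrayA g τ hg (by omega) h2
        rw [hgj, hS _ (by omega) (by omega)]
        left; omega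
      · obtain ⟨j, hj, hj', hgj⟩ := hrayB g τ hg (by omega) h2
        rw [hgj, hS _ (by omega) (by omega)]
        right; omega
  · intro g hg hgS
    rw [ah_add_at, hoff g hgS hg, zero_mul]
  · intro g hg τ h1 h2
    obtain ⟨j, hj, hj', hgj⟩ := hrayA g τ hg (by omega) h2
    have hgS : be q ((k0 - (j + 1) : ℕ) : ZMod N) ∈ S := by
      rw [hS _ (by omega) (by omega)]
      left; omega
    have h3 := hs.fc hq hu (by omega) hgS
    rw [← hgj, hW.ua (k0 - (j + 1)) (by omega) (by omega)] at h3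
    exact h3
  · intro g hg τ h1 h2
    obtain ⟨j, hj, hj', hgj⟩ := hrayB g τ hg (by omega) h2
    have hgS : be q ((k0 + j : ℕ) : ZMod N) ∈ S := by
      rw [hS _ (by omega) (by omega)]
      right; omega
    have h3 := hs.fc hq hu (by omega) hgS
    rw [← hgj, hW.ub (k0 + j) (by omega) (by omega)] at h3
    exact h3

end Vale.Agent.P167.H871
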