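import Vale.Agent.P167.H871.TabG
import Vale.Agent.P167.XDL.EnlS

/-!
Holes of the enlarged polygon: geometry.
-/

namespace Vale.Agent.P167.H871

open Finset
open Vale.Agent.P167.Top
open Vale.Agent.P167.E6 (IsPolygon Encloses dir face)
open Vale.Agent.P167.H825 (dirOf tn enl pdir ptau Wall WC Marks rnd bsite sideWall pwall PW dv epos
  FlowIn)
open Vale.Agent.P167.BR (be)
open Vale.Agent.P167.Enl

theorem mul_cases (n A : ℤ) (hn : 0 < n) : (A = 0 ∧ n * A = 0) ∨ (A = 1 ∧ n * A = n) ∨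
    (A = -1 ∧ n * A = -n) ∨ (2 ≤ A ∧ 2 * n ≤ n * A) ∨ (A ≤ -2 ∧ n * A ≤ -(2 * n)) := by
  rcases (by omega : A = 0 ∨ A = 1 ∨ A = -1 ∨ 2 ≤ A ∨ A ≤ -2) with h | h | h | h | h
  · left; subst h; simp
  · right; left; subst h; simp
  · right; right; left; subst h; simp
  · right; right; right; left; exact ⟨h, by nlinarith⟩
  · right; right; right; right; exact ⟨h, by nlinarith⟩

theorem dir_cases (r : Fin 4) : dir r = (1, 0) ∨ dir r = (0, 1) ∨ dir r = (-1, 0) ∨
    dir r = (0, -1) := by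
  fin_cases r <;> simp [dir]

theorem seg_near {n σ σ' R : ℤ} {P P' : ℤ × ℤ} {r r' : Fin 4} (h1 : R ≤ σ) (h2 : σ + R ≤ n)
    (hσ0 : 0 ≤ σ') (hσ' : σ' < n) (hR : 0 < R)
    (h : nm (n • P' + σ' • dir r' - (n • P + σ • dir r)) < R) :
    (P' = P ∧ σ' < σ + R ∧ σ < σ' + R) ∨ (P' = P + dir r ∧ P = P' + dir r') := by
  obtain ⟨x, y⟩ := P
  obtain ⟨x', y'⟩ := P'
  have hn : 0 < n := by omega
  have h' : nm (n • (x', y') + σ' • dir r' - (n • (x, y) + σ • dir r)) ≤ R - 1 := by omega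
  rw [H632.nm_le] at h'
  have e1 : n * x' - n * x = n * (x' - x) := by ring
  have e2 : n * y' - n * y = n * (y' - y) := by ring
  have c1 := mul_cases n (x' - x) hn
  have c2 := mul_cases n (y' - y) hn
  rw [← e1] at c1
  rw [← e2] at c2
  clear h e1 e2
  rcases dir_cases r with hr | hr | hr | hr <;> rcases dir_cases r' with hr' | hr' | hr' | hr' <;>
    simp only [hr, hr', Prod.smul_mk, smul_eq_mul, Prod.mk_add_mk, Prod.mk_sub_mk, mul_one, mul_zero,
      add_zero, mul_neg, Prod.mk.injEq] at h' ⊢ <;>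
    omega

theorem cor_near {n σ' R : ℤ} {P P' : ℤ × ℤ} {r' : Fin 4} (h2 : 2 * R ≤ n)
    (hσ0 : 0 ≤ σ') (hσ' : σ' < n) (hR : 0 < R) (h : nm (n • P' + σ' • dir r' - n • P) < R) :
    (P' = P ∧ σ' < R) ∨ (P = P' + dir r' ∧ n < σ' + R) := by
  obtain ⟨x, y⟩ := P
  obtain ⟨x', y'⟩ := P'
  have hn : 0 < n := by omega
  have h' : nm (n • (x', y') + σ' • dir r' - n • (x, y)) ≤ R - 1 := by omega
  rw [H632.nm_le] at h'
  have e1 : n * x' - n * x = n * (x' - x) := by ring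
  have e2 : n * y' - n * y = n * (y' - y) := by ring
  have c1 := mul_cases n (x' - x) hn
  have c2 := mul_cases n (y' - y) hn
  rw [← e1] at c1
  rw [← e2] at c2
  clear h e1 e2
  rcases dir_cases r' with hr' | hr' | hr' | hr' <;>
    simp only [hr', Prod.smul_mk, smul_eq_mul, Prod.mk_add_mk, Prod.mk_sub_mk, mul_one, mul_zero,
      add_zero, mul_neg, Prod.mk.injEq] at h' ⊢ <;>
    omega

end Vale.Agent.P167.H871
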