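import Vale.Agent.P167.H871.TabH

/-!
Holes of the enlarged polygon: indices.
-/

namespace Vale.Agent.P167.H871

open Finset
open Vale.Agent.P167.Top
open Vale.Agent.P167.E6 (IsPolygon Encloses dir face)
open Vale.Agent.P167.H825 (dirOf tn enl pdir ptau Wall WC Marks rnd bsite sideWall pwall PW dv epos
  FlowIn)
open Vale.Agent.P167.BR (be)
open Vale.Agent.P167.Enl

/-- The integer position of a mark. -/
noncomputable def st (Q : Marks) (n i j : ℕ) : ℕ := ⌊Q.θ i j * n⌋₊

/-- The marks and the base point are at distance at least `R`. -/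
structure MI (l n d R : ℕ) (Q : Marks) : Prop where
  z : ∀ i, st Q n i 0 = 0
  o : ∀ i, st Q n i (Q.m + 1) = n
  gap : ∀ i < l, ∀ j ≤ Q.m, st Q n i j + R + d + 3 ≤ st Q n i (j + 1)
  base : ∀ j ≤ Q.m + 1, st Q n 0 j + R + 1 ≤ tB n Q ∨ tB n Q + R + 1 ≤ st Q n 0 j
  d1 : 1 ≤ d
  R1 : 1 ≤ R
  tn : tB n Q < n

variable {l : ℕ} {p : ZMod l → ℤ × ℤ} {n : ℕ} {S₀ : Finset (ℤ × ℤ)} {Q : Marks} {d R : ℕ}

theorem MI.mono (h : MI l n d R Q) {i j j' : ℕ} (hi : i < l) (hj : j < j') (hj' : j' ≤ Q.m + 1) :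
    st Q n i j + R + d + 3 ≤ st Q n i j' := by
  induction j', hj using Nat.le_induction with
  | base => exact h.gap i hi j (by omega)
  | succ j' hj ih =>
    have h1 := ih (by omega)
    have h2 := h.gap i hi j' (by omega)
    omega

theorem MI.le_n (h : MI l n d R Q) {i j : ℕ} (hi : i < l) (hj : j ≤ Q.m) :
    st Q n i j + R + d + 3 ≤ n := by
  have h1 := h.mono hi (show j < Q.m + 1 by omega) le_rfl
  rwa [h.o] at h1

theorem MI.tR (h : MI l n d R Q) : R + 1 ≤ tB n Q ∧ tB n Q + R + 1 ≤ n := by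
  have h1 := h.base 0 (by omega)
  have h2 := h.base (Q.m + 1) le_rfl
  have h3 := h.z 0
  have h4 := h.o 0
  have h5 := h.tn
  omega

theorem MI.mul (_h : MI l n d R Q) (hl : 2 < l) {i : ℕ} (hi : i < l) :
    i * n + n ≤ l * n ∧ 3 * n ≤ l * n ∧ (i = 0 ∨ n ≤ i * n) := by
  refine ⟨?_, Nat.mul_le_mul_right n hl, ?_⟩
  · have h1 : (i + 1) * n ≤ l * n := Nat.mul_le_mul_right n hi
    rwa [add_mul, one_mul] at h1
  · rcases Nat.eq_zero_or_pos i with h0 | h0
    · exact Or.inl h0
    · exact Or.inr (Nat.le_mul_of_pos_left n h0)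

/-- After the hole. -/
theorem MI.kB (h : MI l n d R Q) (hl : 2 < l) {i j : ℕ} (hi : i < l) (hj : j ≤ Q.m) {a : ℕ}
    (ha : a ≤ R) : kOf l n (tB n Q) i (st Q n i j + a) = kOf l n (tB n Q) i (st Q n i j) + a := by
  obtain ⟨m1, m2, m3⟩ := h.mul hl hi
  have t1 := h.tR
  have t2 := h.le_n hi hj
  unfold kOf
  rcases Nat.eq_zero_or_pos i with h0 | h0
  · subst h0
    have t3 := h.base j (by omega)
    rw [zero_mul]
    split_ifs <;> omega
  · have : n ≤ i * n := m3.resolve_left (by omega)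
    split_ifs <;> omega

/-- The last positions before the hole. -/
structure Prv (l n R : ℕ) (Q : Marks) (i j iA jA : ℕ) : Prop where
  ilt : iA < l
  jle : jA ≤ Q.m
  cas : (1 ≤ j ∧ iA = i ∧ jA + 1 = j) ∨ (j = 0 ∧ jA = Q.m ∧ ((1 ≤ i ∧ iA + 1 = i) ∨
    (i = 0 ∧ iA + 1 = l)))
  lo : R ≤ kOf l n (tB n Q) i (st Q n i j)
  k : ∀ b, 1 ≤ b → b ≤ R → kOf l n (tB n Q) iA (st Q n iA (jA + 1) - b) =
    kOf l n (tB n Q) i (st Q n i j) - b

theorem MI.lo (h : MI l n d R Q) (hl : 2 < l) {i j : ℕ} (hi : i < l) (hj : j ≤ Q.m) :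
    R ≤ kOf l n (tB n Q) i (st Q n i j) ∧ kOf l n (tB n Q) i (st Q n i j) + R ≤ l * n := by
  obtain ⟨m1, m2, m3⟩ := h.mul hl hi
  have t1 := h.tR
  have t2 := h.le_n hi hj
  unfold kOf
  rcases Nat.eq_zero_or_pos i with h0 | h0
  · subst h0
    have t3 := h.base j (by omega)
    rw [zero_mul] at *
    split_ifs <;> omega
  · have : n ≤ i * n := m3.resolve_left (by omega)
    split_ifs <;> omega

/-- Before the hole. -/
theorem MI.prv (h : MI l n d R Q) (hl : 2 < l) {i j : ℕ} (hi : i < l) (hj : j ≤ Q.m) :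
    ∃ iA jA, Prv l n R Q i j iA jA := by
  obtain ⟨m1, m2, m3⟩ := h.mul hl hi
  have t1 := h.tR
  have t2 := h.le_n hi hj
  have hlo := (h.lo hl hi hj).1
  rcases Nat.eq_zero_or_pos j with hj0 | hj0
  · subst hj0
    have hz := h.z i
    rcases Nat.eq_zero_or_pos i with h0 | h0
    · subst h0
      refine ⟨l - 1, Q.m, by omega, le_rfl, Or.inr ⟨rfl, rfl, Or.inr ⟨rfl, by omega⟩⟩, hlo, ?_⟩
      intro b b1 b2
      rw [h.o, hz]
      have e1 : (l - 1) * n + n = l * n := by
        obtain ⟨l', rfl⟩ : ∃ l', l = l' + 1 := ⟨l - 1, by omega⟩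
        rw [Nat.add_sub_cancel]; ring
      unfold kOf
      rw [zero_mul]
      split_ifs <;> omega
    · refine ⟨i - 1, Q.m, by omega, le_rfl, Or.inr ⟨rfl, rfl, Or.inl ⟨h0, by omega⟩⟩, hlo, ?_⟩
      intro b b1 b2
      rw [h.o, hz]
      have e1 : (i - 1) * n + n = i * n := by
        obtain ⟨i', rfl⟩ : ∃ i', i = i' + 1 := ⟨i - 1, by omega⟩
        rw [Nat.add_sub_cancel]; ring
      have : n ≤ i * n := m3.resolve_left (by omega)
      unfold kOf
      split_ifs <;> omega
  · refine ⟨i, j - 1, hi, by omega, Or.inl ⟨hj0, rfl, by omega⟩, hlo, ?_⟩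
    intro b b1 b2
    have t4 := h.mono hi (show 0 < j by omega) (by omega)
    rw [show j - 1 + 1 = j by omega]
    unfold kOf
    rcases Nat.eq_zero_or_pos i with h0 | h0
    · subst h0
      have t3 := h.base j (by omega)
      rw [zero_mul]
      split_ifs <;> omega
    · have : n ≤ i * n := m3.resolve_left (by omega)
      split_ifs <;> omega

theorem Prv.st_eq (h : MI l n d R Q) (hl : 2 < l) {i j iA jA : ℕ} (hP : Prv l n R Q i j iA jA) :
    R + d + 3 ≤ st Q n iA (jA + 1) ∧ st Q n iA (jA + 1) ≤ n ∧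
      ((1 ≤ j ∧ iA = i ∧ st Q n iA (jA + 1) = st Q n i j) ∨
        (j = 0 ∧ iA ≠ i ∧ st Q n iA (jA + 1) = n ∧ st Q n i j = 0)) := by
  have h1 := h.mono hP.ilt (show 0 < jA + 1 by omega) (by have := hP.jle; omega)
  have hjle := hP.jle
  have h2 : st Q n iA (jA + 1) ≤ n := by
    rcases Nat.lt_or_ge jA Q.m with h3 | h3
    · have := h.le_n hP.ilt (show jA + 1 ≤ Q.m by omega)
      omega
    · rw [show jA + 1 = Q.m + 1 by omega, h.o]
  have hil := hP.ilt
  rcases hP.cas with ⟨a, b, c⟩ | ⟨a, b, c⟩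
  · refine ⟨by omega, h2, Or.inl ⟨a, b, ?_⟩⟩
    rw [b, c]
  · refine ⟨by omega, h2, Or.inr ⟨a, ?_, ?_, ?_⟩⟩
    · omega
    · rw [b, h.o]
    · rw [a, h.z]

/-- **The polygon near a hole.** -/
theorem hole_win (hp : IsPolygon p) (h : MI l n d R Q) {i j : ℕ} (hi : i < l) (hj : j ≤ Q.m) :
    Win (qN p n (tB n Q)) (uN p n (tB n Q)) (kOf l n (tB n Q) i (st Q n i j)) R := by
  have hl := hp.1
  have hl0 : NeZero l := ⟨by omega⟩
  have ht := h.tn
  have hn : 0 < n := by omega
  obtain ⟨iA, jA, hP⟩ := h.prv hl hi hj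
  obtain ⟨hlo, hhi⟩ := h.lo hl hi hj
  obtain ⟨m1, m2, m3⟩ := h.mul hl hi
  have t1 := h.tR
  have t2 := h.le_n hi hj
  have hR1 := h.R1
  obtain ⟨s1, s2, s3⟩ := hP.st_eq h hl
  obtain ⟨m1', m2', m3'⟩ := h.mul hl hP.ilt
  have hbB : ∀ a ≤ R, (tB n Q ≤ i * n + (st Q n i j + a) ↔ tB n Q ≤ i * n + st Q n i j) := by
    intro a ha
    rcases Nat.eq_zero_or_pos i with h0 | h0
    · subst h0
      have t3 := h.base j (by omega)
      rw [zero_mul]
      omega
    · have : n ≤ i * n := m3.resolve_left (by omega)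
      omega
  have hbA : ∀ b, 1 ≤ b → b ≤ R → (tB n Q ≤ iA * n + (st Q n iA (jA + 1) - b) ↔
      tB n Q ≤ iA * n + (st Q n iA (jA + 1) - 1)) := by
    intro b b1 b2
    rcases Nat.eq_zero_or_pos iA with h0 | h0
    · have t3 := h.base (jA + 1) (by have := hP.jle; omega)
      rw [h0, zero_mul] at *
      omega
    · have : n ≤ iA * n := m3'.resolve_left (by omega)
      omega
  refine ⟨hlo, hhi, ?_, ?_, ?_⟩
  · intro k k1 k2
    obtain ⟨a, rfl⟩ : ∃ a, k = kOf l n (tB n Q) i (st Q n i j) + a := ⟨_, (Nat.add_sub_cancel' k1).symm⟩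
    have ha : a < R := by omega
    unfold uN
    rw [← h.kB hl hi hj ha.le, kOf_div (by omega) hi ht, kOf_div (by omega) hi ht]
    rw [if_congr (hbB a ha.le) rfl rfl]
  · intro k k1 k2
    obtain ⟨b, b1, b2, rfl⟩ : ∃ b, 1 ≤ b ∧ b ≤ R ∧
        k = kOf l n (tB n Q) i (st Q n i j) - b :=
      ⟨kOf l n (tB n Q) i (st Q n i j) - k, by omega, by omega, by omega⟩
    unfold uN
    rw [← hP.k b b1 b2, ← hP.k 1 le_rfl hR1, kOf_div (by omega) hP.ilt ht,
      kOf_div (by omega) hP.ilt ht, if_congr (hbA b b1 b2) rfl rfl]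
  · intro k hk hnear
    obtain ⟨i', σ', hi', hσ', rfl⟩ := exists_kOf ht hk
    have hlpos : 0 < l * n := by omega
    have e1 : qN p n (tB n Q) ((kOf l n (tB n Q) i' σ' : ℕ) : ZMod (l * n)) =
        (n : ℤ) • p (i' : ZMod l) + (σ' : ℤ) • dir (pdir p i') := by
      rw [qN_eq hn (kOf_add hi' ht), PN_lin hn hσ']
    have e2 : qN p n (tB n Q) ((kOf l n (tB n Q) i (st Q n i j) : ℕ) : ZMod (l * n)) =
        (n : ℤ) • p (i : ZMod l) + (st Q n i j : ℤ) • dir (pdir p i) := by
      rw [qN_eq hn (kOf_add hi ht), PN_lin hn (by omega)]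
    rw [e1, e2] at hnear
    have hinj : ∀ a b : ℕ, a < l → b < l → p (a : ZMod l) = p (b : ZMod l) → a = b := by
      intro a b ha hb hab
      have h1 := hp.2.1 hab
      rwa [ZMod.natCast_eq_natCast_iff', Nat.mod_eq_of_lt ha, Nat.mod_eq_of_lt hb] at h1
    rcases s3 with ⟨j1, -, s4⟩ | ⟨j0, -, s4, s5⟩
    · -- inside of a side
      have hst : R ≤ st Q n i j := by omega
      rcases seg_near (R := (R : ℤ)) (by exact_mod_cast hst) (by
        have : st Q n i j + R ≤ n := by omega
        exact_mod_cast this) (by positivity) (by exact_mod_cast hσ') (by exact_mod_cast hR1)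
        hnear with ⟨g1, g2, g3⟩ | ⟨g1, g2⟩
      · have hii := hinj i' i hi' hi g1
        subst hii
        have g2' : σ' < st Q n i' j + R := by exact_mod_cast g2
        have g3' : st Q n i' j < σ' + R := by exact_mod_cast g3
        unfold kOf
        rcases Nat.eq_zero_or_pos i' with h0 | h0
        · subst h0
          have t3 := h.base j (by omega)
          rw [zero_mul]
          split_ifs <;> omega
        · have : n ≤ i' * n := m3.resolve_left (by omega)
          split_ifs <;> omega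
      · exfalso
        rw [← pdir_step hp] at g1 g2
        have g3 := hp.2.1 g1
        have g4 := hp.2.1 g2
        rw [g3] at g4
        have h5 : ((2 : ℕ) : ZMod l) = 0 := by
          have : (i : ZMod l) = (i : ZMod l) + ((2 : ℕ) : ZMod l) := by
            rw [Nat.cast_ofNat]
            calc (i : ZMod l) = (i : ZMod l) + 1 + 1 := g4
              _ = _ := by ring
          exact (left_eq_add.1 this)
        rw [ZMod.natCast_eq_zero_iff] at h5
        have := Nat.le_of_dvd (by norm_num) h5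
        omega
    · -- at a corner
      have h0 : ((st Q n i j : ℕ) : ℤ) = 0 := by exact_mod_cast s5
      rw [h0, zero_smul, add_zero] at hnear
      rcases cor_near (R := (R : ℤ)) (by
        have : 2 * R ≤ n := by omega
        exact_mod_cast this) (by positivity) (by exact_mod_cast hσ') (by exact_mod_cast hR1)
        hnear with ⟨g1, g2⟩ | ⟨g1, g2⟩
      · have hii := hinj i' i hi' hi g1
        subst hii
        have g2' : σ' < R := by exact_mod_cast g2
        unfold kOf
        rcases Nat.eq_zero_or_pos i' with h0 | h0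
        · subst h0
          rw [zero_mul]
          split_ifs <;> omega
        · have : n ≤ i' * n := m3.resolve_left (by omega)
          split_ifs <;> omega
      · have g2' : n < σ' + R := by exact_mod_cast g2
        rw [← pdir_step hp] at g1
        have g3 := hp.2.1 g1
        have h6 : ((i' + 1 : ℕ) : ZMod l) = ((i : ℕ) : ZMod l) := by
          push_cast; exact g3.symm
        rw [ZMod.natCast_eq_natCast_iff', Nat.mod_eq_of_lt hi] at h6
        rcases Nat.lt_or_ge (i' + 1) l with h7 | h7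
        · rw [Nat.mod_eq_of_lt h7] at h6
          have e3 : i' * n + n = i * n := by rw [← h6]; ring
          unfold kOf
          have : n ≤ i * n := by omega
          split_ifs <;> omega
        · have h8 : i' + 1 = l := by omega
          rw [h8, Nat.mod_self] at h6
          have e3 : i' * n + n = l * n := by rw [← h8]; ring
          subst h6
          unfold kOf
          rw [zero_mul]
          split_ifs <;> omega

end Vale.Agent.P167.H871
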