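import Vale.Agent.P167.H871.TabI

/-!
Holes of the enlarged polygon: the walls near a hole, and the values of the strands.
-/

namespace Vale.Agent.P167.H871

open Finset
open Vale.Agent.P167.Top
open Vale.Agent.P167.A (plane)
open Vale.Agent.P167.H199 (cang ah at' hb strand ret Returns)
open Vale.Agent.P167.E6 (IsPolygon Encloses dir face)
open Vale.Agent.P167.H825 (dirOf tn enl pdir ptau Wall WC Marks rnd bsite sideWall pwall PW dv epos
  FlowIn)
open Vale.Agent.P167.BR (be)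
open Vale.Agent.P167.Enl
open Vale.Agent.P167.XDL (bS mem_bS exists_idx P4_be ah_add_at)
open Vale.Agent.P167.H662 (PF fwall hsite tsite)

/-! ### the values of the local strands -/

theorem cos_six {x : ℝ} (h : |x| = Real.pi / 6) : 2 * Real.cos x = √3 := by
  rw [← Real.cos_abs, h, Real.cos_pi_div_six]; ring

theorem cos_two {x : ℝ} (h : |x| = Real.pi / 2) : 2 * Real.cos x = 0 := by
  rw [← Real.cos_abs, h, Real.cos_pi_div_two]; ring

/-- The strands with both feet on the second wall which join the two faces. -/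
theorem LW.two {S : Finset Ed} {a : Ed → Bool → ℝ} {B : Set (ℤ × ℤ)} {z : ℤ × ℤ} {u u' sA sB : ℤ}
    {K : ℝ} (h : LW S a B z u u' sA sB K) {ω : Cfg} {e : Ed} (he : e ∈ S)
    (hr : Returns (nx ω) S e) (hB : ∀ k < ret (nx ω) S e, hdv ((nx ω)^[k] e) ∈ B) {τ τ' : ℤ}
    (hτ : sB ≤ τ) (heB : me e = pw z u' τ) (hτ' : sB ≤ τ')
    (hfB : me ((nx ω)^[ret (nx ω) S e] e) = pw z u' τ')
    (hh : hd4 e % 4 = hd4 ((nx ω)^[ret (nx ω) S e] e) % 4) :
    |cang plane (Real.pi / 3) a ω (strand (nx ω) S e)| = Real.pi / 2 := by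
  obtain ⟨hn, hfS⟩ := hr.spec
  have hmin : ∀ k, 0 < k → k < ret (nx ω) S e → (nx ω)^[k] e ∉ S := fun k k1 k2 =>
    H199.ret_min k1 k2
  have hc := cang_strand (a := a) he hr (fun k k1 k2 => h.off _ (Or.inl (hB k k2)) (hmin k k1 k2))
  rw [hc]
  clear hc
  set n := ret (nx ω) S e with hn0
  set f := (nx ω)^[n] e with hf0
  have he_near : hdv e ∈ B ∨ tlv e ∈ B := Or.inl (hB 0 (by omega))
  have hf_near : hdv f ∈ B ∨ tlv f ∈ B := by
    right
    have h1 := hB (n - 1) (by omega)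
    have h2 : f = nx ω ((nx ω)^[n - 1] e) := by
      rw [← Function.iterate_succ_apply' (nx ω), hf0]
      congr 2
      omega
    rw [h2, tlv_nx]
    exact h1
  have hint : ∀ k, 0 < k → k < n → ∀ τ, sB ≤ τ → me ((nx ω)^[k] e) ≠ pw z u' τ := by
    intro k k1 k2
    have h1 := mt (h.mem _ (Or.inl (hB k k2))).2 (hmin k k1 k2)
    rw [not_or] at h1
    exact fun τ h2 h3 => h1.2 ⟨τ, h2, h3⟩
  have pe := h.phB e he_near τ hτ heB
  have pf := h.phB f hf_near τ' hτ' hfB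
  have key := line_same (ω := ω) (e := e) (n := n) (κ := -1) hn heB hfB (Or.inr rfl) (by
    intro i i1 i2 ρ hρ
    by_contra hcon
    exact (hint i i1 i2) ρ (by omega) hρ)
  rw [← hf0] at key
  generalize hT : ∑ k ∈ range n, trn ω ((nx ω)^[k] e) = T at key ⊢
  obtain ⟨-, h2⟩ := key.resolve_right (fun h' => h'.1 hh)
  rcases hd4_line heB with q1 | q1
  · have q2 : hd4 f % 4 = (u' + 1) % 4 := by omega
    rw [if_pos q1] at h2
    rw [(pe.1 q1).1, (pf.1 q2).2, h2]
    push_cast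
    rw [show Real.pi / 12 * 4 + (Real.pi / 12 * u' + K) +
      -(Real.pi / 12 * u' + K - Real.pi / 6) = Real.pi / 2 by ring, abs_of_pos (by positivity)]
  · have q2 : hd4 f % 4 = (u' - 1) % 4 := by omega
    rw [if_neg (by omega)] at h2
    rw [(pe.2 q1).1, (pf.2 q2).2, h2]
    push_cast
    rw [show Real.pi / 12 * -4 + (Real.pi / 12 * u' + K - Real.pi / 6) +
      -(Real.pi / 12 * u' + K) = -(Real.pi / 2) by ring, abs_neg, abs_of_pos (by positivity)]

theorem sg_hd4 (e : Ed) : sg e = if hd4 e = 0 ∨ hd4 e = 1 then 1 else -1 := by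
  rcases e with ⟨x, y⟩ | ⟨x, y⟩ <;> by_cases h : Even (x + y) <;> simp [sg, hd4, h]

theorem hd4_range (e : Ed) : 0 ≤ hd4 e ∧ hd4 e < 4 := by
  rcases e with ⟨x, y⟩ | ⟨x, y⟩ <;> by_cases h : Even (x + y) <;> simp [hd4, h]

theorem sg_line {g g' : Ed} {z : ℤ × ℤ} {d τ τ' : ℤ} (h : me g = pw z d τ) (h' : me g' = pw z d τ') :
    sg g' = sg g ↔ hd4 g % 4 = hd4 g' % 4 := by
  have h1 := hd4_line h
  have h2 := hd4_line h'
  have r1 := hd4_range g
  have r2 := hd4_range g'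
  rw [sg_hd4, sg_hd4]
  constructor
  · intro h3
    split_ifs at h3 <;> first | omega | (exfalso; norm_num at h3)
  · intro h3
    have h4 : (hd4 g' = 0 ∨ hd4 g' = 1) ↔ (hd4 g = 0 ∨ hd4 g = 1) := by omega
    rw [if_congr h4 rfl rfl]

theorem ret_eq {ω : Cfg} {S : Finset Ed} {e : Ed} {k : ℕ} (hk : 1 ≤ k) (hS : (nx ω)^[k] e ∈ S)
    (hm : ∀ i, 0 < i → i < k → (nx ω)^[i] e ∉ S) : Returns (nx ω) S e ∧ ret (nx ω) S e = k := by
  have hr : Returns (nx ω) S e := ⟨k, hk, hS⟩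
  refine ⟨hr, le_antisymm (H199.ret_le hk hS) ?_⟩
  by_contra hlt
  push Not at hlt
  obtain ⟨h1, h2⟩ := hr.spec
  exact hm _ h1 hlt h2

/-- **The value of a local strand.** -/
theorem LW.val {S : Finset Ed} {a : Ed → Bool → ℝ} {B : Set (ℤ × ℤ)} {z : ℤ × ℤ} {u u' sA sB : ℤ}
    {K : ℝ} (h : LW S a B z u u' sA sB K) {ω : Cfg} {e : Ed} {k : ℕ} (hk : 1 ≤ k) (he : e ∈ S)
    (hS : (nx ω)^[k] e ∈ S) (hm : ∀ i, 0 < i → i < k → (nx ω)^[i] e ∉ S)
    (hB : ∀ i < k, hdv ((nx ω)^[i] e) ∈ B) :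
    ((∃ τ, sB ≤ τ ∧ me e = pw z u' τ) ∧ (∃ τ, sB ≤ τ ∧ me ((nx ω)^[k] e) = pw z u' τ) ∧
      sg ((nx ω)^[k] e) = sg e →
      2 * Real.cos (cang plane (Real.pi / 3) a ω (strand (nx ω) S e)) = 0) ∧
    (¬ ((∃ τ, sB ≤ τ ∧ me e = pw z u' τ) ∧ (∃ τ, sB ≤ τ ∧ me ((nx ω)^[k] e) = pw z u' τ) ∧
      sg ((nx ω)^[k] e) = sg e) →
      2 * Real.cos (cang plane (Real.pi / 3) a ω (strand (nx ω) S e)) = √3) := by
  obtain ⟨hr, hk'⟩ := ret_eq hk hS hm
  rw [← hk'] at hB hS
  constructor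
  · rintro ⟨⟨τ, h1, h2⟩, ⟨τ', h3, h4⟩, h5⟩
    apply cos_two
    rw [← hk'] at h4 h5
    exact h.two he hr hB h1 h2 h3 h4 ((sg_line h2 h4).1 h5)
  · intro hno
    rcases h.tab he hr hB with h1 | ⟨-, h2, ⟨τ, h3, h4⟩, ⟨τ', h5, h6⟩⟩
    · exact cos_six h1
    · exfalso
      apply hno
      rw [hk'] at h2 h6
      exact ⟨⟨τ, h3, h4⟩, ⟨τ', h5, h6⟩, (sg_line h4 h6).2 h2⟩

/-! ### the walls near a hole -/

variable {l : ℕ} {p : ZMod l → ℤ × ℤ} {n : ℕ} {S₀ : Finset (ℤ × ℤ)} {Q : Marks} {d R : ℕ}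

theorem sW_le (i j : ℕ) : st Q n i j + d ≤ sW p n Q d i j ∧ sW p n Q d i j ≤ st Q n i j + d + 1 := by
  have e1 := le_rnd ((n : ℤ) • p i) (bsite p Q n) (⌊Q.θ i j * n⌋₊ + d)
  unfold sW st
  omega

theorem eW_le' (i j : ℕ) : st Q n i (j + 1) - d ≤ eW p n Q d i j ∧
    eW p n Q d i j ≤ st Q n i (j + 1) - d + 1 := by
  have e1 := le_rnd ((n : ℤ) • p i) (bsite p Q n) (⌊Q.θ i (j + 1) * n⌋₊ - d)
  unfold eW st
  omega

/-- The cuts after the hole. -/
theorem mem_B (hp : IsPolygon p) (hD : Encloses p S₀) (hQ : Q.Ok) (h : MI l n d R Q) (c : Ed → ℝ)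
    {i j : ℕ} (hi : i < l) (hj : j < Q.m + 1) {a : ℕ} (ha : a < R) :
    (be (qN p n (tB n Q)) ((kOf l n (tB n Q) i (st Q n i j + a) : ℕ) : ZMod (l * n)) ∈
      (PW p Q n d c).S ↔ sW p n Q d i j ≤ st Q n i j + a) ∧
    (be (qN p n (tB n Q)) ((kOf l n (tB n Q) i (st Q n i j + a) : ℕ) : ZMod (l * n)) ∈
      ((PW p Q n d c).w (⟨i, hi⟩, ⟨j, hj⟩)).S ↔ sW p n Q d i j ≤ st Q n i j + a) := by
  have hw := wls_PW (n := n) hp hD hQ h.d1 c
  have ht := h.tn
  have t2 := h.le_n hi (show j ≤ Q.m by omega)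
  have g1 := h.gap i hi j (by omega)
  have g2 := eW_le' (p := p) (n := n) (Q := Q) (d := d) i j
  rw [hw.mem_S hp ht, hw.mem_wS hp ht]
  constructor
  · constructor
    · rintro ⟨⟨⟨i', hi'⟩, ⟨j', hj'⟩⟩, σ, h1, h2, h3⟩
      simp only at h1 h2 h3
      have hσ := lt_n hQ h.d1 (Nat.lt_succ_iff.1 hj') h1 h2
      obtain ⟨h4, h5⟩ := be_kOf_inj hp ht hi hi' (by omega) hσ h3
      subst h4
      have k1 := sW_le (p := p) (n := n) (Q := Q) (d := d) i j'
      have k2 := eW_le' (p := p) (n := n) (Q := Q) (d := d) i j'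
      have hd := h.d1
      have hjj : j' = j := by
        rcases lt_trichotomy j' j with h6 | h6 | h6
        · exfalso
          have h7 := h.gap i hi j' (by omega)
          rcases Nat.lt_or_ge (j' + 1) j with h8 | h8
          · have := h.mono hi h8 (by omega)
            omega
          · have : j' + 1 = j := by omega
            rw [this] at k2 h7
            omega
        · exact h6
        · exfalso
          rcases Nat.lt_or_ge (j + 1) j' with h8 | h8
          · have := h.mono hi h8 (by omega)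
            omega
          · have : j' = j + 1 := by omega
            subst this
            omega
      subst hjj
      omega
    · intro h1
      exact ⟨(⟨i, hi⟩, ⟨j, hj⟩), st Q n i j + a, h1, by simp only; omega, rfl⟩
  · constructor
    · rintro ⟨σ, h1, h2, h3⟩
      simp only at h1 h2 h3
      have hσ := lt_n hQ h.d1 (Nat.lt_succ_iff.1 hj) h1 h2
      obtain ⟨h4, h5⟩ := be_kOf_inj hp ht hi hi (by omega) hσ h3
      omega
    · intro h1
      exact ⟨st Q n i j + a, h1, by simp only; omega, rfl⟩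

/-- The cuts before the hole. -/
theorem mem_A (hp : IsPolygon p) (hD : Encloses p S₀) (hQ : Q.Ok) (h : MI l n d R Q) (c : Ed → ℝ)
    {i j iA jA : ℕ} (hi : i < l) (hj : j < Q.m + 1) (hP : Prv l n R Q i j iA jA) {b : ℕ}
    (b1 : 1 ≤ b) (b2 : b ≤ R) :
    (be (qN p n (tB n Q)) ((kOf l n (tB n Q) iA (st Q n iA (jA + 1) - b) : ℕ) : ZMod (l * n)) ∈
      (PW p Q n d c).S ↔ st Q n iA (jA + 1) - b < eW p n Q d iA jA) ∧
    be (qN p n (tB n Q)) ((kOf l n (tB n Q) iA (st Q n iA (jA + 1) - b) : ℕ) : ZMod (l * n)) ∉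
      ((PW p Q n d c).w (⟨i, hi⟩, ⟨j, hj⟩)).S := by
  have hw := wls_PW (n := n) hp hD hQ h.d1 c
  have ht := h.tn
  obtain ⟨s1, s2, s3⟩ := hP.st_eq h hp.1
  have hjA := hP.jle
  have hiA := hP.ilt
  have g1 := h.gap iA hiA jA hjA
  have g2 := sW_le (p := p) (n := n) (Q := Q) (d := d) iA jA
  have hd := h.d1
  rw [hw.mem_S hp ht, hw.mem_wS hp ht]
  constructor
  · constructor
    · rintro ⟨⟨⟨i', hi'⟩, ⟨j', hj'⟩⟩, σ, h1, h2, h3⟩
      simp only at h1 h2 h3
      have hσ := lt_n hQ h.d1 (Nat.lt_succ_iff.1 hj') h1 h2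
      obtain ⟨h4, h5⟩ := be_kOf_inj hp ht hiA hi' (by omega) hσ h3
      subst h4
      have k1 := sW_le (p := p) (n := n) (Q := Q) (d := d) iA j'
      have k2 := eW_le' (p := p) (n := n) (Q := Q) (d := d) iA j'
      have hjj : j' = jA := by
        rcases lt_trichotomy j' jA with h6 | h6 | h6
        · exfalso
          have h7 := h.gap iA hiA j' (by omega)
          rcases Nat.lt_or_ge (j' + 1) jA with h8 | h8
          · have := h.mono hiA h8 (by omega)
            omega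
          · have : j' + 1 = jA := by omega
            rw [this] at k2 h7
            omega
        · exact h6
        · exfalso
          rcases Nat.lt_or_ge (jA + 1) j' with h8 | h8
          · have := h.mono hiA h8 (by omega)
            omega
          · have : j' = jA + 1 := by omega
            subst this
            omega
      subst hjj
      omega
    · intro h1
      exact ⟨(⟨iA, hiA⟩, ⟨jA, by omega⟩), st Q n iA (jA + 1) - b, by simp only; omega, h1, rfl⟩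
  · rintro ⟨σ, h1, h2, h3⟩
    simp only at h1 h2 h3
    have hσ := lt_n hQ h.d1 (Nat.lt_succ_iff.1 hj) h1 h2
    obtain ⟨h4, h5⟩ := be_kOf_inj hp ht hiA hi (by omega) hσ h3
    have k1 := sW_le (p := p) (n := n) (Q := Q) (d := d) i j
    rcases s3 with ⟨_, _, h6⟩ | ⟨_, h6, _⟩
    · omega
    · exact h6 h4

end Vale.Agent.P167.H871
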