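import Vale.Agent.P167.H871.TabJ

/-!
**[TAB]**: the strands near a hole, for the polygon with holes and the closed polygon.
-/

namespace Vale.Agent.P167.H871

open Finset Filter
open Vale.Agent.P167.Top
open Vale.Agent.P167.A (plane)
open Vale.Agent.P167.H199 (cang ah at' hb strand ret Returns)
open Vale.Agent.P167.E6 (IsPolygon Encloses dir face)
open Vale.Agent.P167.H825 (dirOf tn enl pdir ptau Wall WC Marks rnd bsite sideWall pwall PW dv epos
  FlowIn)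
open Vale.Agent.P167.BR (be be_bd)
open Vale.Agent.P167.Enl
open Vale.Agent.P167.XDL (bS mem_bS exists_idx P4_be ah_add_at)
open Vale.Agent.P167.H662 (PF fwall hsite tsite)

variable {l : ℕ} {p : ZMod l → ℤ × ℤ} {n : ℕ} {S₀ : Finset (ℤ × ℤ)} {Q : Marks} {d R : ℕ}

theorem aux_iff {a b : Prop} (h : ¬ ((a ∧ ¬ b) ∨ (¬ a ∧ b))) : a ↔ b := by tauto

theorem aux_false {a b c : Prop} (h : (a ∧ ¬ b) ∨ (¬ a ∧ b)) (h1 : b ↔ c) (h2 : c ↔ a) : False := by
  tauto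

theorem q_hole (h : MI l n d R Q) {i j : ℕ} (hi : i < l) (hj : j < Q.m + 1) :
    qN p n (tB n Q) ((kOf l n (tB n Q) i (st Q n i j) : ℕ) : ZMod (l * n)) =
      hsite p Q n (⟨i, hi⟩, ⟨j, hj⟩) := by
  have hl0 : NeZero l := ⟨by omega⟩
  have t2 := h.le_n hi (show j ≤ Q.m by omega)
  have ht := h.tn
  rw [qN_eq (by omega) (kOf_add hi ht), PN_lin (by omega) (by omega)]
  rfl

theorem flow_zero (hp : IsPolygon p) (hD : Encloses p S₀) (h : MI l n d R Q) {κ B : ℝ}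
    {c : Ed → ℝ} (hc : FlowIn (enl S₀ n) κ B n c) {r : ℤ} (hr : ((r + 3 : ℤ) : ℝ) ≤ κ * n) {k0 : ℕ}
    {g : Ed} (hg : nm (hdv g - qN p n (tB n Q) (k0 : ZMod (l * n))) ≤ r ∨
      nm (tlv g - qN p n (tB n Q) (k0 : ZMod (l * n))) ≤ r) : c g = 0 := by
  have hn : 0 < n := by have := h.tn; omega
  have hu := bd_qN hn hp hD h.tn
  by_contra hne
  have h1 := hu.right k0
  try simp only at h1
  apply h1
  apply hc.sup g hne
  refine le_trans ?_ hr
  have h2 : nm (sqL (qN p n (tB n Q) (k0 : ZMod (l * n))) (uN p n (tB n Q) k0 - 1) - epos g) ≤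
      r + 3 := by
    obtain ⟨h3, h4⟩ := isC_sqL (qN p n (tB n Q) (k0 : ZMod (l * n))) (uN p n (tB n Q) k0 - 1)
    obtain ⟨h5, h6⟩ := epos_near g
    rw [H632.nm_le] at h5 h6 ⊢
    rw [H632.nm_le, H632.nm_le] at hg
    simp only [Prod.fst_sub, Prod.snd_sub] at *
    rcases hg with hg | hg <;> omega
  exact_mod_cast h2

section

variable (hp : IsPolygon p) (hD : Encloses p S₀) (hQ : Q.Ok) (h : MI l n d R Q) {κ B : ℝ}
  {c : Ed → ℝ} (hc : FlowIn (enl S₀ n) κ B n c) (h1 : 1 ≤ κ * n)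
include hp hD hQ h hc h1

theorem flow_be {k : ℕ} : c (be (qN p n (tB n Q)) (k : ZMod (l * n))) = 0 := by
  have hn : 0 < n := by have := h.tn; omega
  by_contra hne
  have h2 := flow_two hc h1 hne
  have h3 := be_mem_bS hn hp hD (tB n Q) (k : ZMod (l * n))
  rw [mem_bS] at h3
  tauto

theorem sides_PW : Sides (qN p n (tB n Q)) (enl S₀ n) (uN p n (tB n Q)) (PW p Q n d c).S
    (PW p Q n d c).ph (-(Real.pi / 12 * ((pdir p 0).val : ℕ))) := by
  have hw := wls_PW (n := n) hp hD hQ h.d1 c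
  refine ⟨fun k hk hS hin => ?_, fun k hk hS hin => ?_⟩
  · obtain ⟨h2, h3⟩ := (hw.sides hp hD h.tn hk hS (flow_be hp hD hQ h hc h1)).1 hin
    exact ⟨by rw [h2]; ring, by rw [h3]; ring⟩
  · obtain ⟨h2, h3⟩ := (hw.sides hp hD h.tn hk hS (flow_be hp hD hQ h hc h1)).2 hin
    exact ⟨by rw [h3]; ring, by rw [h2]; ring⟩

theorem sides_PF : Sides (qN p n (tB n Q)) (enl S₀ n) (uN p n (tB n Q)) (PF p Q n c).S
    (PF p Q n c).ph (-(Real.pi / 12 * ((pdir p 0).val : ℕ))) := by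
  have hn : 0 < n := by have := h.tn; omega
  have hw := wls_PF hp hD hQ hn c
  refine ⟨fun k hk hS hin => ?_, fun k hk hS hin => ?_⟩
  · obtain ⟨h2, h3⟩ := (hw.sides hp hD h.tn hk hS (flow_be hp hD hQ h hc h1)).1 hin
    exact ⟨by rw [h2]; ring, by rw [h3]; ring⟩
  · obtain ⟨h2, h3⟩ := (hw.sides hp hD h.tn hk hS (flow_be hp hD hQ h hc h1)).2 hin
    exact ⟨by rw [h3]; ring, by rw [h2]; ring⟩

/-- The polygon with holes near a hole. -/
theorem lw_PW {r : ℤ} (hr : r + 2 ≤ R) (hr' : ((r + 3 : ℤ) : ℝ) ≤ κ * n) {i j : ℕ} (hi : i < l)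
    (hj : j < Q.m + 1) : ∃ (uA uB sA sB : ℤ),
    LW (PW p Q n d c).S (PW p Q n d c).ph {v | nm (v - hsite p Q n (⟨i, hi⟩, ⟨j, hj⟩)) ≤ r}
      (hsite p Q n (⟨i, hi⟩, ⟨j, hj⟩)) uA uB sA sB (-(Real.pi / 12 * ((pdir p 0).val : ℕ))) ∧
    ∀ g ∈ (PW p Q n d c).S, (nm (hdv g - hsite p Q n (⟨i, hi⟩, ⟨j, hj⟩)) ≤ r ∨
      nm (tlv g - hsite p Q n (⟨i, hi⟩, ⟨j, hj⟩)) ≤ r) →
      (g ∈ ((PW p Q n d c).w (⟨i, hi⟩, ⟨j, hj⟩)).S ↔
        ∃ τ, sB ≤ τ ∧ me g = pw (hsite p Q n (⟨i, hi⟩, ⟨j, hj⟩)) uB τ) := by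
  have ht := h.tn
  have hn : 0 < n := by omega
  have hj' : j ≤ Q.m := by omega
  have hu := bd_qN hn hp hD ht
  have hq := isPolygon_qN hn hp (tB n Q)
  have hE := encloses_qN hn hp hD (tB n Q)
  have hW := hole_win hp h hi hj'
  obtain ⟨iA, jA, hP⟩ := h.prv hp.1 hi hj'
  obtain ⟨p1, p2, p3⟩ := hP.st_eq h hp.1
  have hR1 := h.R1
  have hd := h.d1
  have k1 := sW_le (p := p) (n := n) (Q := Q) (d := d) i j
  have k2 := eW_le' (p := p) (n := n) (Q := Q) (d := d) iA jA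
  have hlo := hW.lo
  have hhi := hW.hi
  have hw := wls_PW (n := n) hp hD hQ h.d1 c
  -- membership in the window
  have hB : ∀ a < R, (be (qN p n (tB n Q))
      ((kOf l n (tB n Q) i (st Q n i j) + a : ℕ) : ZMod (l * n)) ∈ (PW p Q n d c).S ↔
        sW p n Q d i j ≤ st Q n i j + a) ∧ (be (qN p n (tB n Q))
      ((kOf l n (tB n Q) i (st Q n i j) + a : ℕ) : ZMod (l * n)) ∈
        ((PW p Q n d c).w (⟨i, hi⟩, ⟨j, hj⟩)).S ↔ sW p n Q d i j ≤ st Q n i j + a) := by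
    intro a ha
    rw [← h.kB hp.1 hi hj' ha.le]
    exact mem_B hp hD hQ h c hi hj ha
  have hA : ∀ b, 1 ≤ b → b ≤ R → (be (qN p n (tB n Q))
      ((kOf l n (tB n Q) i (st Q n i j) - b : ℕ) : ZMod (l * n)) ∈ (PW p Q n d c).S ↔
        st Q n iA (jA + 1) - b < eW p n Q d iA jA) ∧ be (qN p n (tB n Q))
      ((kOf l n (tB n Q) i (st Q n i j) - b : ℕ) : ZMod (l * n)) ∉
        ((PW p Q n d c).w (⟨i, hi⟩, ⟨j, hj⟩)).S := by
    intro b b1 b2
    rw [← hP.k b b1 b2]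
    exact mem_A hp hD hQ h c hi hj hP b1 b2
  have hS : ∀ k, kOf l n (tB n Q) i (st Q n i j) - R ≤ k →
      k < kOf l n (tB n Q) i (st Q n i j) + R →
      (be (qN p n (tB n Q)) (k : ZMod (l * n)) ∈ (PW p Q n d c).S ↔
        k + (st Q n iA (jA + 1) - eW p n Q d iA jA) < kOf l n (tB n Q) i (st Q n i j) ∨
        kOf l n (tB n Q) i (st Q n i j) + (sW p n Q d i j - st Q n i j) ≤ k) := by
    intro k w1 w2
    rcases Nat.lt_or_ge k (kOf l n (tB n Q) i (st Q n i j)) with h2 | h2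
    · obtain ⟨b, b1, b2, rfl⟩ : ∃ b, 1 ≤ b ∧ b ≤ R ∧
        k = kOf l n (tB n Q) i (st Q n i j) - b :=
        ⟨kOf l n (tB n Q) i (st Q n i j) - k, by omega, by omega, by omega⟩
      rw [(hA b b1 b2).1]
      omega
    · obtain ⟨a, rfl⟩ : ∃ a, k = kOf l n (tB n Q) i (st Q n i j) + a :=
        ⟨_, (Nat.add_sub_cancel' h2).symm⟩
      rw [(hB a (by omega)).1]
      omega
  have hLW := LW_mk (r := r) hq hE hu hW (hw.sub hp hD ht) hS (sides_PW hp hD hQ h hc h1) hr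
    (fun g hg hnear => by
      rw [Wls.ph_off hg, Wls.ph_off hg]
      show c g / 2 + c g / 2 = 0
      rw [flow_zero hp hD h hc hr' hnear]
      simp)
  rw [q_hole h hi hj] at hLW
  refine ⟨_, _, _, _, hLW, ?_⟩
  intro g hgS hg
  obtain ⟨k, hk, hgk⟩ := exists_idx hq hE hu (hw.sub hp hD ht hgS)
  constructor
  · intro hgw
    rcases (hLW.mem g hg).1 hgS with ⟨σ, h2, h3⟩ | h2
    · exfalso
      have h4 := pw_odd h3
      rw [← q_hole h hi hj] at h3 hg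
      obtain ⟨b, hb⟩ : ∃ b : ℕ, σ = 2 * b + 1 := ⟨((σ - 1) / 2).toNat, by omega⟩
      by_cases hbR : b < R
      · have h5 : g = be (qN p n (tB n Q))
            ((kOf l n (tB n Q) i (st Q n i j) - (b + 1) : ℕ) : ZMod (l * n)) := by
          apply me_inj'
          rw [h3, hW.meA hq hu hbR, hb]
        exact (hA (b + 1) (by omega) hbR).2 (h5 ▸ hgw)
      · exfalso
        obtain ⟨n1, n2, n3, n4⟩ := me_near g
        rw [abs_le] at n1 n2 n3 n4
        rw [h3] at n1 n2 n3 n4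
        unfold pw M2 at n1 n2 n3 n4
        simp only at n1 n2 n3 n4
        rw [H632.nm_le, H632.nm_le] at hg
        simp only [Prod.fst_sub, Prod.snd_sub] at hg
        rcases head_cases (uN p n (tB n Q) (kOf l n (tB n Q) i (st Q n i j) - 1)) with
          ⟨a, b, c⟩ | ⟨a, b, c⟩ | ⟨a, b, c⟩ | ⟨a, b, c⟩ <;>
          simp only [b, c] at n1 n2 n3 n4 <;> rcases hg with hg | hg <;> omega
    · exact h2
  · rintro ⟨τ, h2, h3⟩
    have h4 := pw_odd h3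
    rw [← q_hole h hi hj] at h3 hg
    obtain ⟨b, hb⟩ : ∃ b : ℕ, τ = 2 * b + 1 := ⟨((τ - 1) / 2).toNat, by omega⟩
    by_cases hbR : b < R
    · have h5 : g = be (qN p n (tB n Q))
          ((kOf l n (tB n Q) i (st Q n i j) + b : ℕ) : ZMod (l * n)) := by
        apply me_inj'
        rw [h3, hW.meB hq hu hbR, hb]
      rw [h5, (hB b hbR).2]
      omega
    · exfalso
      obtain ⟨n1, n2, n3, n4⟩ := me_near g
      rw [abs_le] at n1 n2 n3 n4
      rw [h3] at n1 n2 n3 n4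
      unfold pw M2 at n1 n2 n3 n4
      simp only at n1 n2 n3 n4
      rw [H632.nm_le, H632.nm_le] at hg
      simp only [Prod.fst_sub, Prod.snd_sub] at hg
      rcases head_cases (uN p n (tB n Q) (kOf l n (tB n Q) i (st Q n i j))) with
        ⟨a, b, c⟩ | ⟨a, b, c⟩ | ⟨a, b, c⟩ | ⟨a, b, c⟩ <;>
        simp only [b, c] at n1 n2 n3 n4 <;> rcases hg with hg | hg <;> omega

/-- The closed polygon near a hole. -/
theorem lw_PF {r : ℤ} (hr : r + 2 ≤ R) (hr' : ((r + 3 : ℤ) : ℝ) ≤ κ * n) {i j : ℕ} (hi : i < l)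
    (hj : j < Q.m + 1) : ∃ (uA uB : ℤ),
    LW (PF p Q n c).S (PF p Q n c).ph {v | nm (v - hsite p Q n (⟨i, hi⟩, ⟨j, hj⟩)) ≤ r}
      (hsite p Q n (⟨i, hi⟩, ⟨j, hj⟩)) uA uB 1 1 (-(Real.pi / 12 * ((pdir p 0).val : ℕ))) ∧
    ∀ g ∈ (PF p Q n c).S, ∀ τ, me g = pw (hsite p Q n (⟨i, hi⟩, ⟨j, hj⟩)) uB τ → 1 ≤ τ →
      (nm (hdv g - hsite p Q n (⟨i, hi⟩, ⟨j, hj⟩)) ≤ r ∨
        nm (tlv g - hsite p Q n (⟨i, hi⟩, ⟨j, hj⟩)) ≤ r) →
      (hd4 g % 4 = (uB + 1) % 4 ↔ hdv g ∈ enl S₀ n) := by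
  have ht := h.tn
  have hn : 0 < n := by omega
  have hj' : j ≤ Q.m := by omega
  have hu := bd_qN hn hp hD ht
  have hq := isPolygon_qN hn hp (tB n Q)
  have hE := encloses_qN hn hp hD (tB n Q)
  have hW := hole_win hp h hi hj'
  have hlo := hW.lo
  have hhi := hW.hi
  have hS : ∀ k, kOf l n (tB n Q) i (st Q n i j) - R ≤ k →
      k < kOf l n (tB n Q) i (st Q n i j) + R →
      (be (qN p n (tB n Q)) (k : ZMod (l * n)) ∈ (PF p Q n c).S ↔
        k + 0 < kOf l n (tB n Q) i (st Q n i j) ∨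
        kOf l n (tB n Q) i (st Q n i j) + 0 ≤ k) := by
    intro k w1 w2
    rw [PF_S hp hD hQ hn]
    refine ⟨fun _ => by omega, fun _ => be_mem_bS hn hp hD (tB n Q) _⟩
  have hLW := LW_mk (r := r) hq hE hu hW (by rw [PF_S hp hD hQ hn]) hS
    (sides_PF hp hD hQ h hc h1) hr
    (fun g hg hnear => by
      rw [Wls.ph_off hg, Wls.ph_off hg]
      show c g / 2 + c g / 2 = 0
      rw [flow_zero hp hD h hc hr' hnear]
      simp)
  rw [q_hole h hi hj] at hLW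
  refine ⟨_, _, by simpa using hLW, ?_⟩
  intro g hgS τ h3 h2 hg
  have h4 := pw_odd h3
  rw [← q_hole h hi hj] at h3 hg
  obtain ⟨b, hb⟩ : ∃ b : ℕ, τ = 2 * b + 1 := ⟨((τ - 1) / 2).toNat, by omega⟩
  by_cases hbR : b < R
  · have h5 : g = be (qN p n (tB n Q))
        ((kOf l n (tB n Q) i (st Q n i j) + b : ℕ) : ZMod (l * n)) := by
      apply me_inj'
      rw [h3, hW.meB hq hu hbR, hb]
    have h6 := side (P4_be hq hu (kOf l n (tB n Q) i (st Q n i j) + b))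
    have h7 := hu.left (kOf l n (tB n Q) i (st Q n i j) + b)
    have h8 := hu.right (kOf l n (tB n Q) i (st Q n i j) + b)
    try simp only at h7 h8
    rw [← h5, hW.ub _ (by omega) (by omega)] at h6
    rw [hW.ub _ (by omega) (by omega)] at h7 h8
    rcases h6 with ⟨g1, g2, -⟩ | ⟨g1, g2, -⟩
    · rw [g2]
      exact ⟨fun _ => h7, fun _ => g1⟩
    · rw [g2]
      exact ⟨fun g3 => by omega, fun g3 => absurd g3 h8⟩
  · exfalso
    obtain ⟨n1, n2, n3, n4⟩ := me_near g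
    rw [abs_le] at n1 n2 n3 n4
    rw [h3] at n1 n2 n3 n4
    unfold pw M2 at n1 n2 n3 n4
    simp only at n1 n2 n3 n4
    rw [H632.nm_le, H632.nm_le] at hg
    simp only [Prod.fst_sub, Prod.snd_sub] at hg
    rcases head_cases (uN p n (tB n Q) (kOf l n (tB n Q) i (st Q n i j))) with
      ⟨a, b, c⟩ | ⟨a, b, c⟩ | ⟨a, b, c⟩ | ⟨a, b, c⟩ <;>
      simp only [b, c] at n1 n2 n3 n4 <;> rcases hg with hg | hg <;> omega

/-- **The strands near a hole, integer form.** -/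
theorem tab_int {r : ℤ} (hr : r + 2 ≤ R) (hr' : ((r + 3 : ℤ) : ℝ) ≤ κ * n)
    (x : Fin l × Fin (Q.m + 1)) (ω : Cfg) (e : Ed) (k : ℕ) (hk : 1 ≤ k)
    (hnear : ∀ i ≤ k, nm (hdv ((nx ω)^[i] e) - hsite p Q n x) ≤ r) :
    (e ∈ (PW p Q n d c).S → (nx ω)^[k] e ∈ (PW p Q n d c).S →
      (∀ i, 0 < i → i < k → (nx ω)^[i] e ∉ (PW p Q n d c).S) →
      2 * Real.cos (cang plane (Real.pi / 3) (PW p Q n d c).ph ω
        (strand (nx ω) (PW p Q n d c).S e)) =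
      if e ∈ ((PW p Q n d c).w x).S ∧ (nx ω)^[k] e ∈ ((PW p Q n d c).w x).S ∧
        sg ((nx ω)^[k] e) = sg e then 0 else √3) ∧
    (e ∈ (PF p Q n c).S → (nx ω)^[k] e ∈ (PF p Q n c).S →
      (∀ i, 0 < i → i < k → (nx ω)^[i] e ∉ (PF p Q n c).S) →
      2 * Real.cos (cang plane (Real.pi / 3) (PF p Q n c).ph ω
        (strand (nx ω) (PF p Q n c).S e)) = √3) := by
  obtain ⟨⟨i, hi⟩, ⟨j, hj⟩⟩ := x
  constructor
  · intro he hx hm
    obtain ⟨uA, uB, sA, sB, hLW, hwall⟩ := lw_PW hp hD hQ h hc h1 hr hr' hi hj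
    have hv := hLW.val hk he hx hm (fun a ha => hnear a ha.le)
    have w1 := hwall e he (Or.inl (hnear 0 (by omega)))
    have w2 := hwall _ hx (Or.inl (hnear k le_rfl))
    split_ifs with hcond
    · exact hv.1 ⟨w1.1 hcond.1, w2.1 hcond.2.1, hcond.2.2⟩
    · apply hv.2
      rintro ⟨g1, g2, g3⟩
      exact hcond ⟨w1.2 g1, w2.2 g2, g3⟩
  · intro he hx hm
    obtain ⟨uA, uB, hLW, hhead⟩ := lw_PF hp hD hQ h hc h1 hr hr' hi hj
    have hv := hLW.val hk he hx hm (fun a ha => hnear a ha.le)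
    apply hv.2
    rintro ⟨⟨τ, g1, g2⟩, ⟨τ', g3, g4⟩, g5⟩
    have hn : 0 < n := by have := h.tn; omega
    have e1 := hhead e he τ g2 g1 (Or.inl (hnear 0 (by omega)))
    have e2 := hhead _ hx τ' g4 g3 (Or.inl (hnear k le_rfl))
    have e3 := (sg_line g2 g4).1 g5
    have e4 : hdv e ∈ enl S₀ n ↔ hdv ((nx ω)^[k] e) ∈ enl S₀ n := by
      rw [← e1, ← e2, e3]
    rw [PF_S hp hD hQ hn] at he hx hm
    have hall : ∀ a < k, (hdv ((nx ω)^[a] e) ∈ enl S₀ n ↔ hdv e ∈ enl S₀ n) := by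
      intro a
      induction a with
      | zero => intro _; rfl
      | succ a ih =>
        intro ha
        have h3 := ih (by omega)
        have h4 := hm (a + 1) (by omega) ha
        rw [mem_bS] at h4
        have h5 : tlv ((nx ω)^[a + 1] e) = hdv ((nx ω)^[a] e) := by
          rw [Function.iterate_succ_apply', tlv_nx]
        rw [h5] at h4
        exact (aux_iff h4).trans h3
    obtain ⟨k', rfl⟩ : ∃ k', k = k' + 1 := ⟨k - 1, by omega⟩
    have h6 := hall k' (by omega)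
    have h7 : tlv ((nx ω)^[k' + 1] e) = hdv ((nx ω)^[k'] e) := by
      rw [Function.iterate_succ_apply', tlv_nx]
    rw [mem_bS, h7] at hx
    exact aux_false hx h6 e4

end

end Vale.Agent.P167.H871
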