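import Vale.Agent.P167.H871.HopfS

/-!
Winding numbers of simple closed paths of diagonal steps: they are `0` or the sign of the total
turning.
-/

namespace Vale.Agent.P167.H871

open Finset
open Vale.Agent.P167.Top

/-- Winding number of the first `N` steps of `M` around the point `z` (with odd sum of the
coordinates). -/
def Wd (M : ℕ → ℤ × ℤ) (N : ℕ) (z : ℤ × ℤ) : ℤ := ∑ i ∈ range N, kap (M i - z) (M (i + 1) - z)

/-- Signed indicator of the step from `z + vec d` to `z + vec (d + 1)`. -/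
def cr (z : ℤ × ℤ) (d : ℤ) (a b : ℤ × ℤ) : ℤ :=
  (if a = z + vec d ∧ b = z + vec (d + 1) then 1 else 0) -
    (if a = z + vec (d + 1) ∧ b = z + vec d then 1 else 0)

/-- Indicator of the open positive axis. -/
def Hx (c : ℤ × ℤ) : ℤ := if c.2 = 0 ∧ 0 < c.1 then 1 else 0

theorem jump_aux0 (x y s1 s2 : ℤ) (hs1 : s1 = 1 ∨ s1 = -1) (hs2 : s2 = 1 ∨ s2 = -1)
    (hp : (x + y) % 2 = 1) :
    kap (x, y) (x + s1, y + s2) - kap (x - 1, y - 1) (x + s1 - 1, y + s2 - 1) =
      Hx (x + s1, y + s2) - Hx (x, y) + ((if x = 1 ∧ y = 0 ∧ x + s1 = 0 ∧ y + s2 = 1 then 1 else 0) -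
        (if x = 0 ∧ y = 1 ∧ x + s1 = 1 ∧ y + s2 = 0 then 1 else 0)) := by
  rcases (by omega : 2 ≤ y ∨ y ≤ -2 ∨ y = -1 ∨ y = 0 ∨ y = 1) with
    hy | hy | hy | hy | hy
  · rw [kap_pos (by simp only; omega) (by simp only; omega),
      kap_pos (by simp only; omega) (by simp only; omega)]
    unfold Hx
    rw [if_neg (by simp only; omega), if_neg (by simp only; omega), if_neg (by omega),
      if_neg (by omega)]
    rfl
  · rw [kap_neg (by simp only; omega) (by simp only; omega),
      kap_neg (by simp only; omega) (by simp only; omega)]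
    unfold Hx
    rw [if_neg (by simp only; omega), if_neg (by simp only; omega), if_neg (by omega),
      if_neg (by omega)]
    rfl
  all_goals
    subst hy
    unfold kap Hx
    rcases hs1 with rfl | rfl <;> rcases hs2 with rfl | rfl <;> norm_num <;>
      (try (split_ifs <;> omega)) <;> (try (intro h; omega))

theorem jump_aux1 (x y s1 s2 : ℤ) (hs1 : s1 = 1 ∨ s1 = -1) (hs2 : s2 = 1 ∨ s2 = -1)
    (hp : (x + y) % 2 = 1) :
    kap (x, y) (x + s1, y + s2) - kap (x + 1, y - 1) (x + s1 + 1, y + s2 - 1) =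
      Hx (x + s1, y + s2) - Hx (x, y) + ((if x = 0 ∧ y = 1 ∧ x + s1 = -1 ∧ y + s2 = 0 then 1 else 0) -
        (if x = -1 ∧ y = 0 ∧ x + s1 = 0 ∧ y + s2 = 1 then 1 else 0)) := by
  rcases (by omega : 2 ≤ y ∨ y ≤ -2 ∨ y = -1 ∨ y = 0 ∨ y = 1) with
    hy | hy | hy | hy | hy
  · rw [kap_pos (by simp only; omega) (by simp only; omega),
      kap_pos (by simp only; omega) (by simp only; omega)]
    unfold Hx
    rw [if_neg (by simp only; omega), if_neg (by simp only; omega), if_neg (by omega),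
      if_neg (by omega)]
    rfl
  · rw [kap_neg (by simp only; omega) (by simp only; omega),
      kap_neg (by simp only; omega) (by simp only; omega)]
    unfold Hx
    rw [if_neg (by simp only; omega), if_neg (by simp only; omega), if_neg (by omega),
      if_neg (by omega)]
    rfl
  all_goals
    subst hy
    unfold kap Hx
    rcases hs1 with rfl | rfl <;> rcases hs2 with rfl | rfl <;> norm_num <;>
      (try (split_ifs <;> omega)) <;> (try (intro h; omega))

theorem odd_cases {a z : ℤ × ℤ} (h : (a.1 + a.2 + z.1 + z.2) % 2 = 1) :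
    ((a - z).1 + (a - z).2) % 2 = 1 := by
  simp only [Prod.fst_sub, Prod.snd_sub]; omega

theorem kap_jump0 {a b z : ℤ × ℤ} (hD : Diag (b - a)) (hp : (a.1 + a.2 + z.1 + z.2) % 2 = 1) :
    kap (a - z) (b - z) - kap (a - (z + (1, 1))) (b - (z + (1, 1))) =
      Hx (b - z) - Hx (a - z) + ((if a = z + (1, 0) ∧ b = z + (0, 1) then 1 else 0) -
        (if a = z + (0, 1) ∧ b = z + (1, 0) then 1 else 0)) := by
  have h := jump_aux0 (a - z).1 (a - z).2 (b - a).1 (b - a).2 hD.1 hD.2 (odd_cases hp)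
  have e1 : ((a - z).1 + (b - a).1, (a - z).2 + (b - a).2) = b - z := by ext <;> simp
  have e2 : ((a - z).1 - 1, (a - z).2 - 1) = a - (z + (1, 1)) := by ext <;> simp <;> ring
  have e3 : ((a - z).1 + (b - a).1 - 1, (a - z).2 + (b - a).2 - 1) = b - (z + (1, 1)) := by
    ext <;> simp <;> ring
  rw [e1, e2, e3] at h
  rw [h]
  congr 1
  congr 1
  · apply if_congr _ rfl rfl
    rw [Prod.ext_iff, Prod.ext_iff]
    simp only [Prod.fst_sub, Prod.snd_sub, Prod.fst_add, Prod.snd_add]
    omega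
  · apply if_congr _ rfl rfl
    rw [Prod.ext_iff, Prod.ext_iff]
    simp only [Prod.fst_sub, Prod.snd_sub, Prod.fst_add, Prod.snd_add]
    omega

theorem kap_jump1 {a b z : ℤ × ℤ} (hD : Diag (b - a)) (hp : (a.1 + a.2 + z.1 + z.2) % 2 = 1) :
    kap (a - z) (b - z) - kap (a - (z + (-1, 1))) (b - (z + (-1, 1))) =
      Hx (b - z) - Hx (a - z) + ((if a = z + (0, 1) ∧ b = z + (-1, 0) then 1 else 0) -
        (if a = z + (-1, 0) ∧ b = z + (0, 1) then 1 else 0)) := by
  have h := jump_aux1 (a - z).1 (a - z).2 (b - a).1 (b - a).2 hD.1 hD.2 (odd_cases hp)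
  have e1 : ((a - z).1 + (b - a).1, (a - z).2 + (b - a).2) = b - z := by ext <;> simp
  have e2 : ((a - z).1 + 1, (a - z).2 - 1) = a - (z + (-1, 1)) := by ext <;> simp <;> ring
  have e3 : ((a - z).1 + (b - a).1 + 1, (a - z).2 + (b - a).2 - 1) = b - (z + (-1, 1)) := by
    ext <;> simp <;> ring
  rw [e1, e2, e3] at h
  rw [h]
  congr 1
  congr 1
  · apply if_congr _ rfl rfl
    rw [Prod.ext_iff, Prod.ext_iff]
    simp only [Prod.fst_sub, Prod.snd_sub, Prod.fst_add, Prod.snd_add]
    omega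
  · apply if_congr _ rfl rfl
    rw [Prod.ext_iff, Prod.ext_iff]
    simp only [Prod.fst_sub, Prod.snd_sub, Prod.fst_add, Prod.snd_add]
    omega

theorem cr_congr {z : ℤ × ℤ} {d d' : ℤ} (h : d % 4 = d' % 4) (a b : ℤ × ℤ) :
    cr z d a b = cr z d' a b := by
  unfold cr
  rw [vec_congr h, vec_congr (show (d + 1) % 4 = (d' + 1) % 4 by omega)]

theorem vec_val : vec 0 = (1, 0) ∧ vec 1 = (0, 1) ∧ vec 2 = (-1, 0) ∧ vec 3 = (0, -1) :=
  ⟨rfl, rfl, rfl, rfl⟩

theorem cr_opp (z : ℤ × ℤ) (d : ℤ) (a b : ℤ × ℤ) :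
    cr (z + dv d) (d + 2) a b = - cr z d a b := by
  have h1 : z + dv d + vec (d + 2) = z + vec (d + 1) := by
    rw [add_assoc]
    congr 1
    unfold dv vec
    have := dx_cases d
    have := dx_cases (d + 1)
    have := dx_cases (d + 2)
    ext <;> simp only [Prod.fst_add, Prod.snd_add] <;> rw [show d + 1 + 1 = d + 2 by ring] at * <;>
      omega
  have h2 : z + dv d + vec (d + 2 + 1) = z + vec d := by
    rw [add_assoc]
    congr 1
    unfold dv vec
    have := dx_cases d
    have := dx_cases (d + 1)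
    have := dx_cases (d + 2)
    ext <;> simp only [Prod.fst_add, Prod.snd_add] <;> rw [show d + 1 + 1 = d + 2 by ring] at * <;>
      omega
  unfold cr
  rw [h1, h2]
  ring

variable {M : ℕ → ℤ × ℤ} {D : ℕ → ℤ} {N : ℕ}

theorem DPath.diag (h : DPath M D) (i : ℕ) : Diag (M (i + 1) - M i) := by
  rw [h.step i, add_sub_cancel_left]
  exact diag_dv _

theorem DPath.par (h : DPath M D) {z : ℤ × ℤ} (hz : ((M 0).1 + (M 0).2 + z.1 + z.2) % 2 = 1)
    (i : ℕ) : ((M i).1 + (M i).2 + z.1 + z.2) % 2 = 1 := by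
  induction i with
  | zero => exact hz
  | succ i ih =>
    have := h.diag i
    obtain ⟨h1, h2⟩ := this
    simp only [Prod.fst_sub, Prod.snd_sub] at h1 h2
    omega

theorem Wd_jump01 (h : DPath M D) (hN : M N = M 0) {z : ℤ × ℤ}
    (hz : ((M 0).1 + (M 0).2 + z.1 + z.2) % 2 = 1) :
    Wd M N z - Wd M N (z + dv 0) = ∑ i ∈ range N, cr z 0 (M i) (M (i + 1)) ∧
    Wd M N z - Wd M N (z + dv 1) = ∑ i ∈ range N, cr z 1 (M i) (M (i + 1)) := by
  have htel : ∀ n, ∑ i ∈ range n, (Hx (M (i + 1) - z) - Hx (M i - z)) =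
      Hx (M n - z) - Hx (M 0 - z) := fun n => by
    induction n with
    | zero => simp
    | succ n ih => rw [sum_range_succ, ih]; ring
  have h0 := htel N
  rw [hN, sub_self] at h0
  constructor
  · unfold Wd
    rw [← sum_sub_distrib]
    have : ∀ i ∈ range N, kap (M i - z) (M (i + 1) - z) -
        kap (M i - (z + dv 0)) (M (i + 1) - (z + dv 0)) =
        (Hx (M (i + 1) - z) - Hx (M i - z)) + cr z 0 (M i) (M (i + 1)) := fun i _ =>
      kap_jump0 (h.diag i) (h.par hz i)
    rw [sum_congr rfl this, sum_add_distrib, h0, zero_add]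
  · unfold Wd
    rw [← sum_sub_distrib]
    have : ∀ i ∈ range N, kap (M i - z) (M (i + 1) - z) -
        kap (M i - (z + dv 1)) (M (i + 1) - (z + dv 1)) =
        (Hx (M (i + 1) - z) - Hx (M i - z)) + cr z 1 (M i) (M (i + 1)) := fun i _ =>
      kap_jump1 (h.diag i) (h.par hz i)
    rw [sum_congr rfl this, sum_add_distrib, h0, zero_add]

/-- The jump of the winding number. -/
theorem Wd_jump (h : DPath M D) (hN : M N = M 0) {z : ℤ × ℤ}
    (hz : ((M 0).1 + (M 0).2 + z.1 + z.2) % 2 = 1) (d : ℤ) :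
    Wd M N z - Wd M N (z + dv d) = ∑ i ∈ range N, cr z d (M i) (M (i + 1)) := by
  have hop : ∀ d : ℤ, dv (d + 2) = -dv d := dv_add_two
  rcases (by omega : d % 4 = 0 % 4 ∨ d % 4 = 1 % 4 ∨ d % 4 = (0 + 2) % 4 ∨ d % 4 = (1 + 2) % 4) with
    h' | h' | h' | h'
  · rw [dv_congr h', (Wd_jump01 h hN hz).1]
    exact sum_congr rfl fun i _ => (cr_congr h' _ _).symm
  · rw [dv_congr h', (Wd_jump01 h hN hz).2]
    exact sum_congr rfl fun i _ => (cr_congr h' _ _).symm
  · have hz' : ((M 0).1 + (M 0).2 + (z - dv 0).1 + (z - dv 0).2) % 2 = 1 := by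
      have : dv 0 = (1, 1) := rfl
      rw [this]; simp only [Prod.fst_sub, Prod.snd_sub]; omega
    have key := (Wd_jump01 h hN hz').1
    rw [sub_add_cancel] at key
    have e : z + dv d = z - dv 0 := by rw [dv_congr h', hop]; abel
    rw [e, ← neg_sub, key, ← sum_neg_distrib]
    refine sum_congr rfl fun i _ => ?_
    have := cr_opp (z - dv 0) 0 (M i) (M (i + 1))
    rw [sub_add_cancel] at this
    rw [← this]
    exact (cr_congr h' _ _).symm
  · have hz' : ((M 0).1 + (M 0).2 + (z - dv 1).1 + (z - dv 1).2) % 2 = 1 := by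
      have : dv 1 = (-1, 1) := rfl
      rw [this]; simp only [Prod.fst_sub, Prod.snd_sub]; omega
    have key := (Wd_jump01 h hN hz').2
    rw [sub_add_cancel] at key
    have e : z + dv d = z - dv 1 := by rw [dv_congr h', hop]; abel
    rw [e, ← neg_sub, key, ← sum_neg_distrib]
    refine sum_congr rfl fun i _ => ?_
    have := cr_opp (z - dv 1) 1 (M i) (M (i + 1))
    rw [sub_add_cancel] at this
    rw [← this]
    exact (cr_congr h' _ _).symm

end Vale.Agent.P167.H871
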