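import Vale.Agent.P167.H871.WindS
import Vale.Agent.P167.H871.Close

/-!
Winding numbers of simple closed paths of diagonal steps, list form.
-/

namespace Vale.Agent.P167.H871

open Finset
open Vale.Agent.P167.Top

/-- What a winding function of the closed list `L` (total turning `4 * s`) satisfies. -/
structure WF (L : List ((ℤ × ℤ) × ℤ)) (s : ℤ) (W : ℤ × ℤ → ℤ) : Prop where
  free : ∀ z : ℤ × ℤ, (z.1 + z.2) % 2 = 1 → ∀ d : ℤ,
    (∀ p ∈ L, ¬ (p.1 = z + vec d ∧ p.1 + dv p.2 = z + vec (d + 1)) ∧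
      ¬ (p.1 = z + vec (d + 1) ∧ p.1 + dv p.2 = z + vec d)) → W z = W (z + dv d)
  left : ∀ p ∈ L, W (p.1 + vec (p.2 + 1)) = (1 + s) / 2
  right : ∀ p ∈ L, W (p.1 + vec p.2) = (s - 1) / 2
  far : ∀ z : ℤ × ℤ, (∀ p ∈ L, p.1.2 < z.2) ∨ (∀ p ∈ L, z.2 < p.1.2) ∨
    (∀ p ∈ L, p.1.1 < z.1) ∨ (∀ p ∈ L, z.1 < p.1.1) → W z = 0

theorem wind_list (L : List ((ℤ × ℤ) × ℤ)) (s : ℤ) (hlen : 3 ≤ L.length)
    (hc : ∀ i, ∀ (h : i + 1 < L.length), Rl L[i] L[i + 1])
    (hcl : (L[0]'(by omega)).1 = (L[L.length - 1]'(by omega)).1 + dv (L[L.length - 1]'(by omega)).2 ∧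
      |(L[0]'(by omega)).2 + 4 * s - (L[L.length - 1]'(by omega)).2| ≤ 1)
    (hnd : (L.map Prod.fst).Nodup)
    (hev : ((L[0]'(by omega)).1.1 + (L[0]'(by omega)).1.2) % 2 = 0) : ∃ W, WF L s W := by
  set n := L.length with hn
  have hn0 : 0 < n := by omega
  have hmod : ∀ i : ℕ, i % n < n := fun i => Nat.mod_lt _ hn0
  let M : ℕ → ℤ × ℤ := fun i => (L[i % n]'(hmod i)).1
  let D : ℕ → ℤ := fun i => (L[i % n]'(hmod i)).2 + 4 * s * ((i / n : ℕ) : ℤ)
  have hstep : DPath M D := by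
    have hcase : ∀ i : ℕ, (i % n + 1 < n ∧ (i + 1) % n = i % n + 1 ∧ (i + 1) / n = i / n) ∨
        (i % n = n - 1 ∧ (i + 1) % n = 0 ∧ (i + 1) / n = i / n + 1) := by
      intro i
      rcases Nat.lt_or_ge (i % n + 1) n with h | h
      · left
        refine ⟨h, ?_, ?_⟩
        · rw [Nat.add_mod, Nat.mod_eq_of_lt (show 1 < n by omega), Nat.mod_eq_of_lt h]
        · rw [Nat.add_div hn0, Nat.mod_eq_of_lt (show 1 < n by omega),
            Nat.div_eq_of_lt (show 1 < n by omega), if_neg (by omega)]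
          omega
      · right
        have h' := hmod i
        refine ⟨by omega, ?_, ?_⟩
        · rw [Nat.add_mod, Nat.mod_eq_of_lt (show 1 < n by omega),
            show i % n + 1 = n by omega, Nat.mod_self]
        · rw [Nat.add_div hn0, Nat.mod_eq_of_lt (show 1 < n by omega),
            Nat.div_eq_of_lt (show 1 < n by omega), if_pos (by omega)]
    refine ⟨fun i => ?_, fun i => ?_⟩
    · simp only [M, D]
      have hdv : dv ((L[i % n]'(hmod i)).2 + 4 * s * ((i / n : ℕ) : ℤ)) =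
          dv (L[i % n]'(hmod i)).2 := dv_congr (by
        rw [mul_assoc]; omega)
      rw [hdv]
      rcases hcase i with ⟨h1, h2, _⟩ | ⟨h1, h2, _⟩
      · have := (hc (i % n) h1).1
        simp only [h2]
        exact this
      · simp only [h1, h2]
        exact hcl.1
    · simp only [D]
      rcases hcase i with ⟨h1, h2, h3⟩ | ⟨h1, h2, h3⟩
      · have := (hc (i % n) h1).2
        simp only [h2, h3]
        rw [add_sub_add_right_eq_sub]
        exact this
      · simp only [h1, h2, h3]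
        have := hcl.2
        push_cast
        convert this using 2
        ring
  have h0 : ∀ k, 1 ≤ k → k < n → ∀ i, M (i + k) ≠ M i := by
    intro k hk1 hk2 i h
    simp only [M] at h
    have h1 : (L.map Prod.fst)[(i + k) % n]'(by rw [List.length_map]; exact hmod _) =
        (L.map Prod.fst)[i % n]'(by rw [List.length_map]; exact hmod _) := by
      simp only [List.getElem_map]
      exact h
    have h2 := (List.Nodup.getElem_inj_iff hnd).1 h1
    have h3 : (i + k) % n = (i % n + k) % n := by rw [Nat.mod_add_mod]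
    rw [h3] at h2
    have h4 := hmod i
    rcases Nat.lt_or_ge (i % n + k) n with h5 | h5
    · rw [Nat.mod_eq_of_lt h5] at h2; omega
    · rw [Nat.mod_eq_sub_mod h5, Nat.mod_eq_of_lt (by omega)] at h2; omega
  have hP : ∀ i, M (i + n) = M i := by
    intro i
    simp only [M, Nat.add_mod_right]
  have hM0 : M 0 = (L[0]'(by omega)).1 := by simp only [M, Nat.zero_mod]
  have hSC : SC M D n := ⟨hstep, hlen, hP, h0, by rw [hM0]; exact hev⟩
  have hmemL : ∀ i, (M i, (L[i % n]'(hmod i)).2) ∈ L := fun i => List.getElem_mem _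
  have hDmod : ∀ i, D i % 4 = (L[i % n]'(hmod i)).2 % 4 := fun i => by
    simp only [D]
    rw [mul_assoc]; omega
  have hDs : D n - D 0 = 4 * s := by
    simp only [D, Nat.mod_self, Nat.div_self hn0, Nat.zero_mod, Nat.zero_div]
    push_cast
    ring
  obtain ⟨-, hsides⟩ := hSC.sides hDs
  have hidx : ∀ p ∈ L, ∃ i, M i = p.1 ∧ D i % 4 = p.2 % 4 := by
    intro p hp
    obtain ⟨k, hk, hkp⟩ := List.mem_iff_getElem.1 hp
    have hkn : k % n = k := Nat.mod_eq_of_lt hk
    refine ⟨k, ?_, ?_⟩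
    · simp only [M, hkn, hkp]
    · rw [hDmod]
      simp only [hkn, hkp]
  refine ⟨Wd M n, ⟨fun z hz d hf => ?_, fun p hp => ?_, fun p hp => ?_, fun z hz => ?_⟩⟩
  · apply hSC.free hz
    intro i
    have h1 := hf _ (hmemL i)
    simp only at h1
    have h2 : M (i + 1) = M i + dv (L[i % n]'(hmod i)).2 := by
      rw [hstep.step i, dv_congr (hDmod i)]
    rw [h2]
    exact h1
  · obtain ⟨i, h1, h2⟩ := hidx p hp
    rw [← (hsides i).1, h1, vec_congr (show (D i + 1) % 4 = (p.2 + 1) % 4 by omega)]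
  · obtain ⟨i, h1, h2⟩ := hidx p hp
    rw [← (hsides i).2, h1, vec_congr h2]
  · rcases hz with h | h | h | h
    · exact hSC.up fun i => h _ (hmemL i)
    · exact hSC.down fun i => h _ (hmemL i)
    · exact hSC.right fun i => h _ (hmemL i)
    · exact hSC.left fun i => h _ (hmemL i)

/-- Winding function of a closed segment. -/
theorem Seg.wind {P : ℤ × ℤ} {d d' s : ℤ} {L : List ((ℤ × ℤ) × ℤ)} (h : Seg P d L P d')
    (hs : |d + 4 * s - d'| ≤ 1) (hlen : 3 ≤ L.length) (hnd : (L.map Prod.fst).Nodup)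
    (hev : (P.1 + P.2) % 2 = 0) : ∃ W, WF L s W := by
  obtain ⟨X, hX, hP⟩ := h.last
  have h0 : L[0]'(by omega) = (P, d) := by
    have := h.head
    rw [List.head?_eq_getElem?, List.getElem?_eq_getElem (by omega)] at this
    exact Option.some.inj this
  have h1 : L[L.length - 1]'(by omega) = (X, d') := by
    rw [List.getLast?_eq_getElem?, List.getElem?_eq_getElem (by omega)] at hX
    exact Option.some.inj hX
  refine wind_list L s hlen (List.isChain_iff_getElem.1 h.chain) ?_ hnd ?_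
  · rw [h0, h1]
    exact ⟨hP, hs⟩
  · rw [h0]
    exact hev

variable (ω : Cfg) (e : Ed) (c : ℤ)

/-- **Closing a piece of the interface**, with the winding function of the closed path. -/
theorem close_wind (hc : c % 4 = 0) {n : ℕ} (hn : 1 ≤ n)
    (hinj : ∀ i j, i ≤ n → j ≤ n → (nx ω)^[i] e = (nx ω)^[j] e → i = j)
    {C : List ((ℤ × ℤ) × ℤ)} {f f' s : ℤ} (hC : Seg (P4 ((nx ω)^[n] e)) f C (P4 e) f')
    (hf : |f - Dg ω e c (n - 1)| ≤ 1) (hs : |Dg ω e c 0 + 4 * s - f'| ≤ 1)
    (hnd : (C.map Prod.fst).Nodup)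
    (hd1 : ∀ X ∈ C.map Prod.fst, ∀ i < n, X ≠ P4 ((nx ω)^[i] e))
    (hd2 : ∀ X ∈ C.map Prod.fst, ∀ i < n, X ≠ cor ω e c i) :
    ∃ W, WF (gam ω e c n ++ C) s W := by
  obtain ⟨m, rfl⟩ : ∃ m, n = m + 1 := ⟨n - 1, by omega⟩
  have h := (gam_seg ω e c hc m).append hC (by simpa using hf)
  refine h.wind hs ?_ ?_ ?_
  · rw [List.length_append, gam_length]
    have : C.length ≠ 0 := fun h => hC.ne_nil (List.length_eq_zero_iff.1 h)
    omega
  · rw [List.map_append, List.nodup_append]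
    refine ⟨gam_nodup ω e c hc hinj _ le_rfl, hnd, ?_⟩
    intro X hX Y hY hXY
    subst hXY
    rw [mem_gam] at hX
    obtain ⟨i, hi, hX⟩ := hX
    rcases hX with h | h
    · exact hd1 X hY i hi h
    · exact hd2 X hY i hi h
  · have := P4_par e
    omega

end Vale.Agent.P167.H871
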