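import Vale.Agent.P167.H871.WindD

/-!
Winding numbers of simple closed paths of diagonal steps: values.
-/

namespace Vale.Agent.P167.H871

open Finset
open Vale.Agent.P167.Top

variable {M : ℕ → ℤ × ℤ} {D : ℕ → ℤ} {N : ℕ}

theorem vec_nt (d : ℤ) : vec (d + 2) = - vec d ∧ dv d = vec d + vec (d + 1) ∧
    dv (d - 1) = vec d - vec (d + 1) ∧ (vec d + vec d ≠ 0) := by
  rcases dx_cases d with ⟨h, a, b, c, e⟩ | ⟨h, a, b, c, e⟩ | ⟨h, a, b, c, e⟩ | ⟨h, a, b, c, e⟩ <;>
    rcases dx_cases (d + 1) with ⟨h', a', b', c', e'⟩ | ⟨h', a', b', c', e'⟩ |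
      ⟨h', a', b', c', e'⟩ | ⟨h', a', b', c', e'⟩ <;>
    rcases dx_cases (d - 1) with ⟨h2, a2, b2, c2, e2⟩ | ⟨h2, a2, b2, c2, e2⟩ |
      ⟨h2, a2, b2, c2, e2⟩ | ⟨h2, a2, b2, c2, e2⟩ <;>
    first
    | (exfalso; omega)
    | (rw [show d + 1 + 1 = d + 2 by ring] at c' e'
       unfold dv vec
       rw [a, b, c, e, c', e', a2, b2, c2, e2]
       refine ⟨?_, ?_, ?_, ?_⟩ <;> simp)

theorem mod_of_eq (hN : 0 < N) (hP : ∀ i, M (i + N) = M i)
    (h0 : ∀ k, 1 ≤ k → k < N → ∀ i, M (i + k) ≠ M i) {i j : ℕ} (h : M i = M j) :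
    i % N = j % N := by
  have hper : ∀ q i, M (i + N * q) = M i := by
    intro q
    induction q with
    | zero => simp
    | succ q ih => intro i; rw [show i + N * (q + 1) = i + N * q + N by ring, hP, ih]
  have key : ∀ i j, i ≤ j → M i = M j → i % N = j % N := by
    intro i j hij h
    obtain ⟨k, rfl⟩ : ∃ k, j = i + k := ⟨j - i, by omega⟩
    have h2 := Nat.mod_add_div k N
    have h3 : M (i + k) = M (i + k % N) := by
      conv_lhs => rw [← h2]
      rw [← add_assoc, hper]
    rcases Nat.eq_zero_or_pos (k % N) with h4 | h4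
    · rw [Nat.add_mod, h4]; simp
    · exact absurd (h.trans h3).symm (h0 _ h4 (Nat.mod_lt _ hN) i)
  rcases le_total i j with h1 | h1
  · exact key i j h1 h
  · exact (key j i h1 h.symm).symm

/-- A simple closed path of diagonal steps through points with even sum of the coordinates. -/
structure SC (M : ℕ → ℤ × ℤ) (D : ℕ → ℤ) (N : ℕ) : Prop extends DPath M D where
  pos : 3 ≤ N
  per : ∀ i, M (i + N) = M i
  inj : ∀ k, 1 ≤ k → k < N → ∀ i, M (i + k) ≠ M i
  ev : ((M 0).1 + (M 0).2) % 2 = 0

theorem SC.mod (h : SC M D N) {i j : ℕ} (hij : M i = M j) : i % N = j % N :=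
  mod_of_eq (by have := h.pos; omega) h.per h.inj hij

theorem SC.M_mod (h : SC M D N) (i : ℕ) : M (i % N) = M i := by
  have hper : ∀ q i, M (i + N * q) = M i := by
    intro q
    induction q with
    | zero => simp
    | succ q ih => intro i; rw [show i + N * (q + 1) = i + N * q + N by ring, h.per, ih]
  conv_rhs => rw [← Nat.mod_add_div i N]
  rw [hper]

theorem SC.succ_eq (h : SC M D N) {i j : ℕ} (hij : M i = M j) : M (i + 1) = M (j + 1) := by
  have h1 := h.mod hij
  rw [← h.M_mod (i + 1), ← h.M_mod (j + 1), Nat.add_mod, h1, ← Nat.add_mod]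

theorem SC.pred_eq (h : SC M D N) {i j : ℕ} (hij : M (i + 1) = M (j + 1)) : M i = M j := by
  have h1 := h.mod hij
  have h2 : i % N = j % N := by
    have h3 : (i + 1 + (N - 1)) % N = (j + 1 + (N - 1)) % N := by
      rw [Nat.add_mod, h1, ← Nat.add_mod]
    have := h.pos
    rw [show i + 1 + (N - 1) = i + N by omega, show j + 1 + (N - 1) = j + N by omega,
      Nat.add_mod_right, Nat.add_mod_right] at h3
    exact h3
  rw [← h.M_mod i, ← h.M_mod j, h2]

theorem SC.D_eq (h : SC M D N) {i j : ℕ} (hij : M i = M j) : D i % 4 = D j % 4 := by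
  have h1 := h.succ_eq hij
  rw [h.step, h.step, hij] at h1
  exact dv_inj (add_left_cancel h1)

theorem SC.odd (h : SC M D N) {z : ℤ × ℤ} (hz : (z.1 + z.2) % 2 = 1) :
    ((M 0).1 + (M 0).2 + z.1 + z.2) % 2 = 1 := by
  have := h.ev
  omega

theorem SC.ev' (h : SC M D N) (i : ℕ) : ((M i).1 + (M i).2) % 2 = 0 := by
  have := h.toDPath.par (z := (1, 0)) (by have := h.ev; simp only; omega) i
  simp only at this
  omega

/-- The winding number does not change across an edge which is not a step of the path. -/
theorem SC.free (h : SC M D N) {z : ℤ × ℤ} (hz : (z.1 + z.2) % 2 = 1) {d : ℤ}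
    (hf : ∀ i, ¬ (M i = z + vec d ∧ M (i + 1) = z + vec (d + 1)) ∧
      ¬ (M i = z + vec (d + 1) ∧ M (i + 1) = z + vec d)) : Wd M N z = Wd M N (z + dv d) := by
  have hN : M N = M 0 := by simpa using h.per 0
  have h1 := Wd_jump h.toDPath hN (h.odd hz) d
  rw [sum_eq_zero] at h1
  · omega
  · intro i _
    unfold cr
    rw [if_neg (hf i).1, if_neg (hf i).2, sub_zero]

theorem vpar (d : ℤ) : ((vec d).1 + (vec d).2) % 2 = 1 := by
  unfold vec
  have := head_cases d
  simp only
  omega

/-- The winding number increases by `1` from the right to the left of a step. -/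
theorem SC.step_jump (h : SC M D N) (i : ℕ) :
    Wd M N (M i + vec (D i + 1)) = Wd M N (M i + vec (D i)) + 1 := by
  have hN : M N = M 0 := by simpa using h.per 0
  have hp := h.pos
  obtain ⟨v1, v2, v3, -⟩ := vec_nt (D i)
  have e4 := h.ev' i
  have hz : ((M i + vec (D i + 1)).1 + (M i + vec (D i + 1)).2) % 2 = 1 := by
    have := vpar (D i + 1)
    simp only [Prod.fst_add, Prod.snd_add]
    omega
  have h1 := Wd_jump h.toDPath hN (h.odd hz) (D i - 1)
  have w1 : vec (D i - 1) = - vec (D i + 1) := by
    have := (vec_nt (D i - 1)).1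
    rw [show D i - 1 + 2 = D i + 1 by ring] at this
    rw [this, neg_neg]
  have a1 : M i + vec (D i + 1) + dv (D i - 1) = M i + vec (D i) := by rw [v3]; abel
  have a2 : M i + vec (D i + 1) + vec (D i - 1) = M i := by rw [w1]; abel
  have a3 : M i + vec (D i + 1) + vec (D i - 1 + 1) = M (i + 1) := by
    rw [h.step i, v2, sub_add_cancel]; abel
  rw [a1] at h1
  have h2 : ∑ j ∈ range N, cr (M i + vec (D i + 1)) (D i - 1) (M j) (M (j + 1)) = 1 := by
    rw [sum_eq_single (i % N)]
    · unfold cr
      rw [a2, a3, if_pos ⟨h.M_mod i, h.succ_eq (h.M_mod i)⟩, if_neg, sub_zero]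
      rintro ⟨b1, -⟩
      rw [h.M_mod] at b1
      exact h.inj 1 le_rfl (by omega) i b1.symm
    · intro j hj hji
      rw [mem_range] at hj
      unfold cr
      rw [a2, a3, if_neg, if_neg, sub_zero]
      · rintro ⟨b1, b2⟩
        have b3 := h.succ_eq b1
        rw [b2] at b3
        exact h.inj 2 (by omega) (by omega) i b3.symm
      · rintro ⟨b1, -⟩
        have b3 := h.mod b1
        rw [Nat.mod_eq_of_lt hj] at b3
        exact hji b3
    · intro hn
      exact absurd (mem_range.2 (Nat.mod_lt _ (by omega))) hn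
  omega

/-- The winding number on the left of the path is constant. -/
theorem SC.left_const (h : SC M D N) (i : ℕ) :
    Wd M N (M i + vec (D i + 1)) = Wd M N (M 0 + vec (D 0 + 1)) := by
  induction i with
  | zero => rfl
  | succ i ih =>
    rw [← ih]
    have hp := h.pos
    have ht := abs_le.1 (h.turn i)
    obtain ⟨v1, v2, v3, v4⟩ := vec_nt (D i)
    have j1 := h.step_jump i
    have j2 := h.step_jump (i + 1)
    rcases (by omega : D (i + 1) = D i ∨ D (i + 1) = D i + 1 ∨ D (i + 1) = D i - 1) with hd | hd | hd
    · have hz : ((M i + vec (D i + 1)).1 + (M i + vec (D i + 1)).2) % 2 = 1 := by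
        have := vpar (D i + 1)
        have e4 := h.ev' i
        simp only [Prod.fst_add, Prod.snd_add]
        omega
      have key := h.free hz (d := D i) (by
        intro j
        have q1 : M i + vec (D i + 1) + vec (D i) = M (i + 1) := by
          rw [h.step i, v2]; abel
        rw [q1]
        constructor
        · rintro ⟨b1, b2⟩
          have b3 := h.succ_eq b1
          rw [b2, h.step (i + 1), hd, h.step i, v2] at b3
          apply v4
          have : M i + vec (D i + 1) + vec (D i + 1) - (M i + (vec (D i) + vec (D i + 1)) +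
            (vec (D i) + vec (D i + 1))) = 0 := sub_eq_zero.2 b3
          have h5 : vec (D i) + vec (D i) = -(M i + vec (D i + 1) + vec (D i + 1) -
            (M i + (vec (D i) + vec (D i + 1)) + (vec (D i) + vec (D i + 1)))) := by abel
          rw [h5, this, neg_zero]
        · rintro ⟨b1, b2⟩
          have b3 := h.pred_eq b2
          rw [b3] at b1
          apply (vec_nt (D i + 1)).2.2.2
          have : M i - (M i + vec (D i + 1) + vec (D i + 1)) = 0 := sub_eq_zero.2 b1
          have h5 : vec (D i + 1) + vec (D i + 1) =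
            -(M i - (M i + vec (D i + 1) + vec (D i + 1))) := by abel
          rw [h5, this, neg_zero])
      rw [hd, key, h.step i]
      congr 1
      abel
    · have : M (i + 1) + vec (D (i + 1) + 1) = M i + vec (D i + 1) := by
        rw [h.step i, hd, show D i + 1 + 1 = D i + 2 by ring, v1, v2]
        abel
      rw [this]
    · have : M (i + 1) + vec (D (i + 1)) = M i + vec (D i) := by
        have w1 : vec (D i - 1) = - vec (D i + 1) := by
          have := (vec_nt (D i - 1)).1
          rw [show D i - 1 + 2 = D i + 1 by ring] at this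
          rw [this, neg_neg]
        rw [h.step i, hd, v2, w1]
        abel
      rw [j2, this, ← j1]

/-! ### far away -/

theorem SC.up (_h : SC M D N) {z : ℤ × ℤ} (hz : ∀ i, (M i).2 < z.2) : Wd M N z = 0 := by
  unfold Wd
  refine sum_eq_zero fun i _ => kap_neg ?_ ?_
  · simp only [Prod.snd_sub]; have := hz i; omega
  · simp only [Prod.snd_sub]; have := hz (i + 1); omega

theorem SC.down (_h : SC M D N) {z : ℤ × ℤ} (hz : ∀ i, z.2 < (M i).2) : Wd M N z = 0 := by
  unfold Wd
  refine sum_eq_zero fun i _ => kap_pos ?_ ?_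
  · simp only [Prod.snd_sub]; have := hz i; omega
  · simp only [Prod.snd_sub]; have := hz (i + 1); omega

theorem SC.right (_h : SC M D N) {z : ℤ × ℤ} (hz : ∀ i, (M i).1 < z.1) : Wd M N z = 0 := by
  unfold Wd
  refine sum_eq_zero fun i _ => ?_
  unfold kap
  have h1 := hz i
  have h2 := hz (i + 1)
  rw [if_neg (by simp only [Prod.fst_sub, Prod.snd_sub]; omega),
    if_neg (by simp only [Prod.fst_sub, Prod.snd_sub]; omega), sub_zero]

theorem SC.left (h : SC M D N) {z : ℤ × ℤ} (hz : ∀ i, z.1 < (M i).1) : Wd M N z = 0 := by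
  have key : ∀ n, Wd M n z = (if 0 ≤ (M n).2 - z.2 then 1 else 0) -
      (if 0 ≤ (M 0).2 - z.2 then 1 else 0) := by
    intro n
    induction n with
    | zero => simp [Wd]
    | succ n ih =>
      have h1 := hz n
      have h2 := hz (n + 1)
      have e : Wd M (n + 1) z = Wd M n z + kap (M n - z) (M (n + 1) - z) := by
        unfold Wd; rw [sum_range_succ]
      rw [e, ih]
      unfold kap
      simp only [Prod.fst_sub, Prod.snd_sub]
      split_ifs <;> omega
  have h3 : M N = M 0 := by simpa using h.per 0
  rw [key, h3, sub_self]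

theorem SC.bound (h : SC M D N) : ∃ B : ℤ, ∀ i, (M i).2 < B := by
  refine ⟨(∑ i ∈ range N, |(M i).2|) + 1, fun i => ?_⟩
  rw [← h.M_mod]
  have h1 : |(M (i % N)).2| ≤ ∑ i ∈ range N, |(M i).2| :=
    single_le_sum (f := fun i => |(M i).2|) (fun _ _ => abs_nonneg _)
      (mem_range.2 (Nat.mod_lt _ (by have := h.pos; omega)))
  have := le_abs_self (M (i % N)).2
  omega

/-- The values of the winding number. -/
theorem SC.values (h : SC M D N) {z : ℤ × ℤ} (hz : (z.1 + z.2) % 2 = 1) :
    Wd M N z = 0 ∨ Wd M N z = Wd M N (M 0 + vec (D 0 + 1)) ∨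
      Wd M N z = Wd M N (M 0 + vec (D 0 + 1)) - 1 := by
  obtain ⟨B, hB⟩ := h.bound
  have key : ∀ n : ℕ, ∀ z : ℤ × ℤ, (z.1 + z.2) % 2 = 1 → B ≤ z.2 + n →
      Wd M N z = 0 ∨ Wd M N z = Wd M N (M 0 + vec (D 0 + 1)) ∨
      Wd M N z = Wd M N (M 0 + vec (D 0 + 1)) - 1 := by
    intro n
    induction n with
    | zero =>
      intro z _ hn
      left
      exact h.up fun i => by have := hB i; push_cast at hn; omega
    | succ n ih =>
      intro z hz hn
      by_cases hf : ∀ i, ¬ (M i = z + vec 0 ∧ M (i + 1) = z + vec (0 + 1)) ∧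
          ¬ (M i = z + vec (0 + 1) ∧ M (i + 1) = z + vec 0)
      · rw [h.free hz hf]
        have e : dv 0 = (1, 1) := rfl
        apply ih
        · rw [e]; simp only [Prod.fst_add, Prod.snd_add]; omega
        · rw [e]; simp only [Prod.snd_add]; push_cast at hn; omega
      · right
        rw [not_forall] at hf
        obtain ⟨i, hi⟩ := hf
        rw [← h.left_const i]
        rw [zero_add] at hi
        have e0 : vec 0 = (1, 0) := rfl
        have e1 : vec 1 = (0, 1) := rfl
        have hi' : (M i = z + vec 0 ∧ M (i + 1) = z + vec 1) ∨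
            (M i = z + vec 1 ∧ M (i + 1) = z + vec 0) := by tauto
        rcases hi' with ⟨a, b⟩ | ⟨a, b⟩
        · left
          have hd : dv (D i) = (-1, 1) := by
            have h1 := h.step i
            rw [a, b, e0, e1] at h1
            have h2 := congrArg Prod.fst h1
            have h3 := congrArg Prod.snd h1
            simp only [Prod.fst_add, Prod.snd_add] at h2 h3
            ext <;> simp only <;> omega
          have hd' : D i % 4 = 1 := by
            rcases dv_cases (D i) with ⟨c, d⟩ | ⟨c, d⟩ | ⟨c, d⟩ | ⟨c, d⟩ <;> rw [hd] at d <;>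
              simp_all
          rw [a, vec_congr (show (D i + 1) % 4 = 2 % 4 by omega), e0]
          congr 1
          have : vec 2 = (-1, 0) := rfl
          rw [this]
          ext <;> simp
        · right
          have hd : dv (D i) = (1, -1) := by
            have h1 := h.step i
            rw [a, b, e0, e1] at h1
            have h2 := congrArg Prod.fst h1
            have h3 := congrArg Prod.snd h1
            simp only [Prod.fst_add, Prod.snd_add] at h2 h3
            ext <;> simp only <;> omega
          have hd' : D i % 4 = 3 := by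
            rcases dv_cases (D i) with ⟨c, d⟩ | ⟨c, d⟩ | ⟨c, d⟩ | ⟨c, d⟩ <;> rw [hd] at d <;>
              simp_all
          have h4 : M i + vec (D i) = z := by
            rw [a, vec_congr (show D i % 4 = 3 % 4 by omega), e1]
            have : vec 3 = (0, -1) := rfl
            rw [this]
            ext <;> simp
          have h5 := h.step_jump i
          rw [h4] at h5
          omega
  exact key (B - z.2).toNat z hz (by omega)

/-- The winding numbers on the two sides of the path. -/
theorem SC.sides (h : SC M D N) {s : ℤ} (hs : D N - D 0 = 4 * s) :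
    (s = 1 ∨ s = -1) ∧ ∀ i, Wd M N (M i + vec (D i + 1)) = (1 + s) / 2 ∧
      Wd M N (M i + vec (D i)) = (s - 1) / 2 := by
  have hp := h.pos
  obtain ⟨k, _, hmin⟩ := Finset.exists_min_image (range N)
    (fun i => toLex ((M i).2, (M i).1)) ⟨0, by rw [Finset.mem_range]; omega⟩
  have hlow : ∀ i, (M k).2 < (M i).2 ∨ (M k).2 = (M i).2 ∧ (M k).1 ≤ (M i).1 := by
    intro i
    have h1 := hmin (i % N) (Finset.mem_range.mpr (Nat.mod_lt _ (by omega)))
    rw [Prod.Lex.toLex_le_toLex, h.M_mod] at h1
    exact h1
  have hcs := h.toDPath.closed_sign hp h.per h.inj hlow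
  have hn := hlow (k + 1)
  have hst := h.step k
  have hst1 := congrArg Prod.fst hst
  have hst2 := congrArg Prod.snd hst
  simp only [Prod.fst_add, Prod.snd_add] at hst1 hst2
  have hev := h.ev' k
  have main : ((s = 1 ∧ Wd M N (M k + vec (D k + 1)) = 1) ∨
      (s = -1 ∧ Wd M N (M k + vec (D k + 1)) = 0)) := by
    rcases dv_cases (D k) with ⟨a, b⟩ | ⟨a, b⟩ | ⟨a, b⟩ | ⟨a, b⟩
    · left
      rw [b] at hcs
      refine ⟨by simp only at hcs; omega, ?_⟩
      rw [h.step_jump k, vec_congr (show D k % 4 = 0 % 4 by omega)]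
      have e0 : vec 0 = (1, 0) := rfl
      have e3 : vec 3 = (0, -1) := rfl
      have e4 : vec (3 + 1) = (1, 0) := rfl
      have ed : dv 3 = (1, -1) := rfl
      rw [e0]
      have key := h.free (z := M k + (1, 0)) (by simp only [Prod.fst_add, Prod.snd_add]; omega)
        (d := 3) (by
          intro j
          rw [e3, e4]
          have l1 := hlow j
          have l2 := hlow (j + 1)
          constructor
          · rintro ⟨b1, -⟩
            rw [b1] at l1
            simp only [Prod.fst_add, Prod.snd_add] at l1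
            omega
          · rintro ⟨-, b1⟩
            rw [b1] at l2
            simp only [Prod.fst_add, Prod.snd_add] at l2
            omega)
      rw [key, ed]
      have := h.down (z := M k + (1, 0) + (1, -1)) (fun i => by
        have := hlow i
        simp only [Prod.snd_add]
        omega)
      rw [this]; rfl
    · right
      rw [b] at hcs
      refine ⟨by simp only at hcs; omega, ?_⟩
      rw [vec_congr (show (D k + 1) % 4 = 2 % 4 by omega)]
      have e0 : vec 2 = (-1, 0) := rfl
      have e3 : vec (2 + 1) = (0, -1) := rfl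
      have ed : dv 2 = (-1, -1) := rfl
      rw [e0]
      have key := h.free (z := M k + (-1, 0)) (by simp only [Prod.fst_add, Prod.snd_add]; omega)
        (d := 2) (by
          intro j
          rw [e3, e0]
          have l1 := hlow j
          have l2 := hlow (j + 1)
          constructor
          · rintro ⟨b1, -⟩
            rw [b1] at l1
            simp only [Prod.fst_add, Prod.snd_add] at l1
            omega
          · rintro ⟨b1, -⟩
            rw [b1] at l1
            simp only [Prod.fst_add, Prod.snd_add] at l1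
            omega)
      rw [key, ed]
      exact h.down (z := M k + (-1, 0) + (-1, -1)) (fun i => by
        have := hlow i
        simp only [Prod.snd_add]
        omega)
    · exfalso
      rw [b] at hst1 hst2
      simp only at hst1 hst2
      omega
    · exfalso
      rw [b] at hst1 hst2
      simp only at hst1 hst2
      omega
  have hK : Wd M N (M k + vec (D k + 1)) = Wd M N (M 0 + vec (D 0 + 1)) := h.left_const k
  refine ⟨by rcases main with ⟨a, _⟩ | ⟨a, _⟩ <;> [left; right] <;> exact a, fun i => ?_⟩
  have h1 := h.left_const i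
  have h2 := h.step_jump i
  rcases main with ⟨rfl, a⟩ | ⟨rfl, a⟩
  · omega
  · omega

end Vale.Agent.P167.H871
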